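import Vale.Agent.P254.E.CurveDefs

/-! The moments of the model family in terms of `cJ` and `cG`. -/

namespace Vale.P254.E

open MeasureTheory Set Real Filter Topology

/-- Continuous functions below a quadratic times `exp (-t)` are integrable on `Ioi a`. -/
theorem integrableOn_quad_exp {a K : ℝ} (ha : 0 ≤ a) {f : ℝ → ℝ} (hf : Measurable f)
    (h : ∀ t, a < t → |f t| ≤ K * (1 + t ^ 2)) :
    IntegrableOn (fun t => f t * exp (-t)) (Ioi a) := by
  have p := GammaIntegral_convergent (show (0 : ℝ) < 1 by norm_num)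
  have q := GammaIntegral_convergent (show (0 : ℝ) < 3 by norm_num)
  have h1 : IntegrableOn (fun x => K * (exp (-x) * x ^ ((1:ℝ) - 1) + exp (-x) * x ^ ((3:ℝ) - 1)))
      (Ioi 0) := (p.add q).const_mul K
  have h0 := h1.mono_set (Ioi_subset_Ioi ha)
  refine h0.mono' ((hf.mul (by fun_prop)).aestronglyMeasurable) ?_
  refine (ae_restrict_iff' measurableSet_Ioi).2 (Eventually.of_forall fun t ht => ?_)
  have ht0 : 0 < t := lt_of_le_of_lt ha ht
  rw [Real.norm_eq_abs, abs_mul, abs_of_pos (exp_pos _)]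
  refine (mul_le_mul_of_nonneg_right (h t ht) (exp_pos _).le).trans (le_of_eq ?_)
  norm_num
  ring

theorem tendsto_quad_exp {a K : ℝ} {f : ℝ → ℝ} (h : ∀ t, a < t → |f t| ≤ K * (1 + t ^ 2)) :
    Tendsto (fun t => f t * exp (-t)) atTop (𝓝 0) := by
  have h0 := ((tendsto_pow_mul_exp_neg_atTop_nhds_zero 0).add
    (tendsto_pow_mul_exp_neg_atTop_nhds_zero 2)).const_mul K
  rw [add_zero, mul_zero] at h0
  refine squeeze_zero_norm' ?_ h0
  filter_upwards [eventually_gt_atTop a] with t ht
  rw [Real.norm_eq_abs, abs_mul, abs_of_pos (exp_pos _)]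
  refine (mul_le_mul_of_nonneg_right (h t ht) (exp_pos _).le).trans (le_of_eq ?_)
  ring

theorem abs_log_le' {a t : ℝ} (ha : 0 < a) (ht : a < t) :
    |log t| ≤ (1 + 1 / a) * (1 + t ^ 2) ∧ log t ^ 2 ≤ 2 * (1 + 1 / a) ^ 2 * (1 + t ^ 2) := by
  have ht0 : 0 < t := ha.trans ht
  have h1 := log_le_sub_one_of_pos ht0
  have h2 := log_le_sub_one_of_pos (inv_pos.2 ht0)
  rw [log_inv] at h2
  have h3 : t⁻¹ ≤ 1 / a := by rw [one_div]; exact inv_anti₀ ha ht.le
  have ha' : 0 < 1 / a := by positivity
  have h4 : |log t| ≤ t + 1 / a := abs_le.2 ⟨by linarith, by linarith⟩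
  refine ⟨h4.trans ?_, ?_⟩
  · nlinarith [sq_nonneg (t - 1)]
  · have h5 : log t ^ 2 ≤ (t + 1 / a) ^ 2 := by
      rw [← sq_abs]; exact pow_le_pow_left₀ (abs_nonneg _) h4 2
    refine h5.trans ?_
    nlinarith [sq_nonneg (t - 1 / a), sq_nonneg t, mul_nonneg ha'.le (sq_nonneg t)]

theorem hasDerivAt_exp_neg (t : ℝ) : HasDerivAt (fun t => exp (-t)) (-exp (-t)) t := by
  simpa using (hasDerivAt_id t).neg.exp

/-- Fundamental theorem of calculus for `F t * exp (-t)` on `Ioi a`. -/
theorem integral_deriv_exp {a : ℝ} {F F' : ℝ → ℝ} (hd : ∀ t, a ≤ t → HasDerivAt F (F' t) t)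
    (hi : IntegrableOn (fun t => (F' t - F t) * exp (-t)) (Ioi a))
    (hl : Tendsto (fun t => F t * exp (-t)) atTop (𝓝 0)) :
    ∫ t in Ioi a, (F' t - F t) * exp (-t) = -(F a * exp (-a)) := by
  rw [integral_Ioi_of_hasDerivAt_of_tendsto' (fun t ht => ?_) hi hl, zero_sub]
  exact ((hd t ht).mul (hasDerivAt_exp_neg t)).congr_deriv (by ring)

theorem exp_mul_exp_neg (a : ℝ) : exp a * exp (-a) = 1 := by
  rw [← exp_add, add_neg_cancel, exp_zero]

theorem tail_one (a : ℝ) : exp a * ∫ t in Ioi a, exp (-t) = 1 := by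
  rw [integral_exp_neg_Ioi, exp_mul_exp_neg]

theorem tail_sq {a : ℝ} (ha : 0 < a) :
    exp a * ∫ t in Ioi a, t ^ 2 * exp (-t) = a ^ 2 + 2 * a + 2 := by
  have h := integral_deriv_exp (a := a) (F := fun t => -(t ^ 2 + 2 * t + 2))
    (F' := fun t => -(2 * t + 2)) (fun t _ => ?_) ?_ ?_
  · have e : ∫ t in Ioi a, t ^ 2 * exp (-t) =
        ∫ t in Ioi a, (-(2 * t + 2) - -(t ^ 2 + 2 * t + 2)) * exp (-t) :=
      setIntegral_congr_fun measurableSet_Ioi fun t _ => by ring
    rw [e, h]
    linear_combination (a ^ 2 + 2 * a + 2) * exp_mul_exp_neg a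
  · exact ((((hasDerivAt_id t).pow 2).add ((hasDerivAt_id t).const_mul 2)).add_const 2).neg.congr_deriv
      (by simp)
  · refine integrableOn_quad_exp ha.le (K := 1) (by fun_prop) fun t _ => ?_
    rw [show -(2 * t + 2) - -(t ^ 2 + 2 * t + 2) = t ^ 2 by ring, abs_of_nonneg (sq_nonneg t)]
    linarith
  · refine tendsto_quad_exp (a := a) (K := 3) fun t ht => ?_
    have : 0 < t := ha.trans ht
    rw [abs_neg, abs_of_pos (by positivity)]
    nlinarith [sq_nonneg (t - 1)]

theorem integrableOn_inv_exp {a : ℝ} (ha : 0 < a) :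
    IntegrableOn (fun t => exp (-t) / t) (Ioi a) := by
  refine (integrableOn_quad_exp ha.le (K := 1 / a) measurable_inv fun t ht => ?_).congr_fun
    (fun t _ => by ring) measurableSet_Ioi
  have ht0 : 0 < t := ha.trans ht
  rw [abs_of_pos (inv_pos.2 ht0)]
  refine le_trans ?_ (le_mul_of_one_le_right (by positivity) (by nlinarith))
  rw [one_div]; exact inv_anti₀ ha ht.le

theorem integrableOn_log_inv_exp {a : ℝ} (ha : 0 < a) :
    IntegrableOn (fun t => log t * exp (-t) / t) (Ioi a) := by
  refine (integrableOn_quad_exp ha.le (K := (1 + 1 / a) * (1 / a))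
    (measurable_log.mul measurable_inv) fun t ht => ?_).congr_fun
    (fun t _ => by simp only [Pi.mul_apply]; ring) measurableSet_Ioi
  have ht0 : 0 < t := ha.trans ht
  simp only [Pi.mul_apply]
  rw [abs_mul, abs_of_pos (inv_pos.2 ht0)]
  calc |log t| * t⁻¹ ≤ (1 + 1 / a) * (1 + t ^ 2) * (1 / a) :=
        mul_le_mul (abs_log_le' ha ht).1 (by rw [one_div]; exact inv_anti₀ ha ht.le)
          (inv_pos.2 ht0).le (by positivity)
    _ = _ := by ring

theorem integrableOn_log_exp {a : ℝ} (ha : 0 < a) :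
    IntegrableOn (fun t => log t * exp (-t)) (Ioi a) :=
  integrableOn_quad_exp ha.le measurable_log fun _ ht => (abs_log_le' ha ht).1

theorem integrableOn_log_sq_exp {a : ℝ} (ha : 0 < a) :
    IntegrableOn (fun t => log t ^ 2 * exp (-t)) (Ioi a) :=
  integrableOn_quad_exp ha.le (measurable_log.pow_const 2) fun t ht => by
    rw [abs_of_nonneg (sq_nonneg _)]; exact (abs_log_le' ha ht).2

theorem tail_log {a : ℝ} (ha : 0 < a) :
    exp a * ∫ t in Ioi a, log t * exp (-t) = log a + cJ a := by
  have hi : IntegrableOn (fun t => (-t⁻¹ - -log t) * exp (-t)) (Ioi a) :=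
    IntegrableOn.congr_fun ((integrableOn_log_exp ha).sub (integrableOn_inv_exp ha))
      (fun t _ => by simp only [Pi.sub_apply]; ring) measurableSet_Ioi
  have h := integral_deriv_exp (a := a) (F := fun t => -log t) (F' := fun t => -t⁻¹)
    (fun t ht => (hasDerivAt_log (by linarith)).neg) hi
    (tendsto_quad_exp (a := a) fun t ht => by rw [abs_neg]; exact (abs_log_le' ha ht).1)
  have e : ∫ t in Ioi a, (-t⁻¹ - -log t) * exp (-t) =
      ∫ t in Ioi a, (log t * exp (-t) - exp (-t) / t) :=
    setIntegral_congr_fun measurableSet_Ioi fun t _ => by ring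
  rw [e, integral_sub (integrableOn_log_exp ha) (integrableOn_inv_exp ha)] at h
  have h' : ∫ t in Ioi a, log t * exp (-t) =
      (∫ t in Ioi a, exp (-t) / t) + log a * exp (-a) := by linarith
  rw [h', cJ]
  linear_combination (log a) * exp_mul_exp_neg a

theorem tail_log_sq {a : ℝ} (ha : 0 < a) :
    exp a * ∫ t in Ioi a, log t ^ 2 * exp (-t) = log a ^ 2 + 2 * log a * cJ a + cG a := by
  have i2 := (integrableOn_log_inv_exp ha).const_mul 2
  have hi : IntegrableOn (fun t => (-(2 * log t * t⁻¹) - -log t ^ 2) * exp (-t)) (Ioi a) :=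
    IntegrableOn.congr_fun ((integrableOn_log_sq_exp ha).sub i2)
      (fun t _ => by simp only [Pi.sub_apply]; ring) measurableSet_Ioi
  have h := integral_deriv_exp (a := a) (F := fun t => -log t ^ 2)
    (F' := fun t => -(2 * log t * t⁻¹))
    (fun t ht => ((hasDerivAt_log (by linarith)).pow 2).neg.congr_deriv (by simp)) hi
    (tendsto_quad_exp (a := a) fun t ht => by
      rw [abs_neg, abs_of_nonneg (sq_nonneg _)]; exact (abs_log_le' ha ht).2)
  have e : ∫ t in Ioi a, (-(2 * log t * t⁻¹) - -log t ^ 2) * exp (-t) =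
      ∫ t in Ioi a, (log t ^ 2 * exp (-t) - 2 * (log t * exp (-t) / t)) :=
    setIntegral_congr_fun measurableSet_Ioi fun t _ => by ring
  rw [e, integral_sub (integrableOn_log_sq_exp ha) i2, integral_const_mul] at h
  have eG : ∫ t in Ioi a, log (t / a) * exp (-t) / t =
      (∫ t in Ioi a, log t * exp (-t) / t) - log a * ∫ t in Ioi a, exp (-t) / t := by
    rw [← integral_const_mul, ← integral_sub (integrableOn_log_inv_exp ha)
      ((integrableOn_inv_exp ha).const_mul _)]
    refine setIntegral_congr_fun measurableSet_Ioi fun t ht => ?_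
    have ht0 : 0 < t := ha.trans ht
    simp only [log_div ht0.ne' ha.ne']
    ring
  have h' : ∫ t in Ioi a, log t ^ 2 * exp (-t) =
      2 * (∫ t in Ioi a, log t * exp (-t) / t) + log a ^ 2 * exp (-a) := by linarith
  rw [h', cJ, cG, eG]
  linear_combination (log a ^ 2) * exp_mul_exp_neg a

/-- A moment of the model: the flat part and the tail. -/
theorem mom_split {f : ℝ → ℝ} (hf : Wt f) {a : ℝ} (ha : 0 < a) :
    mom f (a / (1 + a)) = (∫ x in (0:ℝ)..(a / (1 + a)), f x) +
      1 / (1 + a) * (exp a * ∫ t in Ioi a, f (1 / (1 + a) * t) * exp (-t)) := by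
  set θ := a / (1 + a) with hθd
  set c := 1 / (1 + a) with hcd
  have hc : 0 < c := by positivity
  have hθ0 : 0 < θ := by positivity
  have hθ1 : θ < 1 := by rw [hθd, div_lt_one (by positivity)]; linarith
  have h1c : 1 - θ = c := by rw [hθd, hcd]; field_simp; ring
  have hI := integrableOn_model ⟨hθ0.le, hθ1.le⟩ hf
  unfold mom
  rw [← Ioc_union_Ioi_eq_Ioi hθ0.le, setIntegral_union Ioc_disjoint_Ioi_same measurableSet_Ioi
    (hI.mono_set Ioc_subset_Ioi_self) (hI.mono_set (Ioi_subset_Ioi hθ0.le)),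
    intervalIntegral.integral_of_le hθ0.le]
  congr 1
  · exact setIntegral_congr_fun measurableSet_Ioc fun x hx => by
      simp only [model_eq_one hθ1.le hx.2, one_mul]
  · have hs := integral_comp_mul_left_Ioi (fun x => model θ x * f x) a hc
    rw [show c * a = θ by rw [hθd, hcd]; ring, smul_eq_mul] at hs
    have e : ∫ t in Ioi a, model θ (c * t) * f (c * t) =
        exp a * ∫ t in Ioi a, f (c * t) * exp (-t) := by
      rw [← integral_const_mul]
      refine setIntegral_congr_fun measurableSet_Ioi fun t ht => ?_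
      have h : θ ≤ c * t := by
        rw [show θ = c * a by rw [hθd, hcd]; ring]; exact mul_le_mul_of_nonneg_left (le_of_lt ht) hc.le
      have e2 : (c * t - θ) / (1 - θ) = t - a := by
        rw [h1c, show θ = c * a by rw [hθd, hcd]; ring]; field_simp
      simp only [model, if_pos hθ1, max_eq_left (sub_nonneg.2 h), e2, neg_sub]
      rw [show a - t = a + -t by ring, exp_add]
      ring
    rw [e] at hs
    rw [hs]
    field_simp

theorem continuous_mul_log_sq : ContinuousOn (fun x : ℝ => x * log x ^ 2) (Ici 0) := by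
  refine (((continuous_mul_log.comp continuous_sqrt).pow 2).const_mul 4).continuousOn.congr
    fun x hx => ?_
  simp only [Pi.pow_apply, Function.comp, log_sqrt hx, mul_pow, sq_sqrt hx]
  ring

theorem integral_log_sq_unit {θ : ℝ} (h0 : 0 < θ) (h1 : θ ≤ 1) :
    ∫ x in (0:ℝ)..θ, log x ^ 2 = θ * (log θ ^ 2 - 2 * log θ + 2) := by
  have hc : ContinuousOn (fun x => x * log x ^ 2 - 2 * (x * log x) + 2 * x) (Icc 0 θ) :=
    (((continuous_mul_log_sq.mono fun x hx => hx.1).sub
      ((continuous_mul_log.const_mul 2).continuousOn)).add (continuousOn_id.const_mul 2))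
  have hI : IntervalIntegrable (fun x => log x ^ 2) volume 0 θ := by
    rw [intervalIntegrable_iff_integrableOn_Ioc_of_le h0.le]
    refine ((integrableOn_model ⟨h0.le, h1⟩ wt_log_sq).mono_set Ioc_subset_Ioi_self).congr_fun
      (fun x hx => ?_) measurableSet_Ioc
    simp only [model_eq_one h1 hx.2, one_mul]
  rw [intervalIntegral.integral_eq_sub_of_hasDerivAt_of_le h0.le hc (fun x hx => ?_) hI]
  · simp only [zero_mul, mul_zero, sub_zero, add_zero]; ring
  · have hx0 : x ≠ 0 := hx.1.ne'
    have l := hasDerivAt_log hx0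
    exact ((((hasDerivAt_id x).mul (l.pow 2)).sub (((hasDerivAt_id x).mul l).const_mul 2)).add
      ((hasDerivAt_id x).const_mul 2)).congr_deriv (by simp; field_simp; ring)

theorem mom_one_curve {a : ℝ} (ha : 0 < a) : mom (fun _ => 1) (a / (1 + a)) = 1 := by
  rw [mom_split wt_one ha]
  simp only [one_mul, intervalIntegral.integral_const, smul_eq_mul, mul_one, tail_one, sub_zero]
  field_simp; ring

theorem mdE_curve {a : ℝ} (ha : 0 < a) :
    mdE (a / (1 + a)) = log (a / (1 + a)) + (cJ a - a) / (1 + a) := by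
  set c := 1 / (1 + a) with hcd
  have hc : 0 < c := by positivity
  have e : ∫ t in Ioi a, log (c * t) * exp (-t) =
      log c * (∫ t in Ioi a, exp (-t)) + ∫ t in Ioi a, log t * exp (-t) := by
    rw [← integral_const_mul, ← integral_add ((integrableOn_exp_neg_Ioi a).const_mul _)
      (integrableOn_log_exp ha)]
    refine setIntegral_congr_fun measurableSet_Ioi fun t ht => ?_
    simp only [log_mul hc.ne' (ha.trans ht).ne']
    ring
  have hl : log (a / (1 + a)) = log a + log c := by
    rw [hcd, ← log_mul ha.ne' (by positivity)]; ring_nf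
  rw [mdE, mom_one_curve ha, div_one, mom_split wt_log ha, integral_log, ← hcd, e, mul_add,
    mul_left_comm, tail_one, tail_log ha, hl, hcd]
  field_simp; ring

theorem mom_log_sq_curve {a : ℝ} (ha : 0 < a) :
    mom (fun x => log x ^ 2) (a / (1 + a)) =
      a / (1 + a) * (log (a / (1 + a)) ^ 2 - 2 * log (a / (1 + a)) + 2) +
      1 / (1 + a) * (log (a / (1 + a)) ^ 2 + 2 * log (a / (1 + a)) * cJ a + cG a) := by
  set c := 1 / (1 + a) with hcd
  have hc : 0 < c := by positivity
  have e : ∫ t in Ioi a, log (c * t) ^ 2 * exp (-t) =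
      log c ^ 2 * (∫ t in Ioi a, exp (-t)) + 2 * log c * (∫ t in Ioi a, log t * exp (-t))
        + ∫ t in Ioi a, log t ^ 2 * exp (-t) := by
    have i1 := (integrableOn_exp_neg_Ioi a).const_mul (log c ^ 2)
    have i2 := (integrableOn_log_exp ha).const_mul (2 * log c)
    have i12 : IntegrableOn (fun t => log c ^ 2 * exp (-t) + 2 * log c * (log t * exp (-t)))
        (Ioi a) := i1.add i2
    rw [← integral_const_mul, ← integral_const_mul, ← integral_add i1 i2,
      ← integral_add i12 (integrableOn_log_sq_exp ha)]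
    refine setIntegral_congr_fun measurableSet_Ioi fun t ht => ?_
    simp only [log_mul hc.ne' (ha.trans ht).ne']
    ring
  have hl : log (a / (1 + a)) = log a + log c := by
    rw [hcd, ← log_mul ha.ne' (by positivity)]; ring_nf
  rw [mom_split wt_log_sq ha, integral_log_sq_unit (by positivity)
    (by rw [div_le_one (by positivity)]; linarith), ← hcd, e, mul_add (exp a), mul_add (exp a),
    mul_left_comm (exp a), mul_left_comm (exp a) (2 * log c), tail_one, tail_log ha,
    tail_log_sq ha, hl]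
  ring

theorem mdQ_curve {a : ℝ} (ha : 0 < a) :
    mdQ (a / (1 + a)) = (a / (1 + a)) ^ 2 * cQ a := by
  have e : ∫ t in Ioi a, (1 / (1 + a) * t) ^ 2 * exp (-t) =
      (1 / (1 + a)) ^ 2 * ∫ t in Ioi a, t ^ 2 * exp (-t) := by
    rw [← integral_const_mul]
    exact setIntegral_congr_fun measurableSet_Ioi fun t _ => by ring
  rw [mdQ, mom_one_curve ha, div_one, mom_split wt_sq ha, integral_pow, e,
    mul_left_comm (exp a), tail_sq ha, cQ]
  have : (1 : ℝ) + a ≠ 0 := by positivity
  have : a + 1 ≠ 0 := by positivity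
  simp only [div_pow]
  field_simp
  ring

theorem curveLink : CurveLink := by
  intro a ha
  have hl := mdE_curve ha
  refine ⟨?_, ?_⟩
  · rw [mdS, mom_one_curve ha, div_one, mom_log_sq_curve ha, hl, cS, cV]
    field_simp; ring
  · have hQ : 0 < cQ a := by unfold cQ; positivity
    rw [mdQ_curve ha, hl, cR, log_mul (by positivity) hQ.ne', log_pow]
    push_cast; ring

theorem mom_end (f : ℝ → ℝ) : mom f 1 = ∫ x in (0:ℝ)..1, f x := by
  unfold mom
  rw [intervalIntegral.integral_of_le zero_le_one, setIntegral_eq_of_subset_of_forall_sdiff_eq_zero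
    measurableSet_Ioi Ioc_subset_Ioi_self fun x hx => ?_]
  · exact setIntegral_congr_fun measurableSet_Ioc fun x hx => by
      simp only [model_eq_one le_rfl hx.2, one_mul]
  · have : ¬ x ≤ 1 := fun h => hx.2 ⟨hx.1, h⟩
    simp [model, this]

theorem endLink : EndLink := by
  have h1 : mom (fun _ => 1) 1 = 1 := by rw [mom_end]; simp
  have hE : mdE 1 = -1 := by rw [mdE, h1, div_one, mom_end, integral_log]; simp
  refine ⟨?_, hE, ?_⟩
  · rw [mdS, h1, div_one, hE, mom_end, integral_log_sq_unit one_pos le_rfl]; norm_num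
  · rw [mdQ, h1, div_one, mom_end, integral_pow]; norm_num

end Vale.P254.E
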