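import Vale.Agent.P254.E.CurveBase

/-! Certified values on the model family and the reduction of `OneDimA` to a finite check. -/

namespace Vale.P254.E

open MeasureTheory Set Real Filter Topology
open scoped Interval

/-- A point with bounds: `lo ≤ cJ a ≤ hi`, `glo ≤ cG a ≤ ghi`, `la ≤ log a`. -/
structure Row where
  a : ℚ
  lo : ℚ
  hi : ℚ
  glo : ℚ
  ghi : ℚ
  la : ℚ

/-- What a row claims. -/
def Row.Good (r : Row) : Prop :=
  0 < (r.a : ℝ) ∧ (r.lo : ℝ) ≤ cJ r.a ∧ cJ r.a ≤ r.hi ∧ (r.glo : ℝ) ≤ cG r.a ∧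
    cG r.a ≤ r.ghi ∧ (r.la : ℝ) ≤ log r.a

theorem tail_split {g : ℝ → ℝ} {a b : ℝ} (hab : a ≤ b) (hi : IntegrableOn g (Ioi a)) :
    ∫ t in Ioi a, g t = (∫ t in Ioc a b, g t) + ∫ t in Ioi b, g t := by
  rw [← Ioc_union_Ioi_eq_Ioi hab]
  exact setIntegral_union (Ioc_disjoint_Ioi le_rfl) measurableSet_Ioi
    (hi.mono_set Ioc_subset_Ioi_self) (hi.mono_set (Ioi_subset_Ioi hab))

theorem integral_inv_Ioc {a b : ℝ} (ha : 0 < a) (hab : a ≤ b) :
    ∫ t in Ioc a b, 1 / t = log (b / a) := by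
  rw [← intervalIntegral.integral_of_le hab, integral_one_div_of_pos ha (ha.trans_le hab)]

theorem integral_log_div_Ioc {a b : ℝ} (ha : 0 < a) (hab : a ≤ b) :
    ∫ t in Ioc a b, log (t / a) / t = log (b / a) ^ 2 / 2 := by
  rw [← intervalIntegral.integral_of_le hab]
  have hd : ∀ t ∈ uIcc a b, HasDerivAt (fun x => (log x - log a) ^ 2 / 2) (log (t / a) / t) t := by
    intro t ht
    rw [uIcc_of_le hab] at ht
    have ht0 := ha.trans_le ht.1
    refine ((((hasDerivAt_log ht0.ne').sub_const (log a)).pow 2).div_const 2).congr_deriv ?_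
    rw [log_div ht0.ne' ha.ne']
    norm_num
    ring
  rw [intervalIntegral.integral_eq_sub_of_hasDerivAt hd, log_div (ha.trans_le hab).ne' ha.ne']
  · ring
  · refine ContinuousOn.intervalIntegrable ?_
    rw [uIcc_of_le hab]
    intro t ht
    have ht0 := ha.trans_le ht.1
    have : t / a ≠ 0 := by positivity
    exact ContinuousAt.continuousWithinAt (by fun_prop (disch := first | assumption | positivity))

/-- One step to the left for `cJ`. -/
theorem cJ_step {a b : ℝ} (ha : 0 < a) (hab : a ≤ b) :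
    exp (a - b) * cJ b + ((1 + a) * log (b / a) - (b - a)) ≤ cJ a ∧
    cJ a ≤ exp (a - b) * cJ b + ((1 + a) * log (b / a) - (b - a)) + (b - a) ^ 3 / (6 * a) := by
  set g : ℝ → ℝ := fun t => exp (-(t - a)) / t with hg
  have e : cJ a = exp (a - b) * cJ b + ∫ t in Ioc a b, g t := by
    have h := tail_split hab (integrableOn_gJ ha)
    simp only [gJ] at h
    simp only [cJ]
    rw [h, mul_add, ← integral_const_mul, ← mul_assoc,
      ← exp_add, sub_add_cancel, add_comm]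
    congr 1
    refine setIntegral_congr_fun measurableSet_Ioc fun t _ => ?_
    simp only [hg, ← mul_div_assoc, ← exp_add]
    ring_nf
  have hc : ∀ f : ℝ → ℝ, ContinuousOn f (Icc a b) → IntegrableOn f (Ioc a b) :=
    fun f h => (h.integrableOn_Icc).mono_set Ioc_subset_Icc_self
  have hne : ∀ t ∈ Icc a b, t ≠ 0 := fun t ht => (ha.trans_le ht.1).ne'
  have i1 : IntegrableOn (fun t => (1 + a) * (1 / t) - 1) (Ioc a b) :=
    hc _ (((continuousOn_const.div continuousOn_id hne).const_mul _).sub continuousOn_const)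
  have ig : IntegrableOn g (Ioc a b) :=
    hc _ (ContinuousOn.div (by fun_prop) continuousOn_id hne)
  have i2 : IntegrableOn (fun t => (1 + a) * (1 / t) - 1 + (t - a) ^ 2 / (2 * a)) (Ioc a b) :=
    i1.add (hc _ (by fun_prop))
  have v1 : ∫ t in Ioc a b, ((1 + a) * (1 / t) - 1) = (1 + a) * log (b / a) - (b - a) := by
    have i0 : IntegrableOn (fun t : ℝ => (1 + a) * (1 / t)) (Ioc a b) :=
      hc _ ((continuousOn_const.div continuousOn_id hne).const_mul _)
    rw [integral_sub i0 (hc (fun _ => (1 : ℝ)) continuousOn_const), integral_const_mul,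
      integral_inv_Ioc ha hab]
    simp [hab]
  have v2 : ∫ t in Ioc a b, (t - a) ^ 2 / (2 * a) = (b - a) ^ 3 / (6 * a) := by
    rw [← intervalIntegral.integral_of_le hab]
    rw [intervalIntegral.integral_eq_sub_of_hasDerivAt (f := fun t => (t - a) ^ 3 / (6 * a))
      (fun t _ => ((((hasDerivAt_id t).sub_const a).pow 3).div_const (6 * a)).congr_deriv
        (by simp; field_simp; ring)) (Continuous.intervalIntegrable (by fun_prop) _ _)]
    ring
  constructor
  · rw [e, ← v1]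
    refine add_le_add le_rfl ?_
    refine setIntegral_mono_on i1 ig measurableSet_Ioc fun t ht => ?_
    have ht0 := ha.trans ht.1
    have := add_one_le_exp (-(t - a))
    simp only [hg]
    rw [show (1 + a) * (1 / t) - 1 = (-(t - a) + 1) / t by field_simp; ring]
    gcongr
  · rw [e, ← v1, ← v2, add_assoc, ← integral_add i1 (hc _ (by fun_prop))]
    refine add_le_add le_rfl ?_
    refine setIntegral_mono_on ig i2 measurableSet_Ioc fun t ht => ?_
    have ht0 := ha.trans ht.1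
    set s := t - a with hs
    have hs0 : 0 ≤ s := by linarith [ht.1]
    have h1 : exp (-s) ≤ 1 - s + s ^ 2 / 2 := by
      have h2 := quadratic_le_exp_of_nonneg hs0
      rw [exp_neg, inv_le_iff_one_le_mul₀ (exp_pos s)]
      have : 0 ≤ 1 - s + s ^ 2 / 2 := by nlinarith [sq_nonneg (s - 1)]
      calc (1 : ℝ) ≤ (1 - s + s ^ 2 / 2) * (1 + s + s ^ 2 / 2) := by nlinarith [sq_nonneg (s ^ 2)]
        _ ≤ _ := by gcongr
    simp only [hg, ← hs]
    calc exp (-s) / t ≤ (1 - s + s ^ 2 / 2) / t := by gcongr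
      _ = (1 + a) * (1 / t) - 1 + s ^ 2 / (2 * t) := by rw [hs]; field_simp; ring
      _ ≤ _ := by
          gcongr
          exact ht.1.le

/-- One step to the left for `cG`. -/
theorem cG_step {a b : ℝ} (ha : 0 < a) (hab : a ≤ b) :
    exp (a - b) * (cG b + 2 * log (b / a) * cJ b) + log (b / a) ^ 2 * (1 - (b - a)) ≤ cG a ∧
    cG a ≤ exp (a - b) * (cG b + 2 * log (b / a) * cJ b) + log (b / a) ^ 2 := by
  have hb := ha.trans_le hab
  set g : ℝ → ℝ := fun t => exp (-(t - a)) * (log (t / a) / t) with hg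
  have e : cG a = exp (a - b) * (cG b + 2 * log (b / a) * cJ b) + 2 * ∫ t in Ioc a b, g t := by
    have h2 : ∫ t in Ioi b, log (t / a) * exp (-t) / t
        = (∫ t in Ioi b, log (t / b) * exp (-t) / t) + log (b / a) * ∫ t in Ioi b, gJ t := by
      rw [← integral_const_mul, ← integral_add (integrableOn_shift hb)
        ((integrableOn_gJ hb).const_mul _)]
      refine setIntegral_congr_fun measurableSet_Ioi fun t ht => ?_
      have ht0 : 0 < t := hb.trans ht
      simp only [gJ]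
      rw [log_div ht0.ne' ha.ne', log_div ht0.ne' hb.ne', log_div hb.ne' ha.ne']
      ring
    have h3 : exp a * ∫ t in Ioc a b, log (t / a) * exp (-t) / t = ∫ t in Ioc a b, g t := by
      rw [← integral_const_mul]
      refine setIntegral_congr_fun measurableSet_Ioc fun t _ => ?_
      simp only [hg]
      rw [show -(t - a) = a + -t by ring, exp_add]
      ring
    have h4 : exp (a - b) * exp b = exp a := by rw [← exp_add, sub_add_cancel]
    simp only [cG, cJ]
    rw [tail_split hab (integrableOn_shift ha), h2, ← h3, ← h4]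
    simp only [gJ]
    ring
  have hc : ∀ f : ℝ → ℝ, ContinuousOn f (Icc a b) → IntegrableOn f (Ioc a b) :=
    fun f h => (h.integrableOn_Icc).mono_set Ioc_subset_Icc_self
  have i1 : IntegrableOn (fun t => log (t / a) / t) (Ioc a b) := by
    refine hc _ fun t ht => ?_
    have ht0 := ha.trans_le ht.1
    have : t / a ≠ 0 := by positivity
    exact ContinuousAt.continuousWithinAt (by fun_prop (disch := first | assumption | positivity))
  have ig : IntegrableOn g (Ioc a b) := by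
    refine hc _ fun t ht => ?_
    have ht0 := ha.trans_le ht.1
    have : t / a ≠ 0 := by positivity
    exact ContinuousAt.continuousWithinAt (by fun_prop (disch := first | assumption | positivity))
  have l0 : ∀ t ∈ Ioc a b, 0 ≤ log (t / a) / t := fun t ht =>
    div_nonneg (log_nonneg (by rw [le_div_iff₀ ha]; linarith [ht.1])) (ha.trans ht.1).le
  constructor
  · rw [e]
    refine add_le_add le_rfl ?_
    calc log (b / a) ^ 2 * (1 - (b - a))
        = 2 * ∫ t in Ioc a b, (1 - (b - a)) * (log (t / a) / t) := by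
          rw [integral_const_mul, integral_log_div_Ioc ha hab]; ring
      _ ≤ _ := by
          refine mul_le_mul_of_nonneg_left
            (setIntegral_mono_on (i1.const_mul _) ig measurableSet_Ioc fun t ht => ?_) zero_le_two
          exact mul_le_mul_of_nonneg_right
            (by linarith [add_one_le_exp (-(t - a)), ht.2]) (l0 t ht)
  · rw [e]
    refine add_le_add le_rfl ?_
    calc 2 * ∫ t in Ioc a b, g t ≤ 2 * ∫ t in Ioc a b, log (t / a) / t := by
          refine mul_le_mul_of_nonneg_left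
            (setIntegral_mono_on ig i1 measurableSet_Ioc fun t ht => ?_) zero_le_two
          exact mul_le_of_le_one_left (l0 t ht) (exp_le_one_iff.2 (by linarith [ht.1]))
      _ = _ := by rw [integral_log_div_Ioc ha hab]; ring

/-- Lower bound for `log` of `(1 + z) / (1 - z)`. -/
def lnLo (z : ℚ) : ℚ := 2 * (z + z ^ 3 / 3)

/-- Upper bound for `log` of `(1 + z) / (1 - z)`. -/
def lnHi (z : ℚ) : ℚ := 2 * (z + z ^ 3 / 3 + max z 0 ^ 5 / (1 - z ^ 2))

theorem ln_bounds {z : ℝ} (h0 : 0 ≤ z) (h1 : z < 1) :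
    2 * (z + z ^ 3 / 3) ≤ log ((1 + z) / (1 - z)) ∧
    log ((1 + z) / (1 - z)) ≤ 2 * (z + z ^ 3 / 3 + z ^ 5 / (1 - z ^ 2)) := by
  have a := sum_range_le_log_div h0 h1 2
  have b := log_div_le_sum_range_add h0 h1 2
  simp only [Finset.sum_range_succ, Finset.sum_range_zero] at a b
  norm_num at a b
  constructor <;> linarith

theorem log_le_lnHi {z : ℚ} (h : |(z : ℝ)| < 1) :
    log ((1 + (z : ℝ)) / (1 - z)) ≤ lnHi z := by
  obtain ⟨h1, h2⟩ := abs_lt.1 h
  simp only [lnHi]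
  push_cast
  rcases le_total 0 (z : ℝ) with g | g
  · rw [max_eq_left g]; exact (ln_bounds g h2).2
  · rw [max_eq_right g]
    have := (ln_bounds (neg_nonneg.2 g) (by linarith)).1
    rw [sub_neg_eq_add, ← sub_eq_add_neg, ← inv_div (1 + (z : ℝ)), log_inv] at this
    norm_num at this ⊢
    linarith [show (-(z : ℝ)) ^ 3 = -(z : ℝ) ^ 3 by ring]

/-- Upper bound for `log y`, meant for `y` near two. -/
def logUp (y : ℚ) : ℚ := 6931471808 / 10000000000 + lnHi ((y - 2) / (y + 2))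

theorem log_le_logUp {y : ℚ} (hy : 0 < (y : ℝ)) : log y ≤ logUp y := by
  have hz : (((y - 2) / (y + 2) : ℚ) : ℝ) = ((y : ℝ) - 2) / (y + 2) := by push_cast; ring
  have habs : |(((y - 2) / (y + 2) : ℚ) : ℝ)| < 1 := by
    rw [hz, abs_lt, lt_div_iff₀ (by linarith), div_lt_iff₀ (by linarith)]
    constructor <;> linarith
  have h := log_le_lnHi habs
  have e : (1 + (((y - 2) / (y + 2) : ℚ) : ℝ)) / (1 - (((y - 2) / (y + 2) : ℚ) : ℝ)) = y / 2 := by
    rw [hz]; field_simp; ring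
  rw [e, log_div hy.ne' two_ne_zero] at h
  have := log_two_lt_d9
  simp only [logUp, Rat.cast_add]
  norm_num at this ⊢
  linarith

/-- Checkable step from `p` down to `q`. -/
def stepOK (p q : Row) : Bool :=
  let d := p.a - q.a
  let z := d / (p.a + q.a)
  let el := 1 - d + d ^ 2 / 2 - 2 * d ^ 3 / 9
  let eh := 1 / (1 + d + d ^ 2 / 2)
  0 < q.a && q.a < p.a && d ≤ 1 && 0 ≤ el && 0 ≤ p.lo && 0 ≤ p.glo &&
    q.lo ≤ el * p.lo + ((1 + q.a) * lnLo z - d) &&
    eh * p.hi + ((1 + q.a) * lnHi z - d) + d ^ 3 / (6 * q.a) ≤ q.hi &&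
    q.glo ≤ el * (p.glo + 2 * lnLo z * p.lo) + lnLo z ^ 2 * (1 - d) &&
    eh * (p.ghi + 2 * lnHi z * p.hi) + lnHi z ^ 2 ≤ q.ghi &&
    q.la ≤ p.la - lnHi z

theorem good_of_step {p q : Row} (hp : p.Good) (h : stepOK p q = true) : q.Good := by
  simp only [stepOK, Bool.and_eq_true, decide_eq_true_eq] at h
  obtain ⟨⟨⟨⟨⟨⟨⟨⟨⟨⟨hq, hqp⟩, hd1⟩, hel⟩, hlo0⟩, hglo0⟩, c1⟩, c2⟩, c3⟩, c4⟩, c5⟩ := h
  obtain ⟨hpa, p1, p2, p3, p4, p5⟩ := hp
  set d := p.a - q.a with hd
  set z := d / (p.a + q.a) with hz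
  have hq' : (0 : ℝ) < q.a := by exact_mod_cast hq
  have hqp' : (q.a : ℝ) < p.a := by exact_mod_cast hqp
  set D : ℝ := (p.a : ℝ) - q.a with hD
  have hdc : (d : ℝ) = D := by simp [hd, hD]
  have hd1' : D ≤ 1 := by rw [← hdc]; exact_mod_cast hd1
  have hD0 : 0 < D := sub_pos.2 hqp'
  set Z : ℝ := D / (p.a + q.a) with hZ
  have hzc : (z : ℝ) = Z := by simp [hz, hZ, ← hdc]
  have hZ0 : 0 ≤ Z := by positivity
  have hZ1 : Z < 1 := by rw [hZ, div_lt_one (by linarith)]; linarith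
  have hL : log ((1 + Z) / (1 - Z)) = log ((p.a : ℝ) / q.a) := by
    congr 1
    rw [div_eq_div_iff (by linarith) hq'.ne', hZ, hD]
    field_simp
    ring
  obtain ⟨Ll, Lh⟩ := ln_bounds hZ0 hZ1
  rw [hL] at Ll Lh
  set L := log ((p.a : ℝ) / q.a) with hLdef
  have lhc : (lnHi z : ℝ) = 2 * (Z + Z ^ 3 / 3 + Z ^ 5 / (1 - Z ^ 2)) := by
    simp only [lnHi]; push_cast; rw [hzc, max_eq_left hZ0]
  have llc : (lnLo z : ℝ) = 2 * (Z + Z ^ 3 / 3) := by simp only [lnLo]; push_cast; rw [hzc]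
  rw [← lhc] at Lh
  rw [← llc] at Ll
  have hll0 : (0 : ℝ) ≤ lnLo z := by rw [llc]; positivity
  set E := exp ((q.a : ℝ) - p.a) with hEdef
  have eE : E = exp (-D) := by rw [hEdef, hD]; ring_nf
  have El : ((1 - d + d ^ 2 / 2 - 2 * d ^ 3 / 9 : ℚ) : ℝ) ≤ E := by
    have h := exp_bound (x := -D) (by rw [abs_neg, abs_of_pos hD0]; exact hd1') (n := 3) (by norm_num)
    simp only [Finset.sum_range_succ, Finset.sum_range_zero, abs_neg, abs_of_pos hD0] at h
    norm_num at h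
    push_cast
    rw [hdc, eE]
    linarith [(abs_le.1 h).1]
  have Eh : E ≤ ((1 / (1 + d + d ^ 2 / 2) : ℚ) : ℝ) := by
    push_cast
    rw [hdc, eE, exp_neg, one_div]
    gcongr
    exact quadratic_le_exp_of_nonneg hD0.le
  have hel' : (0 : ℝ) ≤ ((1 - d + d ^ 2 / 2 - 2 * d ^ 3 / 9 : ℚ) : ℝ) := by exact_mod_cast hel
  have hE0 : 0 ≤ E := (exp_pos _).le
  have heh0 : (0 : ℝ) ≤ ((1 / (1 + d + d ^ 2 / 2) : ℚ) : ℝ) := hE0.trans Eh
  obtain ⟨J1, J2⟩ := cJ_step hq' hqp'.le
  obtain ⟨G1, G2⟩ := cG_step hq' hqp'.le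
  simp only [← hLdef, ← hEdef, ← hD] at J1 J2 G1 G2
  have hJb := cJ_nonneg hpa
  have hGb := cG_nonneg hpa
  have hlo0' : (0 : ℝ) ≤ p.lo := by exact_mod_cast hlo0
  have hglo0' : (0 : ℝ) ≤ p.glo := by exact_mod_cast hglo0
  have hL0 : 0 ≤ L := hll0.trans Ll
  have c1' := Rat.cast_le (K := ℝ) |>.2 c1
  have c2' := Rat.cast_le (K := ℝ) |>.2 c2
  have c3' := Rat.cast_le (K := ℝ) |>.2 c3
  have c4' := Rat.cast_le (K := ℝ) |>.2 c4
  have c5' := Rat.cast_le (K := ℝ) |>.2 c5
  simp only [Rat.cast_add, Rat.cast_mul, Rat.cast_sub] at c1' c2' c3' c4' c5'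
  push_cast at c1' c2' c3' c4' c5' El Eh hel' heh0
  simp only [hdc] at c1' c2' c3' c4' El Eh hel' heh0
  refine ⟨hq', ?_, ?_, ?_, ?_, ?_⟩
  · refine c1'.trans (le_trans ?_ J1)
    gcongr
  · refine le_trans J2 (le_trans ?_ c2')
    gcongr
  · refine c3'.trans (le_trans ?_ G1)
    gcongr
  · refine le_trans G2 (le_trans ?_ c4')
    gcongr
    linarith
  · rw [hLdef, log_div hpa.ne' hq'.ne'] at Lh
    linarith

/-- The starting row at `a = 8`. -/
def row8 : Row := ⟨8, 1 / 9, 9 / 80, 0, 9 / 80 * (9 / 80) + 9 / 80 / 9, 3 * (6931471803 / 10000000000)⟩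

theorem good_row8 : row8.Good := by
  have h8 : (0 : ℝ) < 8 := by norm_num
  have a1 := one_div_succ_le_cJ h8
  have a2 := cJ_le_U h8
  have a3 := cV_le h8
  have a4 := cJ_nonneg h8
  have a5 := log_two_gt_d9
  have a6 : log (8 : ℝ) = 3 * log 2 := by
    rw [show (8 : ℝ) = 2 ^ 3 by norm_num, log_pow]; norm_num
  simp only [Row.Good, row8]
  push_cast
  norm_num at a1 a2 a3 a5 ⊢
  refine ⟨a1, a2, cG_nonneg h8, ?_, by linarith⟩
  simp only [cV] at a3
  nlinarith

/-- Lower bound for `cS` at a row. -/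
def Row.sLo (r : Row) : ℚ :=
  (r.glo - r.hi ^ 2 - 1 + r.a / (1 + r.a) * (r.lo + 1) ^ 2) / (1 + r.a)

/-- Upper bound for `cR` at a row. -/
def Row.rHi (r : Row) : ℚ :=
  1 / 2 * logUp ((r.a ^ 3 / 3 + r.a ^ 2 + 2 * r.a + 2) / (1 + r.a)) - r.la - 1
    - (r.lo - r.a) / (1 + r.a)

/-- Upper bound for `cR` below a row. -/
def Row.rEnd (r : Row) : ℚ :=
  1 / 2 * logUp (r.a ^ 3 / 3 + r.a ^ 2 + 2 * r.a + 2) - r.la - 1
    - ((1 - r.a) * r.lo - 2 * r.a) / (1 + r.a)

theorem sLo_le {r : Row} (h : r.Good) (hlo : 0 ≤ r.lo) : (r.sLo : ℝ) ≤ cS r.a := by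
  obtain ⟨ha, h1, h2, h3, -, -⟩ := h
  have hlo' : (0 : ℝ) ≤ r.lo := by exact_mod_cast hlo
  simp only [Row.sLo, cS, cV]
  push_cast
  gcongr
  exact cJ_nonneg ha

theorem cR_eq {a : ℝ} (ha : 0 < a) :
    cR a = 1 / 2 * log ((a ^ 3 / 3 + a ^ 2 + 2 * a + 2) / (1 + a)) - log a - 1
      - (cJ a - a) / (1 + a) := by
  have hN : 0 < a ^ 3 / 3 + a ^ 2 + 2 * a + 2 := by positivity
  have : cQ a = (a ^ 3 / 3 + a ^ 2 + 2 * a + 2) / (1 + a) / a ^ 2 := by
    rw [cQ]; field_simp; ring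
  rw [cR, this, log_div (by positivity) (by positivity), log_pow]
  push_cast; ring

theorem cR_le_rHi {r : Row} (h : r.Good) : cR r.a ≤ r.rHi := by
  obtain ⟨ha, h1, -, -, -, h5⟩ := h
  rw [cR_eq ha]
  have hy := log_le_logUp (y := (r.a ^ 3 / 3 + r.a ^ 2 + 2 * r.a + 2) / (1 + r.a))
    (by push_cast; positivity)
  push_cast at hy
  simp only [Row.rHi]
  push_cast
  have : ((r.lo : ℝ) - r.a) / (1 + r.a) ≤ (cJ r.a - r.a) / (1 + r.a) := by gcongr
  linarith

theorem cR_le_rEnd {r : Row} (h : r.Good) (h1 : r.a ≤ 1) (hX : 2 * r.a ≤ (1 - r.a) * r.lo)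
    {a : ℝ} (ha : 0 < a) (hle : a ≤ r.a) : cR a ≤ r.rEnd := by
  obtain ⟨hr, hlo, -, -, -, hla⟩ := h
  have h1' : (r.a : ℝ) ≤ 1 := by exact_mod_cast h1
  have hX' := Rat.cast_le (K := ℝ) |>.2 hX
  push_cast at hX'
  set A : ℝ := (r.a : ℝ) with hA
  rw [cR_eq ha]
  have hy := log_le_logUp (y := r.a ^ 3 / 3 + r.a ^ 2 + 2 * r.a + 2) (by push_cast; positivity)
  push_cast at hy
  have hN : log ((a ^ 3 / 3 + a ^ 2 + 2 * a + 2) / (1 + a)) ≤
      log (A ^ 3 / 3 + A ^ 2 + 2 * A + 2) := by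
    refine log_le_log (by positivity) ((div_le_self (by positivity) (by linarith)).trans ?_)
    gcongr
  obtain ⟨J1, -⟩ := cJ_step ha hle
  rw [log_div hr.ne' ha.ne'] at J1
  have hlo0 : (0 : ℝ) ≤ r.lo := by nlinarith
  have he : (1 - A) * r.lo ≤ exp (a - A) * cJ A :=
    mul_le_mul (by linarith [add_one_le_exp (a - A)]) hlo hlo0 (exp_pos _).le
  have hq : ((1 - A) * r.lo - 2 * A) / (1 + A) ≤ ((1 - A) * r.lo - 2 * A) / (1 + a) :=
    div_le_div_of_nonneg_left (by linarith) (by linarith) (by linarith)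
  have hf : ((1 - A) * r.lo - 2 * A) / (1 + a) + (log A - log a) ≤ (cJ a - a) / (1 + a) := by
    rw [le_div_iff₀ (by linarith), add_mul, div_mul_cancel₀ _ (by linarith)]
    nlinarith
  simp only [Row.rEnd]
  push_cast
  rw [← hA]
  linarith

/-- The chain of steps. -/
def chainOK : Row → List Row → Bool
  | _, [] => true
  | p, q :: l => stepOK p q && chainOK q l

/-- The last row. -/
def lastRow : Row → List Row → Row
  | p, [] => p
  | _, q :: l => lastRow q l

/-- The sign condition on every gap. -/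
def coverOK (ψQ : ℚ → ℚ) (c : ℚ) : Row → List Row → Bool
  | _, [] => true
  | p, q :: l => 0 ≤ p.lo && decide (c + q.rHi < ψQ p.sLo) && coverOK ψQ c q l

theorem good_lastRow : ∀ (l : List Row) {p : Row}, p.Good → chainOK p l = true →
    (lastRow p l).Good
  | [], _, hp, _ => hp
  | q :: l, _, hp, h => by
      simp only [chainOK, Bool.and_eq_true] at h
      exact good_lastRow l (good_of_step hp h.1) h.2

theorem cover_sound {ψ : ℝ → ℝ} (hm : Monotone ψ) {ψQ : ℚ → ℚ}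
    (hQ : ∀ x : ℚ, (ψQ x : ℝ) ≤ ψ x) {c : ℚ} :
    ∀ (l : List Row) {p : Row}, p.Good → chainOK p l = true → coverOK ψQ c p l = true →
      ∀ a : ℝ, ((lastRow p l).a : ℝ) ≤ a → a < p.a → (c : ℝ) + cR a < ψ (cS a)
  | [], _, _, _, _, a, h1, h2 => by simp only [lastRow] at h1; linarith
  | q :: l, p, hp, h, hc, a, h1, h2 => by
      simp only [chainOK, Bool.and_eq_true] at h
      simp only [coverOK, Bool.and_eq_true, decide_eq_true_eq] at hc
      have hq := good_of_step hp h.1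
      rcases lt_or_ge a (q.a : ℝ) with g | g
      · exact cover_sound hm hQ l hq h.2 hc.2 a h1 g
      have ha : 0 < a := hq.1.trans_le g
      have hR : cR a ≤ q.rHi := (cR_antitone hq.1 ha g).trans (cR_le_rHi hq)
      have hS : (p.sLo : ℝ) ≤ cS a := (sLo_le hp hc.1.1).trans (cS_antitone ha hp.1 h2.le)
      have hlt := Rat.cast_lt (K := ℝ) |>.2 hc.1.2
      push_cast at hlt
      linarith [hm hS, hQ p.sLo]

/-- The finite check for the top (`a ≥ top`), the gaps and the bottom. -/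
def tableOK (ψQ : ℚ → ℚ) (c : ℚ) (pre main : List Row) : Bool :=
  let top := lastRow row8 pre
  let bot := lastRow top main
  chainOK row8 pre && chainOK top main && coverOK ψQ c top main &&
    decide (c + top.rHi < 0) && decide (bot.a ≤ 1) && decide (2 * bot.a ≤ (1 - bot.a) * bot.lo) &&
    decide (0 ≤ bot.lo) && decide (c + bot.rEnd < ψQ bot.sLo) && decide (c < 54 / 100)

theorem gap_of_table (hlink : CurveLink) (hend : EndLink) {ψ : ℝ → ℝ} (hm : Monotone ψ)
    (h0 : ∀ x, 0 ≤ ψ x) {ψQ : ℚ → ℚ} (hQ : ∀ x : ℚ, (ψQ x : ℝ) ≤ ψ x) {c : ℚ}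
    {pre main : List Row} (hT : tableOK ψQ c pre main = true) {g : ℝ → ℝ} {T : ℝ}
    (hg : Marg g T) : 1 / 2 * log (mSq g T) + c < 1 + mLog g T + ψ (mS g T) := by
  simp only [tableOK, Bool.and_eq_true, decide_eq_true_eq] at hT
  obtain ⟨⟨⟨⟨⟨⟨⟨⟨hpre, hmain⟩, hcov⟩, htop⟩, hb1⟩, hbX⟩, hblo⟩, hbot⟩, hc54⟩ := hT
  have gT := good_lastRow pre good_row8 hpre
  set top := lastRow row8 pre
  have gB := good_lastRow main gT hmain
  set bot := lastRow top main
  have htop' := Rat.cast_lt (K := ℝ) |>.2 htop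
  have hbot' := Rat.cast_lt (K := ℝ) |>.2 hbot
  have hc54' := Rat.cast_lt (K := ℝ) |>.2 hc54
  push_cast at htop' hbot' hc54'
  refine gap_of_model (fun θ hθ => ?_) hg
  rcases eq_or_lt_of_le hθ.2 with rfl | h1
  · obtain ⟨e1, e2, e3⟩ := hend
    rw [e1, e2, e3, show (1 / 3 : ℝ) = 3⁻¹ by norm_num, log_inv]
    have h3 : log (8 : ℝ) + 1 / 9 ≤ log (9 : ℝ) := by
      have := log_le_sub_one_of_pos (show (0 : ℝ) < 8 / 9 by norm_num)
      rw [log_div (by norm_num) (by norm_num)] at this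
      linarith
    rw [show (8 : ℝ) = 2 ^ 3 by norm_num, show (9 : ℝ) = 3 ^ 2 by norm_num, log_pow, log_pow] at h3
    norm_num at h3
    linarith [h0 0, log_two_gt_d9]
  -- the closed conditions below the bottom row
  have low : ∀ a : ℝ, 0 < a → a ≤ bot.a → (bot.sLo : ℝ) ≤ cS a ∧ cR a ≤ bot.rEnd := fun a ha hle =>
    ⟨(sLo_le gB hblo).trans (cS_antitone ha gB.1 hle), cR_le_rEnd gB hb1 hbX ha hle⟩
  have key : ∀ a : ℝ, 0 < a → (c : ℝ) + cR a < ψ (cS a) := by
    intro a ha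
    rcases lt_or_ge a (bot.a : ℝ) with g | g
    · obtain ⟨s, r⟩ := low a ha g.le
      linarith [hm s, hQ bot.sLo]
    rcases lt_or_ge a (top.a : ℝ) with g' | g'
    · exact cover_sound hm hQ main gT hmain hcov a g g'
    · linarith [cR_antitone gT.1 ha g', cR_le_rHi gT, h0 (cS a)]
  have link : ∀ t ∈ Ioo (0 : ℝ) 1, 0 < t / (1 - t) ∧
      mdS t = cS (t / (1 - t)) ∧ 1 / 2 * log (mdQ t) - 1 - mdE t = cR (t / (1 - t)) := by
    intro t ht
    have ha : 0 < t / (1 - t) := div_pos ht.1 (by linarith [ht.2])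
    have h := hlink _ ha
    rw [show t / (1 - t) / (1 + t / (1 - t)) = t by
      have : 1 - t ≠ 0 := by linarith [ht.2]
      field_simp; ring] at h
    exact ⟨ha, h⟩
  rcases eq_or_lt_of_le hθ.1 with rfl | h0θ
  · -- the limit at zero
    set U : Set ℝ := Ioo 0 ((bot.a : ℝ) / (1 + bot.a)) with hU
    have hb0 : 0 < (bot.a : ℝ) := gB.1
    have hsub : U ⊆ Icc (0 : ℝ) 1 := fun t ht => ⟨ht.1.le, ht.2.le.trans
      ((div_le_one (by linarith)).2 (by linarith))⟩
    have hcl : (0 : ℝ) ∈ closure U := by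
      rw [hU, closure_Ioo (by positivity)]; exact ⟨le_rfl, by positivity⟩
    have cl : ∀ t ∈ U, (bot.sLo : ℝ) ≤ mdS t ∧
        1 / 2 * log (mdQ t) - 1 - mdE t ≤ (bot.rEnd : ℝ) := by
      intro t ht
      obtain ⟨ha, e1, e2⟩ := link t ⟨ht.1, ht.2.trans_le ((div_le_one (by linarith)).2 (by linarith))⟩
      rw [e1, e2]
      refine low _ ha ?_
      have := (lt_div_iff₀ (by linarith)).1 ht.2
      rw [div_le_iff₀ (by nlinarith)]
      nlinarith
    have hz : ∀ t ∈ Icc (0 : ℝ) 1, mom (fun _ => 1) t ≠ 0 := fun t h => (mom_one_pos h).ne'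
    have cE : ContinuousWithinAt mdE U 0 :=
      (((continuousOn_mom wt_log).div (continuousOn_mom wt_one) hz) 0 (by simp)).mono hsub
    have cS' : ContinuousWithinAt mdS U 0 := (continuousOn_mdS 0 (by simp)).mono hsub
    have cQ' : ContinuousWithinAt mdQ U 0 :=
      (((continuousOn_mom wt_sq).div (continuousOn_mom wt_one) hz) 0 (by simp)).mono hsub
    have hQ0 : 0 < mdQ 0 := by
      refine div_pos ?_ (mom_one_pos (by simp))
      refine (setIntegral_pos_iff_support_of_nonneg_ae ?_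
        (integrableOn_model (by simp) wt_sq)).2 ?_
      · exact Eventually.of_forall fun x => mul_nonneg (model_nonneg 0 x) (sq_nonneg x)
      refine lt_of_lt_of_le ?_ (measure_mono (s := Ioo (0 : ℝ) 1) ?_)
      · simp
      rintro x ⟨hx0, -⟩
      refine ⟨?_, hx0⟩
      simp [Function.mem_support, model, hx0.ne', exp_ne_zero]
    have cR' : ContinuousWithinAt (fun t => 1 / 2 * log (mdQ t) - 1 - mdE t) U 0 :=
      (((cQ'.log hQ0.ne').const_mul _).sub continuousWithinAt_const).sub cE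
    have s0 : (bot.sLo : ℝ) ≤ mdS 0 := ContinuousWithinAt.closure_le hcl
      continuousWithinAt_const cS' fun t ht => (cl t ht).1
    have r0 : 1 / 2 * log (mdQ 0) - 1 - mdE 0 ≤ (bot.rEnd : ℝ) := ContinuousWithinAt.closure_le hcl
      cR' continuousWithinAt_const fun t ht => (cl t ht).2
    linarith [hm s0, hQ bot.sLo]
  · obtain ⟨ha, e1, e2⟩ := link θ ⟨h0θ, h1⟩
    rw [e1]
    linarith [key _ ha]

theorem oneDimA_of_table (hlink : CurveLink) (hend : EndLink) {ψ : ℝ → ℝ} (hm : Monotone ψ)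
    (h0 : ∀ x, 0 ≤ ψ x) {ψQ : ℚ → ℚ} (hQ : ∀ x : ℚ, (ψQ x : ℝ) ≤ ψ x) {c : ℚ}
    {pre main : List Row} (hT : tableOK ψQ c pre main = true) {n : ℕ}
    (hc : cConst n ≤ (c : ℝ)) : OneDimA n ψ := fun _ _ hg _ => by
  linarith [gap_of_table hlink hend hm h0 hQ hT hg]

end Vale.P254.E
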