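import Mathlib

/-! Moments of `r ^ n * (1 - r) ^ m` on the unit interval, and bounds on their partial sums. -/

namespace Vale.P254.E

open MeasureTheory Set Real Filter Topology

/-- `∑ 1 / k` over `n < k ≤ n + m + 1`. -/
noncomputable def hS (n : ℕ) : ℕ → ℝ
  | 0 => 1 / ((n : ℝ) + 1)
  | m + 1 => hS n m + 1 / ((n : ℝ) + m + 2)

/-- `∑ 1 / k ^ 2` over `n < k ≤ n + m + 1`. -/
noncomputable def qS (n : ℕ) : ℕ → ℝ
  | 0 => 1 / ((n : ℝ) + 1) ^ 2
  | m + 1 => qS n m + 1 / ((n : ℝ) + m + 2) ^ 2

theorem hS_shift (n : ℕ) : ∀ m, hS (n + 1) m = hS n (m + 1) - 1 / ((n : ℝ) + 1)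
  | 0 => by simp only [hS]; push_cast; ring
  | m + 1 => by
      rw [hS, hS_shift n m]
      simp only [hS]
      push_cast
      ring

theorem qS_shift (n : ℕ) : ∀ m, qS (n + 1) m = qS n (m + 1) - 1 / ((n : ℝ) + 1) ^ 2
  | 0 => by simp only [qS]; push_cast; ring
  | m + 1 => by
      rw [qS, qS_shift n m]
      simp only [qS]
      push_cast
      ring

/-- The weight. -/
noncomputable def bW (n m : ℕ) (r : ℝ) : ℝ := r ^ n * (1 - r) ^ m

/-- Its total mass. -/
noncomputable def bI (n m : ℕ) : ℝ := n.factorial * m.factorial / (n + m + 1).factorial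

theorem bI_pos (n m : ℕ) : 0 < bI n m := by unfold bI; positivity

theorem bI_succ_left (n m : ℕ) : bI (n + 1) m = bI n m * (((n : ℝ) + 1) / ((n : ℝ) + m + 2)) := by
  simp only [bI, show n + 1 + m + 1 = n + m + 1 + 1 by ring, Nat.factorial_succ]
  push_cast
  field_simp
  ring

theorem bI_succ_right (n m : ℕ) : bI n (m + 1) = bI n m * (((m : ℝ) + 1) / ((n : ℝ) + m + 2)) := by
  simp only [bI, show n + (m + 1) + 1 = n + m + 1 + 1 by ring, Nat.factorial_succ]
  push_cast
  field_simp
  ring

theorem continuous_self_log_sq : Continuous fun x : ℝ => 4 * (sqrt x * log (sqrt x)) ^ 2 :=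
  ((continuous_mul_log.comp continuous_sqrt).pow 2).const_mul 4

theorem self_log_sq {x : ℝ} (hx : 0 ≤ x) : 4 * (sqrt x * log (sqrt x)) ^ 2 = x * log x ^ 2 := by
  rw [mul_pow, sq_sqrt hx, log_sqrt hx]; ring

theorem continuousOn_bW_log (n m : ℕ) :
    ContinuousOn (fun r => bW (n + 1) m r * log r) (Icc 0 1) := by
  have : (fun r => bW (n + 1) m r * log r) = fun r => r ^ n * (1 - r) ^ m * (r * log r) := by
    funext r; simp only [bW]; ring
  rw [this]
  exact ((((continuous_pow n).mul ((continuous_const.sub continuous_id).pow m))).mul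
    continuous_mul_log).continuousOn

theorem continuousOn_bW_log_sq (n m : ℕ) :
    ContinuousOn (fun r => bW (n + 1) m r * log r ^ 2) (Icc 0 1) := by
  have hc : Continuous fun r : ℝ => r ^ n * (1 - r) ^ m * (4 * (sqrt r * log (sqrt r)) ^ 2) :=
    Continuous.mul (by fun_prop) continuous_self_log_sq
  refine hc.continuousOn.congr fun r hr => ?_
  simp only [bW]
  rw [self_log_sq hr.1]
  ring

theorem integrableOn_bW (n m : ℕ) : IntegrableOn (bW n m) (Ioc 0 1) := by
  refine (Continuous.integrableOn_Icc ?_).mono_set Ioc_subset_Icc_self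
  unfold bW; fun_prop

theorem integrableOn_bW_log {n : ℕ} (hn : 1 ≤ n) (m : ℕ) :
    IntegrableOn (fun r => bW n m r * log r) (Ioc 0 1) := by
  obtain ⟨k, rfl⟩ : ∃ k, n = k + 1 := ⟨n - 1, by omega⟩
  exact (continuousOn_bW_log k m).integrableOn_Icc.mono_set Ioc_subset_Icc_self

theorem integrableOn_bW_log_sq {n : ℕ} (hn : 1 ≤ n) (m : ℕ) :
    IntegrableOn (fun r => bW n m r * log r ^ 2) (Ioc 0 1) := by
  obtain ⟨k, rfl⟩ : ∃ k, n = k + 1 := ⟨n - 1, by omega⟩
  exact (continuousOn_bW_log_sq k m).integrableOn_Icc.mono_set Ioc_subset_Icc_self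

theorem bW_succ_right (n m : ℕ) (r : ℝ) : bW n (m + 1) r = bW n m r - bW (n + 1) m r := by
  simp only [bW]; ring

theorem integral_bW : ∀ (m n : ℕ), ∫ r in Ioc 0 1, bW n m r = bI n m
  | 0, n => by
      simp only [bW, pow_zero, mul_one, ← intervalIntegral.integral_of_le zero_le_one, integral_pow]
      simp only [bI, Nat.factorial_zero, Nat.cast_one, mul_one, add_zero, Nat.factorial_succ,
        one_pow, ne_eq, Nat.add_eq_zero_iff, one_ne_zero, and_false, not_false_eq_true, zero_pow,
        sub_zero]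
      push_cast
      field_simp
  | m + 1, n => by
      simp only [bW_succ_right]
      rw [integral_sub (integrableOn_bW n m) (integrableOn_bW (n + 1) m), integral_bW m n,
        integral_bW m (n + 1), bI_succ_left, bI_succ_right]
      field_simp
      ring

theorem integral_bW_log : ∀ (m n : ℕ), 1 ≤ n →
    ∫ r in Ioc 0 1, bW n m r * log r = -(bI n m * hS n m)
  | 0, n, hn => by
      obtain ⟨k, rfl⟩ : ∃ k, n = k + 1 := ⟨n - 1, by omega⟩
      set F : ℝ → ℝ := fun r => r ^ (k + 1) * (r * log r) / ((k : ℝ) + 2)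
        - r ^ (k + 2) / ((k : ℝ) + 2) ^ 2 with hF
      have hd : ∀ r ∈ Ioo (0 : ℝ) 1, HasDerivAt F (bW (k + 1) 0 r * log r) r := by
        intro r hr
        refine ((((hasDerivAt_pow (k + 1) r).mul (hasDerivAt_mul_log hr.1.ne')).div_const _).sub
          ((hasDerivAt_pow (k + 2) r).div_const _)).congr_deriv ?_
        simp only [bW, Nat.add_sub_cancel, show k + 2 - 1 = k + 1 by omega, pow_zero, mul_one]
        push_cast
        field_simp
        ring
      have hFc : Continuous F :=
        (((continuous_pow (k + 1)).mul continuous_mul_log).div_const _).sub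
          ((continuous_pow (k + 2)).div_const _)
      rw [← intervalIntegral.integral_of_le zero_le_one,
        intervalIntegral.integral_eq_sub_of_hasDerivAt_of_le (f := F) zero_le_one hFc.continuousOn hd
          ((intervalIntegrable_iff_integrableOn_Ioc_of_le zero_le_one).2
            (integrableOn_bW_log hn 0))]
      simp only [hF, hS, bI, Nat.factorial_succ, Nat.factorial_zero, log_one, mul_zero, zero_div,
        one_pow, zero_mul, ne_eq, Nat.add_eq_zero_iff, one_ne_zero, and_false, not_false_eq_true,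
        zero_pow, OfNat.ofNat_ne_zero, sub_self, sub_zero, add_zero]
      push_cast
      field_simp
      ring
  | m + 1, n, hn => by
      simp only [bW_succ_right, sub_mul]
      rw [integral_sub (integrableOn_bW_log hn m) (integrableOn_bW_log (by omega) m),
        integral_bW_log m n hn, integral_bW_log m (n + 1) (by omega), bI_succ_left, bI_succ_right,
        hS_shift n m]
      simp only [hS]
      field_simp
      ring

theorem integral_bW_log_sq : ∀ (m n : ℕ), 1 ≤ n →
    ∫ r in Ioc 0 1, bW n m r * log r ^ 2 = bI n m * (hS n m ^ 2 + qS n m)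
  | 0, n, hn => by
      obtain ⟨k, rfl⟩ : ∃ k, n = k + 1 := ⟨n - 1, by omega⟩
      set c : ℝ := (k : ℝ) + 2 with hc
      set G : ℝ → ℝ := fun r => r ^ (k + 1) * (4 * (sqrt r * log (sqrt r)) ^ 2) / c
        - 2 * (r ^ (k + 1) * (r * log r)) / c ^ 2 + 2 * r ^ (k + 2) / c ^ 3 with hG
      have hd : ∀ r ∈ Ioo (0 : ℝ) 1, HasDerivAt G (bW (k + 1) 0 r * log r ^ 2) r := by
        intro r hr
        have h1 : HasDerivAt (fun y => y ^ (k + 1) * (y * log y ^ 2) / c
            - 2 * (y ^ (k + 1) * (y * log y)) / c ^ 2 + 2 * y ^ (k + 2) / c ^ 3)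
            (bW (k + 1) 0 r * log r ^ 2) r := by
          refine (((((hasDerivAt_pow (k + 1) r).mul ((hasDerivAt_id' r).mul
            ((hasDerivAt_log hr.1.ne').pow 2))).div_const _).sub
            ((((hasDerivAt_pow (k + 1) r).mul (hasDerivAt_mul_log hr.1.ne')).const_mul 2).div_const
              _)).add (((hasDerivAt_pow (k + 2) r).const_mul 2).div_const _)).congr_deriv ?_
          simp only [bW, Nat.add_sub_cancel, show k + 2 - 1 = k + 1 by omega, pow_zero, mul_one,
            Pi.pow_apply, Pi.mul_apply, hc]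
          have := hr.1.ne'
          push_cast
          field_simp
          ring
        refine h1.congr_of_eventuallyEq ?_
        filter_upwards [isOpen_Ioi.mem_nhds hr.1] with y hy
        simp only [hG, self_log_sq (le_of_lt hy)]
      have hGc : Continuous G :=
        ((((continuous_pow (k + 1)).mul continuous_self_log_sq).div_const _).sub
          ((((continuous_pow (k + 1)).mul continuous_mul_log).const_mul 2).div_const _)).add
          (((continuous_pow (k + 2)).const_mul 2).div_const _)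
      rw [← intervalIntegral.integral_of_le zero_le_one,
        intervalIntegral.integral_eq_sub_of_hasDerivAt_of_le (f := G) zero_le_one hGc.continuousOn hd
          ((intervalIntegrable_iff_integrableOn_Ioc_of_le zero_le_one).2
            (integrableOn_bW_log_sq hn 0))]
      simp only [hG, hS, qS, hc, bI, Nat.factorial_succ, Nat.factorial_zero, sqrt_one, sqrt_zero,
        log_one, mul_zero, zero_div, one_pow, zero_mul, ne_eq, Nat.add_eq_zero_iff, one_ne_zero,
        and_false, not_false_eq_true, zero_pow, OfNat.ofNat_ne_zero, sub_zero, add_zero, zero_add]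
      push_cast
      field_simp
      ring
  | m + 1, n, hn => by
      simp only [bW_succ_right, sub_mul]
      rw [integral_sub (integrableOn_bW_log_sq hn m) (integrableOn_bW_log_sq (by omega) m),
        integral_bW_log_sq m n hn, integral_bW_log_sq m (n + 1) (by omega), bI_succ_left,
        bI_succ_right, hS_shift n m, qS_shift n m]
      simp only [hS, qS]
      field_simp
      ring

/-- The gain `∑ 1 / k` minus half the log ratio of `(k + 1) (k + 2)`. -/
noncomputable def hGap (n m : ℕ) : ℝ :=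
  hS n m - 1 / 2 * (log (((n : ℝ) + m + 2) * ((n : ℝ) + m + 3))
    - log (((n : ℝ) + 1) * ((n : ℝ) + 2)))

/-- Lower bound for `hGap`, up to `1 / (n + m + 2)`. -/
noncomputable def liftD (n : ℕ) : ℝ :=
  1 / ((n : ℝ) + 1)
    - (1 / 3 + 1 / (((n : ℝ) + 1) * ((n : ℝ) + 3))) / (2 * ((n : ℝ) + 1) * ((n : ℝ) + 2))

/-- Upper bound for `qS`. -/
noncomputable def liftU (n : ℕ) : ℝ :=
  1 / ((n : ℝ) + 1) ^ 2 + 1 / ((n : ℝ) + 2) ^ 2 + 1 / ((n : ℝ) + 5 / 2)

theorem half_log_step {K k : ℝ} (hk : 0 ≤ k) (hK : 1 / 3 + 1 / ((k + 1) * (k + 3)) ≤ K) :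
    (1 / (k + 1) - K / (2 * (k + 1) * (k + 2))) - (1 / (k + 2) - K / (2 * (k + 2) * (k + 3)))
      ≤ 1 / (k + 1) - 1 / 2 * log ((k + 3) / (k + 1)) := by
  have hz0 : (0 : ℝ) ≤ 1 / (k + 2) := by positivity
  have hz1 : 1 / (k + 2) < 1 := by rw [div_lt_one (by linarith)]; linarith
  have h := log_div_le_sum_range_add hz0 hz1 2
  simp only [Finset.sum_range_succ, Finset.sum_range_zero] at h
  norm_num at h
  rw [show (1 + (k + 2)⁻¹) / (1 - (k + 2)⁻¹) = (k + 3) / (k + 1) by
    have : k + 2 ≠ 0 := by linarith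
    have h1 : 1 - (k + 2)⁻¹ = (k + 1) / (k + 2) := by field_simp; ring
    have h2 : 1 + (k + 2)⁻¹ = (k + 3) / (k + 2) := by field_simp; ring
    rw [h1, h2, div_div_div_cancel_right₀ this]] at h
  have e : (1 / (k + 1) - K / (2 * (k + 1) * (k + 2))) - (1 / (k + 2) - K / (2 * (k + 2) * (k + 3)))
      = 1 / (k + 1) - 1 / (k + 2) - K / ((k + 1) * (k + 2) * (k + 3)) := by field_simp; ring
  have e2 : ((k + 2) ^ 5)⁻¹ / (1 - ((k + 2) ^ 2)⁻¹) =
      1 / ((k + 2) ^ 3 * ((k + 1) * (k + 3))) := by
    have : k + 2 ≠ 0 := by linarith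
    have : (k + 2) ^ 2 - 1 ≠ 0 := by nlinarith
    field_simp
    ring
  have hc : 1 / (k + 2) ^ 3 ≤ 1 / ((k + 1) * (k + 2) * (k + 3)) :=
    one_div_le_one_div_of_le (by positivity) (by nlinarith)
  have h3 : 1 / (k + 2) ^ 3 / 3 + 1 / ((k + 2) ^ 3 * ((k + 1) * (k + 3)))
      ≤ K / ((k + 1) * (k + 2) * (k + 3)) := by
    calc 1 / (k + 2) ^ 3 / 3 + 1 / ((k + 2) ^ 3 * ((k + 1) * (k + 3)))
        = 1 / (k + 2) ^ 3 * (1 / 3 + 1 / ((k + 1) * (k + 3))) := by field_simp
      _ ≤ 1 / ((k + 1) * (k + 2) * (k + 3)) * K := mul_le_mul hc hK (by positivity) (by positivity)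
      _ = _ := by ring
  rw [e]
  rw [e2] at h
  have e3 : (k + 2)⁻¹ = 1 / (k + 2) := (one_div _).symm
  have e4 : ((k + 2) ^ 3)⁻¹ = 1 / (k + 2) ^ 3 := (one_div _).symm
  linarith

theorem hGap_succ (n m : ℕ) : hGap n (m + 1) = hGap n m + (1 / (((n : ℝ) + m + 1) + 1)
    - 1 / 2 * log ((((n : ℝ) + m + 1) + 3) / (((n : ℝ) + m + 1) + 1))) := by
  simp only [hGap, hS]
  push_cast
  rw [log_div (by positivity) (by positivity), log_mul (by positivity) (by positivity),
    log_mul (by positivity) (by positivity), log_mul (by positivity) (by positivity)]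
  ring_nf

theorem liftD_le_hGap (n : ℕ) : ∀ m : ℕ, liftD n - 1 / ((n : ℝ) + m + 2) ≤ hGap n m := by
  set K := 1 / 3 + 1 / (((n : ℝ) + 1) * ((n : ℝ) + 3)) with hK
  set φ : ℝ → ℝ := fun k => 1 / (k + 1) - K / (2 * (k + 1) * (k + 2)) with hφ
  have key : ∀ m : ℕ, φ n - φ (((n : ℝ) + m + 1)) ≤ hGap n m := by
    intro m
    induction m with
    | zero =>
      have h := half_log_step (K := K) (Nat.cast_nonneg n) le_rfl
      simp only [hGap, hS, hφ, Nat.cast_zero, add_zero]
      rw [log_mul (by positivity) (by positivity), log_mul (by positivity) (by positivity)]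
      rw [log_div (by positivity) (by positivity)] at h
      ring_nf at h ⊢
      linarith
    | succ m ih =>
      have h := half_log_step (K := K) (k := (n : ℝ) + m + 1) (by positivity) (by
        rw [hK]; gcongr <;> linarith [(Nat.cast_nonneg m : (0 : ℝ) ≤ m)])
      rw [hGap_succ]
      simp only [hφ] at ih ⊢
      push_cast
      ring_nf at h ih ⊢
      linarith
  intro m
  have := key m
  have hp : 0 ≤ K / (2 * ((n : ℝ) + m + 1 + 1) * ((n : ℝ) + m + 1 + 2)) := by positivity
  simp only [hφ] at this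
  simp only [liftD, ← hK]
  ring_nf at this hp ⊢
  linarith

theorem qS_le_liftU (n : ℕ) : ∀ m : ℕ,
    qS n (m + 1) + 1 / ((n : ℝ) + m + 5 / 2) ≤ liftU n
  | 0 => by simp only [qS, liftU]; push_cast; ring_nf; rfl
  | m + 1 => by
      have ih := qS_le_liftU n m
      simp only [qS] at ih ⊢
      push_cast
      have h : 1 / ((n : ℝ) + (m + 1) + 2) ^ 2 + 1 / ((n : ℝ) + (m + 1) + 5 / 2)
          ≤ 1 / ((n : ℝ) + m + 5 / 2) := by
        set x : ℝ := (n : ℝ) + m + 3 with hx
        have hx0 : 0 < x := by positivity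
        rw [show (n : ℝ) + (m + 1) + 2 = x by rw [hx]; ring,
          show (n : ℝ) + (m + 1) + 5 / 2 = x + 1 / 2 by rw [hx]; ring,
          show (n : ℝ) + m + 5 / 2 = x - 1 / 2 by rw [hx]; ring]
        have h2 : 0 < x - 1 / 2 := by
          rw [hx]; linarith [(Nat.cast_nonneg n : (0 : ℝ) ≤ n), (Nat.cast_nonneg m : (0 : ℝ) ≤ m)]
        rw [div_add_div _ _ (by positivity) (by positivity), div_le_div_iff₀ (by positivity) h2]
        nlinarith
      linarith

end Vale.P254.E
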