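import Vale.Agent.P254.E.CurveGrid
import Vale.Agent.P254.E.LiftMom
import Vale.Agent.P074.PrekopaLeindler

/-!
A law of class `n` times an independent Beta law with parameters `(n + 1, m + 1)` has a decreasing
log-concave density, so the table for the exponential family gives `OneDimA n` with shifted data.
-/

namespace Vale.P254.E

open MeasureTheory Set Real Filter Topology
open scoped ENNReal

/-- The joint integrand at height `s` and factor `r`. -/
noncomputable def liftK (n m : ℕ) (g : ℝ → ℝ) (T s r : ℝ) : ℝ :=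
  if s < r * T then g (s / r) * bW (n - 1) m r else 0

/-- The unnormalised lifted density. -/
noncomputable def liftF (n m : ℕ) (g : ℝ → ℝ) (T s : ℝ) : ℝ :=
  ∫ r in Ioc 0 1, liftK n m g T s r

/-- The lifted density. -/
noncomputable def liftG (n m : ℕ) (g : ℝ → ℝ) (T s : ℝ) : ℝ :=
  if 0 ≤ s then liftF n m g T (max s 0) / bI n m else 0

variable {n m : ℕ} {g : ℝ → ℝ} {T : ℝ}

theorem bW_nonneg (k l : ℕ) {r : ℝ} (h : r ∈ Ioc (0 : ℝ) 1) : 0 ≤ bW k l r :=
  mul_nonneg (pow_nonneg h.1.le _) (pow_nonneg (by linarith [h.2]) _)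

theorem Marg.le_top (hg : Marg g T) {t : ℝ} (ht : 0 ≤ t) : g t ≤ g 0 :=
  hg.anti self_mem_Ici ht ht

theorem liftK_nonneg (hg : Marg g T) {r : ℝ} (h : r ∈ Ioc (0 : ℝ) 1) (s : ℝ) :
    0 ≤ liftK n m g T s r := by
  unfold liftK; split_ifs
  · exact mul_nonneg (hg.nonneg _) (bW_nonneg _ _ h)
  · exact le_rfl

theorem liftK_le (hg : Marg g T) {r : ℝ} (h : r ∈ Ioc (0 : ℝ) 1) {s : ℝ} (hs : 0 ≤ s) :
    liftK n m g T s r ≤ g 0 * bW (n - 1) m r := by
  unfold liftK; split_ifs
  · exact mul_le_mul_of_nonneg_right (hg.le_top (div_nonneg hs h.1.le)) (bW_nonneg _ _ h)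
  · exact mul_nonneg (hg.nonneg _) (bW_nonneg _ _ h)

theorem measurable_liftK (hg : Marg g T) :
    Measurable fun p : ℝ × ℝ => liftK n m g T p.1 p.2 := by
  unfold liftK
  exact Measurable.ite (measurableSet_lt measurable_fst (measurable_snd.mul_const T))
    ((hg.meas.comp (measurable_fst.div measurable_snd)).mul (by unfold bW; fun_prop))
    measurable_const

theorem integrableOn_liftK (hg : Marg g T) {s : ℝ} (hs : 0 ≤ s) :
    IntegrableOn (liftK n m g T s) (Ioc 0 1) := by
  refine ((integrableOn_bW (n - 1) m).const_mul (g 0)).mono'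
    ((measurable_liftK hg).comp measurable_prodMk_left).aestronglyMeasurable ?_
  refine (ae_restrict_iff' measurableSet_Ioc).2 (Eventually.of_forall fun r hr => ?_)
  rw [norm_eq_abs, abs_of_nonneg (liftK_nonneg hg hr s)]
  exact liftK_le hg hr hs

theorem liftF_antitoneOn (hg : Marg g T) : AntitoneOn (liftF n m g T) (Ici 0) := by
  intro s hs t ht hst
  refine setIntegral_mono_on (integrableOn_liftK hg ht) (integrableOn_liftK hg hs)
    measurableSet_Ioc fun r hr => ?_
  unfold liftK
  split_ifs with h1 h2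
  · refine mul_le_mul_of_nonneg_right (hg.anti ?_ ?_ ?_) (bW_nonneg _ _ hr)
    · exact mem_Ici.2 (div_nonneg hs hr.1.le)
    · exact mem_Ici.2 (div_nonneg ht hr.1.le)
    · exact div_le_div_of_nonneg_right hst hr.1.le
  · exact absurd (hst.trans_lt h1) h2
  · exact mul_nonneg (hg.nonneg _) (bW_nonneg _ _ hr)
  · exact le_rfl

theorem liftG_nonneg (hg : Marg g T) (s : ℝ) : 0 ≤ liftG n m g T s := by
  unfold liftG; split_ifs
  · exact div_nonneg (setIntegral_nonneg measurableSet_Ioc fun r hr => liftK_nonneg hg hr _)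
      (bI_pos n m).le
  · exact le_rfl

theorem measurable_liftG (hg : Marg g T) : Measurable (liftG n m g T) := by
  refine Measurable.ite measurableSet_Ici ?_ measurable_const
  refine (Antitone.measurable ?_).div_const _
  exact fun a b hab => liftF_antitoneOn hg (le_max_right a 0) (le_max_right b 0)
    (max_le_max hab le_rfl)

theorem liftF_pos (hg : Marg g T) {s : ℝ} (hs : s ∈ Ico 0 T) : 0 < liftF n m g T s := by
  have hT := hg.top_pos
  refine (setIntegral_pos_iff_support_of_nonneg_ae
    ((ae_restrict_iff' measurableSet_Ioc).2 (Eventually.of_forall fun r hr => liftK_nonneg hg hr s))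
    (integrableOn_liftK hg hs.1)).2 ?_
  have h1 : s / T < 1 := by rw [div_lt_one hT]; exact hs.2
  refine lt_of_lt_of_le ?_ (measure_mono (s := Ioo (s / T) 1) fun r hr => ?_)
  · simp [h1]
  have hr0 : 0 < r := (div_nonneg hs.1 hT.le).trans_lt hr.1
  have hlt : s < r * T := (div_lt_iff₀ hT).1 hr.1
  refine ⟨?_, hr0, hr.2.le⟩
  rw [Function.mem_support, liftK, if_pos hlt]
  refine mul_ne_zero (hg.pos _ ⟨div_nonneg hs.1 hr0.le, ?_⟩).ne' ?_
  · rw [div_lt_iff₀ hr0]; linarith
  · exact mul_ne_zero (pow_ne_zero _ hr0.ne') (pow_ne_zero _ (by linarith [hr.2]))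

theorem liftK_midpoint (hn : 2 ≤ n) (hg : Marg g T) (hc : InClass n g T) {a b : ℝ}
    (ha : 0 ≤ a) (hb : 0 ≤ b) {x y : ℝ} (hx : x ∈ Ioc (0 : ℝ) 1) (hy : y ∈ Ioc (0 : ℝ) 1) :
    liftK n m g T a x * liftK n m g T b y ≤ liftK n m g T ((a + b) / 2) ((x + y) / 2) ^ 2 := by
  have hr : (x + y) / 2 ∈ Ioc (0 : ℝ) 1 := ⟨by linarith [hx.1, hy.1], by linarith [hx.2, hy.2]⟩
  unfold liftK
  split_ifs with h1 h2 h3 h4 h5
  · have hxp := hx.1
    have hyp := hy.1
    have hu : a / x ∈ Ico 0 T := ⟨div_nonneg ha hxp.le, by rw [div_lt_iff₀ hxp]; linarith⟩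
    have hv : b / y ∈ Ico 0 T := ⟨div_nonneg hb hyp.le, by rw [div_lt_iff₀ hyp]; linarith⟩
    have hk := (hc hn).2 hu hv (show 0 ≤ x / (x + y) by positivity)
      (show 0 ≤ y / (x + y) by positivity) (by field_simp)
    have he : x / (x + y) * (a / x) + y / (x + y) * (b / y) = (a + b) / 2 / ((x + y) / 2) := by
      field_simp
    simp only [smul_eq_mul] at hk
    rw [he] at hk
    set e : ℝ := 1 / ((n : ℝ) - 1) with he'
    set P := g (a / x) ^ e
    set Q := g (b / y) ^ e
    set R := g ((a + b) / 2 / ((x + y) / 2)) ^ e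
    have hne : n - 1 ≠ 0 := by omega
    have hpow : ∀ z : ℝ, 0 ≤ z → (z ^ e) ^ (n - 1) = z := fun z hz => by
      rw [he', one_div, show ((n : ℝ) - 1) = ((n - 1 : ℕ) : ℝ) by
        push_cast [Nat.cast_sub (by omega : 1 ≤ n)]; ring]
      exact rpow_inv_natCast_pow hz hne
    have hP : 0 ≤ P := rpow_nonneg (hg.nonneg _) _
    have hQ : 0 ≤ Q := rpow_nonneg (hg.nonneg _) _
    have hR : x * P + y * Q ≤ (x + y) * R := by
      have := mul_le_mul_of_nonneg_left hk (show (0 : ℝ) ≤ x + y by linarith)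
      calc x * P + y * Q = (x + y) * (x / (x + y) * P + y / (x + y) * Q) := by field_simp
        _ ≤ _ := this
    have h1' : (x * P) * (y * Q) ≤ ((x + y) / 2 * R) ^ 2 := by
      have h2' : 0 ≤ x * P + y * Q := by positivity
      nlinarith [sq_nonneg (x * P - y * Q)]
    have h3' : (1 - x) * (1 - y) ≤ (1 - (x + y) / 2) ^ 2 := by nlinarith [sq_nonneg (x - y)]
    have := mul_le_mul (pow_le_pow_left₀ (by positivity) h1' (n - 1))
      (pow_le_pow_left₀ (mul_nonneg (by linarith [hx.2]) (by linarith [hy.2])) h3' m)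
      (pow_nonneg (mul_nonneg (by linarith [hx.2]) (by linarith [hy.2])) _) (by positivity)
    simp only [mul_pow, ← pow_mul, bW] at this ⊢
    rw [hpow _ (hg.nonneg _), hpow _ (hg.nonneg _)] at this
    rw [show g ((a + b) / 2 / ((x + y) / 2)) = R ^ (n - 1) from (hpow _ (hg.nonneg _)).symm]
    ring_nf at this ⊢
    exact this
  all_goals first
    | exact absurd (show (a + b) / 2 < (x + y) / 2 * T by linarith) (by assumption)
    | (rw [zero_mul]; positivity)
    | (rw [mul_zero]; positivity)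

theorem liftF_midpoint (hn : 2 ≤ n) (hg : Marg g T) (hc : InClass n g T) {a b : ℝ}
    (ha : 0 ≤ a) (hb : 0 ≤ b) :
    liftF n m g T a * liftF n m g T b ≤ liftF n m g T ((a + b) / 2) ^ 2 := by
  have hv : ∀ s, 0 ≤ s → ∫⁻ r, (Ioc (0 : ℝ) 1).indicator
      (fun r => ENNReal.ofReal (liftK n m g T s r)) r = ENNReal.ofReal (liftF n m g T s) := by
    intro s hs
    rw [lintegral_indicator measurableSet_Ioc, liftF,
      ofReal_integral_eq_lintegral_ofReal (integrableOn_liftK hg hs)
        ((ae_restrict_iff' measurableSet_Ioc).2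
          (Eventually.of_forall fun r hr => liftK_nonneg hg hr s))]
  have hm : ∀ s, Measurable ((Ioc (0 : ℝ) 1).indicator
      fun r => ENNReal.ofReal (liftK n m g T s r)) := fun s =>
    ((measurable_liftK hg).comp measurable_prodMk_left).ennreal_ofReal.indicator measurableSet_Ioc
  have key := Vale.Agent.P074.pl_one (hm a) (hm b) (hm ((a + b) / 2)) fun x y => ?_
  · rw [hv a ha, hv b hb, hv _ (by linarith)] at key
    have h0 : ∀ s, 0 ≤ liftF n m g T s := fun s =>
      setIntegral_nonneg measurableSet_Ioc fun r hr => liftK_nonneg hg hr s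
    rw [← ENNReal.ofReal_mul (h0 a), ← ENNReal.ofReal_pow (h0 _)] at key
    exact (ENNReal.ofReal_le_ofReal_iff (sq_nonneg _)).1 key
  by_cases hx : x ∈ Ioc (0 : ℝ) 1
  swap; · simp [indicator_of_notMem hx]
  by_cases hy : y ∈ Ioc (0 : ℝ) 1
  swap; · simp [indicator_of_notMem hy]
  have hr : (x + y) / 2 ∈ Ioc (0 : ℝ) 1 := ⟨by linarith [hx.1, hy.1], by linarith [hx.2, hy.2]⟩
  rw [indicator_of_mem hx, indicator_of_mem hy, indicator_of_mem hr,
    ← ENNReal.ofReal_mul (liftK_nonneg hg hx a), ← ENNReal.ofReal_pow (liftK_nonneg hg hr _)]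
  exact ENNReal.ofReal_le_ofReal (liftK_midpoint hn hg hc ha hb hx hy)

/-- A decreasing midpoint-concave function on an interval is concave. -/
theorem concaveOn_of_mid_antitone {f : ℝ → ℝ} {S : Set ℝ} (hS : Convex ℝ S)
    (ha : AntitoneOn f S) (hmid : ∀ x ∈ S, ∀ y ∈ S, f x + f y ≤ 2 * f ((x + y) / 2)) :
    ConcaveOn ℝ S f := by
  have dy : ∀ j k : ℕ, k ≤ 2 ^ j → ∀ x ∈ S, ∀ y ∈ S,
      (1 - (k : ℝ) / 2 ^ j) * f x + (k : ℝ) / 2 ^ j * f y
        ≤ f ((1 - (k : ℝ) / 2 ^ j) * x + (k : ℝ) / 2 ^ j * y) := by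
    intro j
    induction j with
    | zero =>
      intro k hk x _ y _
      rw [pow_zero] at hk
      interval_cases k <;> norm_num
    | succ j ih =>
      intro k hk x hx y hy
      have he : k / 2 + (k + 1) / 2 = k := by omega
      rw [pow_succ] at hk
      have h1 : k / 2 ≤ 2 ^ j := by omega
      have h2 : (k + 1) / 2 ≤ 2 ^ j := by omega
      have hc : ((k / 2 : ℕ) : ℝ) + (((k + 1) / 2 : ℕ) : ℝ) = k := by exact_mod_cast he
      have i1 := ih _ h1 x hx y hy
      have i2 := ih _ h2 x hx y hy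
      set u : ℝ := ((k / 2 : ℕ) : ℝ) / 2 ^ j with hu
      set v : ℝ := (((k + 1) / 2 : ℕ) : ℝ) / 2 ^ j with hv
      have hu1 : u ≤ 1 := (div_le_one (by positivity)).2 (by exact_mod_cast h1)
      have hv1 : v ≤ 1 := (div_le_one (by positivity)).2 (by exact_mod_cast h2)
      have hkv : (k : ℝ) / 2 ^ (j + 1) = (u + v) / 2 := by
        rw [hu, hv, ← hc, pow_succ]; ring
      have := hmid _ (hS hx hy (by linarith) (by positivity) (sub_add_cancel 1 u))
        _ (hS hx hy (by linarith) (by positivity) (sub_add_cancel 1 v))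
      simp only [smul_eq_mul] at this
      rw [hkv]
      rw [show ((1 - u) * x + u * y + ((1 - v) * x + v * y)) / 2
        = (1 - (u + v) / 2) * x + (u + v) / 2 * y by ring] at this
      linarith
  have key : ∀ x ∈ S, ∀ y ∈ S, x ≤ y → ∀ t : ℝ, 0 ≤ t → t ≤ 1 →
      (1 - t) * f x + t * f y ≤ f ((1 - t) * x + t * y) := by
    intro x hx y hy hxy t ht0 ht1
    set z := (1 - t) * x + t * y with hz
    have hzS : z ∈ S := hS hx hy (by linarith) ht0 (sub_add_cancel 1 t)
    set k : ℕ → ℕ := fun j => ⌈t * 2 ^ j⌉₊ with hk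
    have hk1 : ∀ j, t * 2 ^ j ≤ k j := fun j => Nat.le_ceil _
    have hk2 : ∀ j, (k j : ℝ) ≤ t * 2 ^ j + 1 := fun j =>
      (Nat.ceil_lt_add_one (by positivity)).le
    have hk3 : ∀ j, k j ≤ 2 ^ j := fun j => Nat.ceil_le.2 (by
      push_cast; exact mul_le_of_le_one_left (by positivity) ht1)
    have hlim : Tendsto (fun j => (k j : ℝ) / 2 ^ j) atTop (𝓝 t) := by
      refine tendsto_of_tendsto_of_tendsto_of_le_of_le tendsto_const_nhds
        (h := fun j : ℕ => t + (1 / 2 : ℝ) ^ j) ?_ (fun j => ?_) fun j => ?_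
      · simpa using (tendsto_pow_atTop_nhds_zero_of_lt_one (by norm_num : (0 : ℝ) ≤ 1 / 2)
          (by norm_num)).const_add t
      · exact (le_div_iff₀ (by positivity)).2 (hk1 j)
      · rw [div_le_iff₀ (by positivity), add_mul, ← mul_pow]; norm_num; exact hk2 j
    refine le_of_tendsto (((tendsto_const_nhds.sub hlim).mul_const (f x)).add (hlim.mul_const (f y)))
      (Eventually.of_forall fun j => ?_)
    refine (dy j (k j) (hk3 j) x hx y hy).trans (ha hzS ?_ ?_)
    · exact hS hx hy (sub_nonneg.2 ((div_le_one (by positivity)).2 (by exact_mod_cast hk3 j)))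
        (by positivity) (sub_add_cancel 1 _)
    · rw [hz]
      have : t ≤ (k j : ℝ) / 2 ^ j := (le_div_iff₀ (by positivity)).2 (hk1 j)
      nlinarith
  refine ⟨hS, fun x hx y hy a b ha' hb' hab => ?_⟩
  simp only [smul_eq_mul]
  rcases le_total x y with h | h
  · obtain rfl : a = 1 - b := by linarith
    exact key x hx y hy h b hb' (by linarith)
  · obtain rfl : b = 1 - a := by linarith
    have := key y hy x hx h a ha' (by linarith)
    rw [add_comm (a * f x), add_comm (a * x)]
    exact this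

theorem lift_logConcave (hn : 2 ≤ n) (hg : Marg g T) (hc : InClass n g T) :
    ConcaveOn ℝ (Ico 0 T) fun s => log (liftG n m g T s) := by
  have hI := bI_pos n m
  have e : ∀ s ∈ Ico 0 T, liftG n m g T s = liftF n m g T s / bI n m := fun s hs => by
    rw [liftG, if_pos hs.1, max_eq_left hs.1]
  have hp : ∀ s ∈ Ico 0 T, 0 < liftG n m g T s := fun s hs => by
    rw [e s hs]; exact div_pos (liftF_pos hg hs) hI
  refine concaveOn_of_mid_antitone (convex_Ico 0 T) (fun x hx y hy hxy => ?_) fun x hx y hy => ?_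
  · refine log_le_log (hp y hy) ?_
    rw [e x hx, e y hy]
    exact div_le_div_of_nonneg_right (liftF_antitoneOn hg hx.1 hy.1 hxy) hI.le
  have hz : (x + y) / 2 ∈ Ico 0 T := ⟨by linarith [hx.1, hy.1], by linarith [hx.2, hy.2]⟩
  have := liftF_midpoint (m := m) hn hg hc hx.1 hy.1
  have h2 : liftG n m g T x * liftG n m g T y ≤ liftG n m g T ((x + y) / 2) ^ 2 := by
    rw [e x hx, e y hy, e _ hz, div_mul_div_comm, div_pow, sq (bI n m)]
    exact div_le_div_of_nonneg_right this (by positivity)
  have := log_le_log (mul_pos (hp x hx) (hp y hy)) h2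
  rw [log_mul (hp x hx).ne' (hp y hy).ne', log_pow] at this
  push_cast at this
  exact this

theorem slice_moment (hn : 1 ≤ n) (hg : Marg g T) (f : ℝ → ℝ) {r : ℝ}
    (hr : r ∈ Ioc (0 : ℝ) 1) :
    ∫ s in Ioc 0 T, liftK n m g T s r * f s =
      bW n m r * ∫ y in Ioc 0 T, g y * f (r * y) := by
  obtain ⟨k, rfl⟩ : ∃ k, n = k + 1 := ⟨n - 1, by omega⟩
  have hT := hg.top_pos
  have hrT : r * T ≤ T := mul_le_of_le_one_left hT.le hr.2
  have h1 : (fun s => liftK (k + 1) m g T s r * f s) =
      (Iio (r * T)).indicator fun s => bW k m r * (g (s / r) * f (r * (s / r))) := by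
    funext s
    unfold liftK
    rw [Nat.add_sub_cancel]
    by_cases h : s < r * T
    · rw [if_pos h, indicator_of_mem (show s ∈ Iio (r * T) from h)]
      rw [mul_div_cancel₀ _ hr.1.ne']; ring
    · rw [if_neg h, indicator_of_notMem (show s ∉ Iio (r * T) from h), zero_mul]
  rw [h1, setIntegral_indicator measurableSet_Iio,
    show Ioc 0 T ∩ Iio (r * T) = Ioo 0 (r * T) by
      ext s; simp only [mem_inter_iff, mem_Ioc, mem_Iio, mem_Ioo]
      exact ⟨fun h => ⟨h.1.1, h.2⟩, fun h => ⟨⟨h.1, h.2.le.trans hrT⟩, h.2⟩⟩,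
    ← integral_Ioc_eq_integral_Ioo, integral_const_mul,
    ← intervalIntegral.integral_of_le (mul_nonneg hr.1.le hT.le),
    intervalIntegral.integral_comp_div (fun y => g y * f (r * y)) hr.1.ne',
    zero_div, mul_div_cancel_left₀ _ hr.1.ne', intervalIntegral.integral_of_le hT.le, smul_eq_mul]
  simp only [bW]; ring

theorem moment_swap (hn : 1 ≤ n) (hg : Marg g T) {f : ℝ → ℝ} (hfm : Measurable f)
    (hf : IntegrableOn f (Ioc 0 T)) :
    ∫ s in Ioc 0 T, liftG n m g T s * f s =
      (∫ r in Ioc 0 1, bW n m r * ∫ y in Ioc 0 T, g y * f (r * y)) / bI n m := by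
  have e : EqOn (fun s => liftG n m g T s * f s)
      (fun s => (∫ r in Ioc 0 1, liftK n m g T s r * f s) / bI n m) (Ioc 0 T) := fun s hs => by
    simp only [liftG, if_pos hs.1.le, max_eq_left hs.1.le, liftF]
    rw [integral_mul_const]; ring
  rw [setIntegral_congr_fun measurableSet_Ioc e, integral_div]
  congr 1
  have hint : Integrable (Function.uncurry fun s r => liftK n m g T s r * f s)
      ((volume.restrict (Ioc 0 T)).prod (volume.restrict (Ioc (0 : ℝ) 1))) := by
    have hd := hf.norm.mul_prod ((integrableOn_bW (n - 1) m).const_mul (g 0))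
    refine hd.mono' ?_ ?_
    · exact ((measurable_liftK hg).mul (hfm.comp measurable_fst)).aestronglyMeasurable
    rw [Measure.prod_restrict]
    refine (ae_restrict_iff' (measurableSet_Ioc.prod measurableSet_Ioc)).2
      (Eventually.of_forall fun p hp => ?_)
    simp only [Function.uncurry, norm_mul]
    rw [norm_eq_abs (liftK n m g T p.1 p.2), abs_of_nonneg (liftK_nonneg hg hp.2 _)]
    calc liftK n m g T p.1 p.2 * ‖f p.1‖ ≤ g 0 * bW (n - 1) m p.2 * ‖f p.1‖ :=
          mul_le_mul_of_nonneg_right (liftK_le hg hp.2 hp.1.1.le) (norm_nonneg _)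
      _ = _ := by ring
  rw [integral_integral_swap hint]
  exact setIntegral_congr_fun measurableSet_Ioc fun r hr => slice_moment hn hg f hr

theorem integrableOn_log_unit (hT : 0 < T) : IntegrableOn log (Ioc 0 T) :=
  (intervalIntegrable_iff_integrableOn_Ioc_of_le hT.le).1 intervalIntegral.intervalIntegrable_log'

theorem integrableOn_log_sq_unit (_hT : 0 < T) : IntegrableOn (fun x => log x ^ 2) (Ioc 0 T) := by
  refine (integrableOn_of_le (p := (Iic T).indicator fun _ => (1 : ℝ)) (C := exp T)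
    (measurable_const.indicator measurableSet_Iic) wt_log_sq fun x hx => ?_).mono_set
      Ioc_subset_Ioi_self |>.congr_fun (fun x hx => ?_) measurableSet_Ioc
  · by_cases h : x ≤ T
    · rw [indicator_of_mem (show x ∈ Iic T from h), abs_one, ← exp_add]
      exact one_le_exp (by linarith)
    · rw [indicator_of_notMem (show x ∉ Iic T from h), abs_zero]; positivity
  · simp only; rw [indicator_of_mem (show x ∈ Iic T from hx.2), one_mul]

theorem lift_marg (hn : 2 ≤ n) (hg : Marg g T) (hc : InClass n g T) :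
    Marg (liftG n m g T) T where
  top_pos := hg.top_pos
  pos t ht := by
    rw [liftG, if_pos ht.1, max_eq_left ht.1]
    exact div_pos (liftF_pos hg ht) (bI_pos n m)
  nonneg := liftG_nonneg hg
  zero t ht := by
    unfold liftG
    split_ifs with h
    swap; · rfl
    rw [max_eq_left h]
    have hT : T < t := by
      by_contra h'; exact ht ⟨h, le_of_not_gt h'⟩
    have : liftF n m g T t = 0 := setIntegral_eq_zero_of_forall_eq_zero fun r hr => by
      rw [liftK, if_neg]
      have := mul_le_of_le_one_left hg.top_pos.le hr.2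
      linarith
    rw [this, zero_div]
  meas := measurable_liftG hg
  anti s hs t ht hst := by
    simp only [mem_Ici] at hs ht
    simp only [liftG, if_pos hs, if_pos ht, max_eq_left hs, max_eq_left ht]
    exact div_le_div_of_nonneg_right (liftF_antitoneOn hg hs ht hst) (bI_pos n m).le
  logConcave := lift_logConcave hn hg hc
  mass := by
    have h := moment_swap (m := m) (f := fun _ => (1 : ℝ)) (by omega : 1 ≤ n) hg measurable_const
      (integrableOn_const measure_Ioc_lt_top.ne)
    simp only [mul_one, hg.mass, integral_bW, div_self (bI_pos n m).ne'] at h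
    exact h

theorem lift_moments (hn : 1 ≤ n) (hg : Marg g T) :
    (∫ s in Ioc 0 T, liftG n m g T s * log s = mLog g T - hS n m) ∧
    (∫ s in Ioc 0 T, liftG n m g T s * log s ^ 2 =
      (∫ y in Ioc 0 T, g y * log y ^ 2) - 2 * mLog g T * hS n m + (hS n m ^ 2 + qS n m)) ∧
    mSq (liftG n m g T) T =
      mSq g T * (((n : ℝ) + 1) * ((n : ℝ) + 2) / (((n : ℝ) + m + 2) * ((n : ℝ) + m + 3))) := by
  have hT := hg.top_pos
  have hI := (bI_pos n m).ne'
  have hi : ∀ {f : ℝ → ℝ}, Wt f → IntegrableOn (fun y => g y * f y) (Ioc 0 T) :=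
    fun hf => (hg.integrableOn_wt hf).mono_set Ioc_subset_Ioi_self
  have i0 : IntegrableOn g (Ioc 0 T) := by simpa using hi wt_one
  refine ⟨?_, ?_, ?_⟩
  · rw [moment_swap hn hg measurable_log (integrableOn_log_unit hT)]
    have e : EqOn (fun r => bW n m r * ∫ y in Ioc 0 T, g y * log (r * y))
        (fun r => bW n m r * log r + mLog g T * bW n m r) (Ioc 0 1) := fun r hr => by
      have e' : EqOn (fun y => g y * log (r * y)) (fun y => log r * g y + g y * log y) (Ioc 0 T) :=
        fun y hy => by simp only; rw [log_mul hr.1.ne' hy.1.ne']; ring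
      simp only
      rw [setIntegral_congr_fun measurableSet_Ioc e', integral_add (i0.const_mul _) (hi wt_log),
        integral_const_mul, hg.mass, mLog]
      ring
    rw [setIntegral_congr_fun measurableSet_Ioc e,
      integral_add (integrableOn_bW_log hn m) ((integrableOn_bW n m).const_mul _),
      integral_const_mul, integral_bW_log m n hn, integral_bW]
    field_simp
    ring
  · rw [moment_swap hn hg (measurable_log.pow_const 2) (integrableOn_log_sq_unit hT)]
    set M2 := ∫ y in Ioc 0 T, g y * log y ^ 2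
    have e : EqOn (fun r => bW n m r * ∫ y in Ioc 0 T, g y * log (r * y) ^ 2)
        (fun r => bW n m r * log r ^ 2 + 2 * mLog g T * (bW n m r * log r) + M2 * bW n m r)
        (Ioc 0 1) := fun r hr => by
      have e' : EqOn (fun y => g y * log (r * y) ^ 2)
          (fun y => log r ^ 2 * g y + 2 * log r * (g y * log y) + g y * log y ^ 2) (Ioc 0 T) :=
        fun y hy => by simp only; rw [log_mul hr.1.ne' hy.1.ne']; ring
      have iA : IntegrableOn (fun y => log r ^ 2 * g y + 2 * log r * (g y * log y)) (Ioc 0 T) :=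
        (i0.const_mul _).add ((hi wt_log).const_mul _)
      simp only
      rw [setIntegral_congr_fun measurableSet_Ioc e', integral_add iA (hi wt_log_sq),
        integral_add (i0.const_mul _) ((hi wt_log).const_mul _), integral_const_mul,
        integral_const_mul, hg.mass, mLog]
      ring
    have iB : IntegrableOn
        (fun r => bW n m r * log r ^ 2 + 2 * mLog g T * (bW n m r * log r)) (Ioc 0 1) :=
      (integrableOn_bW_log_sq hn m).add ((integrableOn_bW_log hn m).const_mul _)
    rw [setIntegral_congr_fun measurableSet_Ioc e, integral_add iB ((integrableOn_bW n m).const_mul _),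
      integral_add (integrableOn_bW_log_sq hn m) ((integrableOn_bW_log hn m).const_mul _),
      integral_const_mul, integral_const_mul, integral_bW_log m n hn, integral_bW_log_sq m n hn,
      integral_bW]
    field_simp
    ring
  · rw [mSq, moment_swap hn hg (f := fun x => x ^ 2) (measurable_id.pow_const 2)
      ((Continuous.integrableOn_Icc (by fun_prop)).mono_set Ioc_subset_Icc_self)]
    have e : EqOn (fun r => bW n m r * ∫ y in Ioc 0 T, g y * (r * y) ^ 2)
        (fun r => mSq g T * bW (n + 2) m r) (Ioc 0 1) := fun r _ => by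
      simp only [mSq, mul_pow, mul_left_comm (g _) (r ^ 2), integral_const_mul, bW]
      ring
    rw [setIntegral_congr_fun measurableSet_Ioc e, integral_const_mul, integral_bW,
      bI_succ_left (n + 1), bI_succ_left n]
    push_cast
    field_simp
    ring

/-- `OneDimA n` from one table check: the potential may be moved right by `u` and lowered by `δ`,
and the constant is lowered by `liftD n`. -/
theorem oneDimA_lift_shift {φ ψ : ℝ → ℝ} {c : ℝ} (hgap : GapOK φ c) (hn : 2 ≤ n) {u δ : ℝ}
    (hu : liftU n ≤ u) (hψ : ∀ x, φ (x + u) + δ ≤ ψ x) (hψm : Monotone ψ)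
    (hc : cConst n - liftD n + 1 / 10 ^ 6 ≤ c + δ) :
    OneDimA n ψ := by
  intro g T hg hcl
  obtain ⟨m, hmN⟩ : ∃ m : ℕ, (10 : ℝ) ^ 6 ≤ m := exists_nat_ge _
  have hG := lift_marg (m := m + 1) hn hg hcl
  have key := hgap _ _ hG
  obtain ⟨e1, e2, e3⟩ := lift_moments (m := m + 1) (by omega : 1 ≤ n) hg
  have hL : mLog (liftG n (m + 1) g T) T = mLog g T - hS n (m + 1) := e1
  have hS' : mS (liftG n (m + 1) g T) T = mS g T + qS n (m + 1) := by
    rw [hG.mS_eq, hG.integral_Ioi, e2, hL, hg.mS_eq, hg.integral_Ioi]; ring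
  have hSq : 0 < mSq g T := by
    unfold mSq
    refine (setIntegral_pos_iff_support_of_nonneg_ae
      (Eventually.of_forall fun x => mul_nonneg (hg.nonneg x) (sq_nonneg x))
      ((hg.integrableOn_wt wt_sq).mono_set Ioc_subset_Ioi_self)).2 ?_
    refine lt_of_lt_of_le ?_ (measure_mono (s := Ioo 0 T) fun x hx =>
      ⟨mul_ne_zero (hg.pos x ⟨hx.1.le, hx.2⟩).ne' (pow_ne_zero 2 hx.1.ne'), hx.1, hx.2.le⟩)
    simp [hg.top_pos]
  rw [e3, hL, hS', log_mul hSq.ne' (by positivity), log_div (by positivity) (by positivity)] at key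
  have hq := qS_le_liftU n m
  have hg' := liftD_le_hGap n (m + 1)
  have hsmall : 1 / ((n : ℝ) + (m + 1 : ℕ) + 2) ≤ 1 / 10 ^ 6 :=
    one_div_le_one_div_of_le (by norm_num) (by
      push_cast; linarith [(Nat.cast_nonneg n : (0 : ℝ) ≤ n)])
  have hψ' : φ (mS g T + qS n (m + 1)) + δ ≤ ψ (mS g T) := by
    have h1 := hψ (mS g T + qS n (m + 1) - u)
    rw [sub_add_cancel] at h1
    refine h1.trans (hψm ?_)
    have : 0 ≤ 1 / ((n : ℝ) + m + 5 / 2) := by positivity
    linarith
  simp only [hGap] at hg'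
  linarith


/-- `OneDimA n` from the table of the exponential family, with the potential moved by `u` and the
constant lowered by `liftD n`. -/
theorem oneDimA_lift_table {ψ : ℝ → ℝ} (hm : Monotone ψ) (h0 : ∀ x, 0 ≤ ψ x) {ψQ : ℚ → ℚ}
    (hQ : ∀ x : ℚ, (ψQ x : ℝ) ≤ ψ x) {u c : ℚ} {pre main : List Row}
    (hT : tableOK (fun x => ψQ (x - u)) c pre main = true) (hn : 2 ≤ n)
    (hu : liftU n ≤ (u : ℝ)) (hc : cConst n - liftD n + 1 / 10 ^ 6 ≤ (c : ℝ)) :
    OneDimA n ψ :=
  oneDimA_lift_shift (φ := fun x => ψ (x - (u : ℝ))) (δ := 0)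
    (fun _ _ hg => gap_of_table curveLink endLink (ψ := fun x => ψ (x - (u : ℝ)))
      (fun x y h => hm (by linarith)) (fun x => h0 _) (ψQ := fun x => ψQ (x - u)) (fun x => by have := hQ (x - u); push_cast at this; exact this)
      hT hg) hn hu (fun x => by simp) hm (by simpa using hc)

end Vale.P254.E
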