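import Vale.Agent.P254.E.Defs

/-! An upper bound for `cConst n`. -/

namespace Vale.P254.E

open Real

theorem cConst_le {n : ℕ} (hn : 1 ≤ n) :
    cConst n ≤ 1 - Real.log 2 + 3 / (5 * n) + 1 / (2 * n ^ 2) := by
  have hn1 : (1 : ℝ) ≤ n := by exact_mod_cast hn
  have hn0 : (0 : ℝ) < n := by linarith
  have hfac : (0 : ℝ) < n.factorial := by positivity
  have hst := Stirling.le_log_factorial_stirling (show n ≠ 0 by omega)
  have hπ := pi_gt_d2
  have hpi : 0 < π := pi_pos
  -- `log (2 π) ≥ 1.8`
  have hl : (9 / 5 : ℝ) ≤ Real.log (2 * π) := by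
    have h1 : Real.log (2 * π) = 3 * Real.log 2 + Real.log (π / 4) := by
      rw [Real.log_div hpi.ne' (by norm_num), Real.log_mul (by norm_num) hpi.ne',
        show (4 : ℝ) = 2 ^ 2 by norm_num, Real.log_pow]
      push_cast; ring
    have h2 := one_sub_inv_le_log_of_pos (show 0 < π / 4 by positivity)
    have h3 : (π / 4)⁻¹ ≤ 1.2739 := by
      rw [inv_div, div_le_iff₀ hpi]; nlinarith
    have := log_two_gt_d9
    linarith
  have hL : Real.log (1 / simplexLsq n) = ((n : ℝ) + 1) / n * Real.log ((n : ℝ) + 1)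
      + Real.log ((n : ℝ) + 2) - 2 / n * Real.log n.factorial := by
    rw [simplexLsq, one_div_div, Real.log_div (by positivity) (by positivity),
      Real.log_mul (by positivity) (by positivity), Real.log_rpow (by positivity),
      Real.log_rpow hfac]
  have h1 : Real.log ((n : ℝ) + 1) ≤ Real.log n + 1 / n := by
    have := log_le_sub_one_of_pos (show 0 < ((n : ℝ) + 1) / n by positivity)
    rw [Real.log_div (by positivity) hn0.ne', add_div, div_self hn0.ne'] at this
    linarith
  have h2 : Real.log ((n : ℝ) + 2) ≤ Real.log n + 2 / n := by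
    have := log_le_sub_one_of_pos (show 0 < ((n : ℝ) + 2) / n by positivity)
    rw [Real.log_div (by positivity) hn0.ne', add_div, div_self hn0.ne'] at this
    linarith
  have h3 : 2 / (n : ℝ) * (n * Real.log n - n + Real.log n / 2 + Real.log (2 * π) / 2) ≤
      2 / n * Real.log n.factorial := mul_le_mul_of_nonneg_left hst (by positivity)
  have h4 : ((n : ℝ) + 1) / n * Real.log ((n : ℝ) + 1) ≤
      ((n : ℝ) + 1) / n * (Real.log n + 1 / n) := mul_le_mul_of_nonneg_left h1 (by positivity)
  have e : ((n : ℝ) + 1) / n * (Real.log n + 1 / n) + (Real.log n + 2 / n)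
      - 2 / n * (n * Real.log n - n + Real.log n / 2 + Real.log (2 * π) / 2)
      = 2 + (3 - Real.log (2 * π)) / n + 1 / n ^ 2 := by
    field_simp; ring
  have h5 : (3 - Real.log (2 * π)) / n ≤ (6 / 5) / n :=
    div_le_div_of_nonneg_right (by linarith) hn0.le
  have e2 : 1 / 2 * ((6 / 5 : ℝ) / n) = 3 / (5 * n) := by ring
  have e3 : 1 / 2 * (1 / (n : ℝ) ^ 2) = 1 / (2 * n ^ 2) := by ring
  rw [cConst, hL]
  linarith

end Vale.P254.E
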