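import Vale.Agent.P254.E.CurveStep

/-! A checkable upper bound for `cConst n` at a given `n`. -/

namespace Vale.P254.E

open Real

/-- Numerator of `simplexLsq n ^ (-n)`. -/
def constNum (n : ℕ) : ℕ := (n + 1) ^ (n + 1) * (n + 2) ^ n

/-- Denominator of `simplexLsq n ^ (-n)`. -/
def constDen (n : ℕ) : ℕ := n.factorial ^ 2

/-- An upper bound for `constNum n / (constDen n * 2 ^ k)` with a small denominator. -/
def constUp (n k : ℕ) : ℚ :=
  ((constNum n * 10 ^ 12 / (constDen n * 2 ^ k) + 1 : ℕ) : ℚ) / 10 ^ 12

/-- `cConst n ≤ q`, checked with `2 ^ k` taken out of the logarithm. -/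
def constOK (n k : ℕ) (q : ℚ) : Bool :=
  decide (1 ≤ n ∧ 1 / 2 * ((k : ℚ) * (6931471808 / 10000000000) + logUp (constUp n k)) / n
    - 6931471803 / 10000000000 ≤ q)

theorem cConst_le_of_ok {n k : ℕ} {q : ℚ} (h : constOK n k q = true) : cConst n ≤ q := by
  simp only [constOK, decide_eq_true_eq] at h
  obtain ⟨hn, hq⟩ := h
  have hn0 : (0 : ℝ) < n := by exact_mod_cast hn
  have hD : 0 < constDen n * 2 ^ k := by unfold constDen; positivity
  have hN : 0 < constNum n := by unfold constNum; positivity
  set y := constUp n k with hy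
  -- the rounded value is an upper bound
  have hY : (constNum n : ℝ) / (constDen n * 2 ^ k : ℕ) ≤ (y : ℝ) := by
    have h1 := Nat.lt_div_mul_add (a := constNum n * 10 ^ 12) hD
    set Q := constNum n * 10 ^ 12 / (constDen n * 2 ^ k) with hQ
    have h2 : (constNum n : ℝ) * 10 ^ 12 < Q * (constDen n * 2 ^ k : ℕ) + (constDen n * 2 ^ k : ℕ) := by
      exact_mod_cast h1
    simp only [hy, constUp, ← hQ]
    push_cast at h2 ⊢
    have hD' : (0 : ℝ) < (constDen n : ℝ) * 2 ^ k := by exact_mod_cast hD
    rw [div_le_div_iff₀ hD' (by positivity)]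
    linarith
  have hy0 : 0 < (y : ℝ) := lt_of_lt_of_le (by positivity) hY
  have hlog : Real.log ((constNum n : ℝ) / (constDen n * 2 ^ k : ℕ)) ≤ logUp y :=
    (Real.log_le_log (by positivity) hY).trans (log_le_logUp hy0)
  have hfac : (0 : ℝ) < n.factorial := by positivity
  have hden : (0 : ℝ) < constDen n := by unfold constDen; positivity
  have e : Real.log ((constNum n : ℝ) / (constDen n * 2 ^ k : ℕ)) =
      (n : ℝ) * Real.log (1 / simplexLsq n) - k * Real.log 2 := by
    rw [simplexLsq, one_div_div]
    push_cast [constNum, constDen]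
    rw [Real.log_div (by positivity) (by positivity), Real.log_mul (by positivity) (by positivity),
      Real.log_mul (by positivity) (by positivity), Real.log_div (by positivity) (by positivity),
      Real.log_mul (by positivity) (by positivity), Real.log_rpow (by positivity),
      Real.log_rpow hfac, Real.log_pow, Real.log_pow, Real.log_pow, Real.log_pow]
    push_cast
    field_simp
    ring
  rw [e] at hlog
  have h2hi : Real.log 2 ≤ 6931471808 / 10000000000 :=
    le_of_lt (lt_of_lt_of_le Real.log_two_lt_d9 (by norm_num))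
  have h2lo : 6931471803 / 10000000000 ≤ Real.log 2 :=
    le_of_lt (lt_of_le_of_lt (by norm_num) Real.log_two_gt_d9)
  have hk : (k : ℝ) * Real.log 2 ≤ k * (6931471808 / 10000000000) :=
    mul_le_mul_of_nonneg_left h2hi (by positivity)
  have hqR : 1 / 2 * ((k : ℝ) * (6931471808 / 10000000000) + (logUp y : ℝ)) / n
      - 6931471803 / 10000000000 ≤ q := by
    have := (Rat.cast_le (K := ℝ)).2 hq
    push_cast at this
    exact this
  have h3 : Real.log (1 / simplexLsq n) ≤
      ((k : ℝ) * (6931471808 / 10000000000) + (logUp y : ℝ)) / n := by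
    rw [le_div_iff₀ hn0]; linarith
  have h4 : 1 / 2 * (((k : ℝ) * (6931471808 / 10000000000) + (logUp y : ℝ)) / n) =
      1 / 2 * ((k : ℝ) * (6931471808 / 10000000000) + (logUp y : ℝ)) / n := by ring
  rw [cConst]
  linarith

end Vale.P254.E
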