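import Vale.Agent.P254.E.LiftMom
import Vale.Agent.P254.E.CurveConst
import Vale.Agent.P254.E.CurvePoint

/-! The two numbers that `oneDimA_lift_table` needs, for single dimensions and for tails. -/

namespace Vale.P254.E

open Real

/-- `liftD` as a rational. -/
def liftDQ (n : ℕ) : ℚ :=
  1 / ((n : ℚ) + 1)
    - (1 / 3 + 1 / (((n : ℚ) + 1) * ((n : ℚ) + 3))) / (2 * ((n : ℚ) + 1) * ((n : ℚ) + 2))

/-- `liftU` as a rational. -/
def liftUQ (n : ℕ) : ℚ :=
  1 / ((n : ℚ) + 1) ^ 2 + 1 / ((n : ℚ) + 2) ^ 2 + 1 / ((n : ℚ) + 5 / 2)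

theorem cast_liftDQ (n : ℕ) : ((liftDQ n : ℚ) : ℝ) = liftD n := by
  simp only [liftDQ, liftD]; push_cast; rfl

theorem cast_liftUQ (n : ℕ) : ((liftUQ n : ℚ) : ℝ) = liftU n := by
  simp only [liftUQ, liftU]; push_cast; rfl

/-- Checks both hypotheses at one `n`; `k` is the power of two of `constOK`. -/
def liftOK (n k : ℕ) (u c : ℚ) : Bool :=
  decide (liftUQ n ≤ u) && constOK n k (c + liftDQ n - 1 / 10 ^ 6)

theorem lift_hyps {n k : ℕ} {u c : ℚ} (h : liftOK n k u c = true) :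
    liftU n ≤ (u : ℝ) ∧ cConst n - liftD n + 1 / 10 ^ 6 ≤ (c : ℝ) := by
  simp only [liftOK, Bool.and_eq_true, decide_eq_true_eq] at h
  refine ⟨?_, ?_⟩
  · rw [← cast_liftUQ]; exact_mod_cast h.1
  · have := cConst_le_of_ok h.2
    push_cast at this
    rw [cast_liftDQ] at this
    linarith

theorem liftU_anti {a n : ℕ} (h : a ≤ n) : liftU n ≤ liftU a := by
  have : (a : ℝ) ≤ n := by exact_mod_cast h
  unfold liftU
  gcongr

/-- From `n = 4` on, the lowered constant is at most its limit. -/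
theorem cConst_sub_liftD_le {n : ℕ} (hn : 4 ≤ n) : cConst n - liftD n ≤ 1 - Real.log 2 := by
  have h := cConst_le (show 1 ≤ n by omega)
  have hn' : (4 : ℝ) ≤ n := by exact_mod_cast hn
  have hn0 : (0 : ℝ) < n := by linarith
  have key : 3 / (5 * (n : ℝ)) + 1 / (2 * (n : ℝ) ^ 2) ≤ liftD n := by
    have hK : (1 / 3 + 1 / (((n : ℝ) + 1) * ((n : ℝ) + 3))) / (2 * ((n : ℝ) + 1) * ((n : ℝ) + 2))
        ≤ (23 / 100) / ((n : ℝ) * ((n : ℝ) + 1)) := by
      have h1 : 1 / (((n : ℝ) + 1) * ((n : ℝ) + 3)) ≤ 1 / 35 :=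
        one_div_le_one_div_of_le (by norm_num) (by nlinarith)
      calc (1 / 3 + 1 / (((n : ℝ) + 1) * ((n : ℝ) + 3))) / (2 * ((n : ℝ) + 1) * ((n : ℝ) + 2))
          ≤ (23 / 50) / (2 * ((n : ℝ) + 1) * ((n : ℝ) + 2)) := by gcongr; linarith
        _ ≤ (23 / 50) / (2 * ((n : ℝ) + 1) * (n : ℝ)) := by gcongr; linarith
        _ = _ := by field_simp; ring
    have h2 : 3 / (5 * (n : ℝ)) + 1 / (2 * (n : ℝ) ^ 2) + 23 / 100 / ((n : ℝ) * ((n : ℝ) + 1))
        ≤ 1 / ((n : ℝ) + 1) := by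
      rw [div_add_div _ _ (by positivity) (by positivity),
        div_add_div _ _ (by positivity) (by positivity),
        div_le_div_iff₀ (by positivity) (by positivity)]
      have h3 : 0 ≤ (2 / 5 * (n : ℝ) ^ 2 - 133 / 100 * n - 1 / 2) := by nlinarith
      nlinarith [mul_nonneg (mul_nonneg (pow_nonneg hn0.le 2)
        (by linarith : (0 : ℝ) ≤ (n : ℝ) + 1)) h3]
    simp only [liftD]
    linarith
  linarith

theorem lift_hyps_tail {a n : ℕ} {u c : ℚ} (ha : 4 ≤ a) (h : a ≤ n) (hu : liftUQ a ≤ u)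
    (hc : (30686 / 100000 : ℚ) ≤ c) :
    liftU n ≤ (u : ℝ) ∧ cConst n - liftD n + 1 / 10 ^ 6 ≤ (c : ℝ) := by
  refine ⟨(liftU_anti h).trans ?_, ?_⟩
  · rw [← cast_liftUQ]; exact_mod_cast hu
  · have := cConst_sub_liftD_le (ha.trans h)
    have hl := Real.log_two_gt_d9
    have hc' := (Rat.cast_le (K := ℝ)).2 hc
    norm_num at hc' hl ⊢
    linarith

end Vale.P254.E
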