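import Mathlib
import Vale.Agent.P254.U.Orth

/-! Frozen interfaces of the slice induction for unconditional bodies (helper20 note, sect. 8-9).

Modules:
* `Gain`: slices of an orthant body give a `GainPath`.
* `Loss`: a `GainPath` gives `LossBound g T F` for the chosen functional `F`.
* `Induction`: `LossBound` for `F` and `OneDimB ψ dψ F` give `Spine n ψ`.
* `OneDimA`, `OneDimB`: the inequalities for one variable.
* `Glue`: `Spine n ψ` and `OneDimA n ψ` give `L_K < L_simplex` for unconditional bodies.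
-/

namespace Vale.P254.E

open MeasureTheory Set Filter

variable {n m : ℕ}

/-- The slice of `K` at height `t` of coordinate `i`. -/
def slice (K : Set (Fin (n + 1) → ℝ)) (i : Fin (n + 1)) (t : ℝ) : Set (Fin n → ℝ) :=
  {y | Fin.insertNth i t y ∈ K}

/-- The mean of `log x_i` under the uniform law on `K`. -/
noncomputable def logMean (K : Set (Fin n → ℝ)) (i : Fin n) : ℝ :=
  (∫ x in K, Real.log (x i)) / volume.real K

/-- The variance of `log x_i` minus one. -/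
noncomputable def logVar (K : Set (Fin n → ℝ)) (i : Fin n) : ℝ :=
  (∫ x in K, (Real.log (x i) - logMean K i) ^ 2) / volume.real K - 1

/-- A decreasing log-concave probability density on `[0, T)`, zero outside `[0, T]`. -/
structure Marg (g : ℝ → ℝ) (T : ℝ) : Prop where
  top_pos : 0 < T
  pos : ∀ t ∈ Ico 0 T, 0 < g t
  nonneg : ∀ t, 0 ≤ g t
  zero : ∀ t, t ∉ Icc 0 T → g t = 0
  meas : Measurable g
  anti : AntitoneOn g (Ici 0)
  logConcave : ConcaveOn ℝ (Ico 0 T) (fun t => Real.log (g t))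
  mass : ∫ t in Ioc 0 T, g t = 1

/-- The marginals of `n`-dimensional bodies (Brunn). -/
def InClass (n : ℕ) (g : ℝ → ℝ) (T : ℝ) : Prop :=
  2 ≤ n → ConcaveOn ℝ (Ico 0 T) (fun t => g t ^ (1 / ((n : ℝ) - 1)))

/-- `E log`. -/
noncomputable def mLog (g : ℝ → ℝ) (T : ℝ) : ℝ :=
  ∫ t in Ioc 0 T, g t * Real.log t

/-- `Var log - 1`. -/
noncomputable def mS (g : ℝ → ℝ) (T : ℝ) : ℝ :=
  (∫ t in Ioc 0 T, g t * (Real.log t - mLog g T) ^ 2) - 1

/-- The entropy. -/
noncomputable def mEnt (g : ℝ → ℝ) (T : ℝ) : ℝ :=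
  -∫ t in Ioc 0 T, g t * Real.log (g t)

/-- The second moment. -/
noncomputable def mSq (g : ℝ → ℝ) (T : ℝ) : ℝ :=
  ∫ t in Ioc 0 T, g t * t ^ 2

/-- What the slices of a body give: `e j t` is the mean of `log y_j` on the slice at height `t`. -/
def GainPath (g : ℝ → ℝ) (T : ℝ) (e : Fin m → ℝ → ℝ) : Prop :=
  ∀ s ∈ Ico 0 T, ∀ t ∈ Ico 0 T, ∀ u : Fin m → ℝ, (∀ j, |u j| < 1) →
    ∑ j, (u j * (e j t - e j s) / 2 - u j / 2 * Real.log ((1 + u j) / (1 - u j)))
      ≤ Real.log (g ((s + t) / 2)) - (Real.log (g s) + Real.log (g t)) / 2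

/-- `F g T` bounds the total variance of the slice means. -/
def LossBound (F : (ℝ → ℝ) → ℝ → ℝ) : Prop :=
  ∀ (g : ℝ → ℝ) (T : ℝ), Marg g T → ∀ (m : ℕ) (e : Fin m → ℝ → ℝ), GainPath g T e →
    (∀ j, Measurable (e j)) →
    (∀ j, IntegrableOn (fun t => g t * e j t) (Ioc 0 T)) →
    (∀ j, IntegrableOn (fun t => g t * e j t ^ 2) (Ioc 0 T)) →
    ∑ j, ∫ t in Ioc 0 T, g t * (e j t - ∫ s in Ioc 0 T, g s * e j s) ^ 2 ≤ F g T

/-- `dψ` is a monotone nonnegative subgradient of `ψ`. -/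
structure Potential (ψ dψ : ℝ → ℝ) : Prop where
  subgrad : ∀ x y, ψ x + dψ x * (y - x) ≤ ψ y
  mono : Monotone dψ
  nonneg : ∀ x, 0 ≤ dψ x

/-- The step inequality for one variable. -/
def OneDimB (ψ dψ : ℝ → ℝ) (F : (ℝ → ℝ) → ℝ → ℝ) : Prop :=
  ∀ (g : ℝ → ℝ) (T : ℝ), Marg g T →
    ψ (mS g T) + dψ (mS g T) * F g T ≤ mEnt g T - 1 - mLog g T

/-- `L^2` of the simplex in dimension `n`. -/
noncomputable def simplexLsq (n : ℕ) : ℝ :=
  (n.factorial : ℝ) ^ (2 / (n : ℝ)) / (((n : ℝ) + 1) ^ (((n : ℝ) + 1) / n) * ((n : ℝ) + 2))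

/-- The excess needed per coordinate. -/
noncomputable def cConst (n : ℕ) : ℝ :=
  1 / 2 * Real.log (1 / simplexLsq n) - Real.log 2

/-- The goal inequality for one variable. -/
def OneDimA (n : ℕ) (ψ : ℝ → ℝ) : Prop :=
  ∀ (g : ℝ → ℝ) (T : ℝ), Marg g T → InClass n g T →
    1 / 2 * Real.log (mSq g T) + cConst n < 1 + mLog g T + ψ (mS g T)

/-- The entropy lower bound proved by induction on the dimension. -/
def Spine (n : ℕ) (ψ : ℝ → ℝ) : Prop :=
  ∀ K : Set (Fin n → ℝ), U.OrthBody K →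
    ∑ i, (1 + logMean K i + ψ (logVar K i)) ≤ Real.log (volume.real K)

end Vale.P254.E
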