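import Mathlib
import Vale.Agent.P074.PrekopaLeindler

/-!
Joint concavity of `log ∫_{K_t} ∏ (x_j / w_j) ^ (w_j - 1)` at a midpoint, and the resulting gain
inequality between the volumes and the logarithmic moments of three slices.
-/

namespace Vale.P254.E

open MeasureTheory Set Real
open scoped ENNReal

variable {k : ℕ}

/-- The open orthant. -/
def pos (k : ℕ) : Set (Fin k → ℝ) := {x | ∀ j, 0 < x j}

/-- The substitution `x = a exp (v / a)`. -/
noncomputable def wmap (a v : Fin k → ℝ) : Fin k → ℝ := fun j => a j * exp (v j / a j)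

/-- The weight `∏ (x / a) ^ (a - 1)`. -/
noncomputable def wt (a x : Fin k → ℝ) : ℝ := ∏ j, (x j / a j) ^ (a j - 1)

theorem measurableSet_pos : MeasurableSet (pos k) := by
  simp only [pos, Set.ofPred_forall]
  exact MeasurableSet.iInter fun j => measurableSet_lt measurable_const (measurable_pi_apply j)

theorem det_diag (c : Fin k → ℝ) :
    (ContinuousLinearMap.pi fun j =>
      c j • (ContinuousLinearMap.proj j : (Fin k → ℝ) →L[ℝ] ℝ)).det = ∏ j, c j := by
  have h : ((ContinuousLinearMap.pi fun j =>
      c j • (ContinuousLinearMap.proj j : (Fin k → ℝ) →L[ℝ] ℝ)) : (Fin k → ℝ) →ₗ[ℝ] (Fin k → ℝ))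
      = Matrix.toLin' (Matrix.diagonal c) := by
    refine LinearMap.ext fun v => funext fun j => ?_
    simp [Matrix.mulVec_diagonal]
  rw [ContinuousLinearMap.det, h, LinearMap.det_toLin', Matrix.det_diagonal]

theorem setLIntegral_wt {a : Fin k → ℝ} (ha : ∀ j, 0 < a j) {A : Set (Fin k → ℝ)}
    (hA : MeasurableSet A) (hAp : A ⊆ pos k) :
    ∫⁻ x in A, ENNReal.ofReal (wt a x)
      = ∫⁻ v, (wmap a ⁻¹' A).indicator (fun v => ENNReal.ofReal (exp (∑ j, v j))) v := by
  set L : (Fin k → ℝ) → (Fin k → ℝ) →L[ℝ] (Fin k → ℝ) := fun v => ContinuousLinearMap.pi fun j =>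
    exp (v j / a j) • (ContinuousLinearMap.proj j : (Fin k → ℝ) →L[ℝ] ℝ) with hL
  have hm : Measurable (wmap a) := by unfold wmap; fun_prop
  have hd : ∀ v ∈ wmap a ⁻¹' A, HasFDerivWithinAt (wmap a) (L v) (wmap a ⁻¹' A) v := by
    intro v _
    refine (hasFDerivAt_pi.2 fun j => ?_).hasFDerivWithinAt
    have h := (((hasFDerivAt_apply (𝕜 := ℝ) j v).mul_const (a j)⁻¹).exp).const_mul (a j)
    refine h.congr_fderiv ?_
    ext w
    simp [div_eq_mul_inv]
    field_simp [(ha j).ne']
  have hinj : InjOn (wmap a) (wmap a ⁻¹' A) := by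
    intro v _ w _ h
    funext j
    have := congrFun h j
    simp only [wmap] at this
    have h2 := exp_injective (mul_left_cancel₀ (ha j).ne' this)
    field_simp [(ha j).ne'] at h2
    exact h2
  have himg : wmap a '' (wmap a ⁻¹' A) = A := by
    refine Subset.antisymm (image_preimage_subset _ _) fun x hx => ?_
    have : wmap a (fun j => a j * log (x j / a j)) = x := by
      funext j
      simp only [wmap]
      rw [mul_div_cancel_left₀ _ (ha j).ne', exp_log (div_pos (hAp hx j) (ha j)),
        mul_div_cancel₀ _ (ha j).ne']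
    exact ⟨_, by rw [mem_preimage, this]; exact hx, this⟩
  rw [lintegral_indicator (hA.preimage hm)]
  conv_lhs => rw [← himg]
  rw [lintegral_image_eq_lintegral_abs_det_fderiv_mul volume (hA.preimage hm) hd hinj]
  refine setLIntegral_congr_fun (hA.preimage hm) fun v _ => ?_
  simp only [hL, det_diag]
  rw [abs_of_pos (Finset.prod_pos fun j _ => exp_pos _), ← ENNReal.ofReal_mul
    (Finset.prod_nonneg fun j _ => (exp_pos _).le), wt, ← Finset.prod_mul_distrib, exp_sum]
  congr 1
  refine Finset.prod_congr rfl fun j _ => ?_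
  simp only [wmap]
  rw [mul_div_cancel_left₀ _ (ha j).ne', ← exp_mul, ← exp_add]
  congr 1
  field_simp [(ha j).ne']
  ring

/-- Prékopa for the weighted integrals: midpoint log-concavity jointly in the slice and weight. -/
theorem wt_mul_le {A B C : Set (Fin k → ℝ)} (hA : MeasurableSet A) (hB : MeasurableSet B)
    (hC : MeasurableSet C) (hAp : A ⊆ pos k) (hBp : B ⊆ pos k)
    (hmid : ∀ x ∈ A, ∀ y ∈ B, ∀ z, (∀ j, 0 < z j) → (∀ j, z j ≤ (x j + y j) / 2) → z ∈ C)
    {a b : Fin k → ℝ} (ha : ∀ j, 0 < a j) (hb : ∀ j, 0 < b j) (hab : ∀ j, a j + b j = 2) :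
    (∫⁻ x in A, ENNReal.ofReal (wt a x)) * ∫⁻ x in B, ENNReal.ofReal (wt b x)
      ≤ volume C ^ 2 := by
  have hone : ∀ j, (0 : ℝ) < (fun _ : Fin k => (1 : ℝ)) j := fun _ => one_pos
  have hC' : (∫⁻ x in C ∩ pos k, ENNReal.ofReal (wt (fun _ : Fin k => (1 : ℝ)) x)) ≤ volume C := by
    simpa [wt] using measure_mono (μ := volume) (inter_subset_left (s := C) (t := pos k))
  refine le_trans ?_ (pow_le_pow_left' hC' 2)
  rw [setLIntegral_wt ha hA hAp, setLIntegral_wt hb hB hBp,
    setLIntegral_wt hone (hC.inter measurableSet_pos) inter_subset_right]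
  have hmeas : ∀ (c : Fin k → ℝ) (S : Set (Fin k → ℝ)), MeasurableSet S → Measurable
      ((wmap c ⁻¹' S).indicator fun v => ENNReal.ofReal (exp (∑ j, v j))) := fun c S hS =>
    (by fun_prop : Measurable fun v : Fin k → ℝ => ENNReal.ofReal (exp (∑ j, v j))).indicator
      (hS.preimage (by unfold wmap; fun_prop))
  refine Vale.Agent.P074.pl_pi k _ _ _ (hmeas a A hA) (hmeas b B hB)
    (hmeas _ _ (hC.inter measurableSet_pos)) fun x y => ?_
  by_cases hx : x ∈ wmap a ⁻¹' A
  swap; · simp [indicator_of_notMem hx]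
  by_cases hy : y ∈ wmap b ⁻¹' B
  swap; · simp [indicator_of_notMem hy]
  have hz : (1 / 2 : ℝ) • (x + y) ∈ wmap (fun _ : Fin k => (1 : ℝ)) ⁻¹' (C ∩ pos k) := by
    refine ⟨hmid _ hx _ hy _ (fun j => ?_) fun j => ?_, fun j => ?_⟩
    · simp [wmap, exp_pos]
    · have h := convexOn_exp.2 (mem_univ (x j / a j)) (mem_univ (y j / b j))
        (show (0 : ℝ) ≤ a j / 2 by linarith [ha j]) (show (0 : ℝ) ≤ b j / 2 by linarith [hb j])
        (by linarith [hab j])
      simp only [smul_eq_mul] at h
      simp only [wmap, Pi.smul_apply, Pi.add_apply, smul_eq_mul, div_one, one_mul]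
      have e : a j / 2 * (x j / a j) + b j / 2 * (y j / b j) = 1 / 2 * (x j + y j) := by
        field_simp [(ha j).ne', (hb j).ne']
      rw [e] at h
      linarith
    · simp [wmap, exp_pos]
  rw [indicator_of_mem hx, indicator_of_mem hy, indicator_of_mem hz,
    ← ENNReal.ofReal_mul (exp_pos _).le, ← ENNReal.ofReal_pow (exp_pos _).le, ← exp_add,
    ← exp_nat_mul]
  refine le_of_eq ?_
  congr 2
  simp [Finset.mul_sum, ← Finset.sum_add_distrib]

/-- Jensen: the weighted integral dominates volume times the exponential of the mean log weight. -/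
theorem ofReal_le_setLIntegral_wt {a : Fin k → ℝ} (ha : ∀ j, 0 < a j) {A : Set (Fin k → ℝ)}
    (hA : MeasurableSet A) (hAp : A ⊆ pos k) (hfin : volume A ≠ ∞)
    (hV : 0 < volume.real A) (hint : ∀ j, IntegrableOn (fun x => log (x j)) A) :
    ENNReal.ofReal (volume.real A * exp (∑ j, (a j - 1) *
        ((∫ x in A, log (x j)) / volume.real A - log (a j))))
      ≤ ∫⁻ x in A, ENNReal.ofReal (wt a x) := by
  have : IsFiniteMeasure (volume.restrict A) := isFiniteMeasure_restrict.2 hfin
  set m := ∑ j, (a j - 1) * ((∫ x in A, log (x j)) / volume.real A - log (a j)) with hm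
  set Y : (Fin k → ℝ) → ℝ := fun x => ∑ j, (a j - 1) * (log (x j) - log (a j)) with hY
  have hYi : Integrable Y (volume.restrict A) :=
    integrable_finsetSum _ fun j _ => ((hint j).sub (integrable_const _)).const_mul _
  have hgi : Integrable (fun x => exp m * (1 + (Y x - m))) (volume.restrict A) :=
    ((integrable_const _).add (hYi.sub (integrable_const _))).const_mul _
  have hpt : ∀ x ∈ A, exp m * (1 + (Y x - m)) ≤ wt a x := by
    intro x hx
    have e : wt a x = exp (Y x) := by
      rw [wt, hY, exp_sum]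
      refine Finset.prod_congr rfl fun j _ => ?_
      rw [rpow_def_of_pos (div_pos (hAp hx j) (ha j)), log_div (hAp hx j).ne' (ha j).ne', mul_comm]
    rw [e, show exp (Y x) = exp m * exp (Y x - m) by rw [← exp_add]; ring_nf]
    exact mul_le_mul_of_nonneg_left (by linarith [add_one_le_exp (Y x - m)]) (exp_pos _).le
  have hval : ∫ x in A, exp m * (1 + (Y x - m)) = volume.real A * exp m := by
    have hs : Integrable (fun x => Y x - m) (volume.restrict A) := hYi.sub (integrable_const _)
    rw [integral_const_mul, integral_add (integrable_const _) hs,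
      integral_sub hYi (integrable_const _)]
    have : ∫ x in A, Y x = m * volume.real A := by
      simp only [hY]
      have hi : ∀ j, Integrable (fun x => (a j - 1) * (log (x j) - log (a j)))
          (volume.restrict A) := fun j => by
        simpa only [Pi.sub_apply] using ((hint j).sub (integrable_const (log (a j)))).const_mul (a j - 1)
      rw [integral_finsetSum _ fun j _ => hi j, hm,
        Finset.sum_mul]
      refine Finset.sum_congr rfl fun j _ => ?_
      rw [integral_const_mul, integral_sub (hint j) (integrable_const _)]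
      simp
      field_simp [hV.ne']
    rw [this]
    simp
    ring
  rw [← hval]
  calc ENNReal.ofReal (∫ x in A, exp m * (1 + (Y x - m)))
      ≤ ENNReal.ofReal (∫ x in A, max (exp m * (1 + (Y x - m))) 0) :=
        ENNReal.ofReal_le_ofReal (integral_mono hgi (hgi.sup (integrable_const 0))
          fun x => le_max_left _ _)
    _ = ∫⁻ x in A, ENNReal.ofReal (max (exp m * (1 + (Y x - m))) 0) :=
        ofReal_integral_eq_lintegral_ofReal (hgi.sup (integrable_const 0))
          (Filter.Eventually.of_forall fun x => le_max_right _ _)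
    _ ≤ ∫⁻ x in A, ENNReal.ofReal (wt a x) := by
        refine setLIntegral_mono' hA fun x hx => ENNReal.ofReal_le_ofReal (max_le (hpt x hx) ?_)
        exact Finset.prod_nonneg fun j _ => rpow_nonneg (div_pos (hAp hx j) (ha j)).le _

theorem ae_inter_pos {A : Set (Fin k → ℝ)} (hA0 : ∀ x ∈ A, 0 ≤ x) :
    (A ∩ pos k : Set (Fin k → ℝ)) =ᵐ[volume] A := by
  have h : ∀ j : Fin k, volume {x : Fin k → ℝ | x j = 0} = 0 := fun j => by
    simpa [volume_pi, Function.eval] using
      Measure.pi_hyperplane (fun _ : Fin k => (volume : Measure ℝ)) j 0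
  have hn : ∀ᵐ x : Fin k → ℝ, ∀ j, x j ≠ 0 :=
    ae_all_iff.2 fun j => by rw [ae_iff]; simpa using h j
  filter_upwards [hn] with x hx
  exact propext ⟨fun h' => h'.1, fun h' => ⟨h', fun j => lt_of_le_of_ne (hA0 x h' j) (hx j).symm⟩⟩

/-- Along the coordinate `i` the fibres are intervals, so Jensen is improved by
`exp ((a i - 1) - log (a i))`. -/
theorem ofReal_le_setLIntegral_wt_fibre {l : ℕ} {a : Fin (l + 1) → ℝ} (ha : ∀ j, 0 < a j)
    {A : Set (Fin (l + 1) → ℝ)} (hA : MeasurableSet A) (hAp : A ⊆ pos (l + 1))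
    (hfin : volume A ≠ ∞) (hV : 0 < volume.real A) (hint : ∀ j, IntegrableOn (fun x => log (x j)) A)
    (i : Fin (l + 1)) {R : ℝ} (hR : ∀ x ∈ A, x i ≤ R)
    (hdown : ∀ x ∈ A, ∀ r, 0 < r → r ≤ x i → Function.update x i r ∈ A) :
    ENNReal.ofReal (volume.real A * exp ((∑ j, (a j - 1) *
        ((∫ x in A, log (x j)) / volume.real A - log (a j))) + ((a i - 1) - log (a i))))
      ≤ ∫⁻ x in A, ENNReal.ofReal (wt a x) := by
  have : IsFiniteMeasure (volume.restrict A) := isFiniteMeasure_restrict.2 hfin
  set c := (a i - 1) - log (a i) with hc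
  set lam := (∑ j, (a j - 1) * ((∫ x in A, log (x j)) / volume.real A - log (a j))) + c with hlam
  set f : (Fin (l + 1) → ℝ) → ℝ := fun x =>
    exp lam * (1 + ((∑ j, (a j - 1) * (log (x j) - log (a j))) + c - lam)) with hf
  have hi : ∀ j, Integrable (fun x => (a j - 1) * (log (x j) - log (a j))) (volume.restrict A) :=
    fun j => by
      simpa only [Pi.sub_apply] using ((hint j).sub (integrable_const (log (a j)))).const_mul (a j - 1)
  have hsum : Integrable (fun x => ∑ j, (a j - 1) * (log (x j) - log (a j))) (volume.restrict A) :=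
    integrable_finsetSum _ fun j _ => hi j
  have hfi : Integrable f (volume.restrict A) :=
    ((integrable_const _).add ((hsum.add (integrable_const c)).sub (integrable_const lam))).const_mul _
  have hval : ∫ x in A, f x = volume.real A * exp lam := by
    have e : ∫ x in A, ∑ j, (a j - 1) * (log (x j) - log (a j)) = (lam - c) * volume.real A := by
      rw [integral_finsetSum _ fun j _ => hi j, hlam, add_sub_cancel_right, Finset.sum_mul]
      refine Finset.sum_congr rfl fun j _ => ?_
      rw [integral_const_mul, integral_sub (hint j) (integrable_const _)]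
      simp
      field_simp [hV.ne']
    have h1 : Integrable (fun x => (∑ j, (a j - 1) * (log (x j) - log (a j))) + c)
        (volume.restrict A) := hsum.add (integrable_const c)
    have h2 : Integrable (fun x => (∑ j, (a j - 1) * (log (x j) - log (a j))) + c - lam)
        (volume.restrict A) := h1.sub (integrable_const lam)
    rw [hf, integral_const_mul, integral_add (integrable_const _) h2,
      integral_sub h1 (integrable_const _), integral_add hsum (integrable_const _), e]
    simp
    ring
  rw [← hval]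
  set e : (Fin (l + 1) → ℝ) ≃ᵐ ℝ × (Fin l → ℝ) :=
    MeasurableEquiv.piFinSuccAbove (fun _ => ℝ) i with he
  have hp : MeasurePreserving e.symm (volume : Measure (ℝ × (Fin l → ℝ))) volume :=
    (volume_preserving_piFinSuccAbove (fun _ : Fin (l + 1) => ℝ) i).symm
  have hc' : ∀ p : ℝ × (Fin l → ℝ), e.symm p = Fin.insertNth i p.1 p.2 := fun p => by
    simp [he, MeasurableEquiv.piFinSuccAbove, Fin.insertNthEquiv]
  set F : (Fin l → ℝ) → Set ℝ := fun y => {t | Fin.insertNth i t y ∈ A} with hF
  have hFm : ∀ y, MeasurableSet (F y) := fun y =>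
    hA.preimage (Continuous.finInsertNth i continuous_id continuous_const).measurable
  have hI : Integrable (fun p => A.indicator f (e.symm p))
      ((volume : Measure ℝ).prod (volume : Measure (Fin l → ℝ))) :=
    hp.integrable_comp_of_integrable ((integrable_indicator_iff hA).2 hfi)
  have hwm : Measurable fun x => ENNReal.ofReal (wt a x) := by unfold wt; fun_prop
  rw [← integral_indicator hA, ← lintegral_indicator hA, ← hp.integral_comp e.symm.measurableEmbedding,
    ← hp.lintegral_comp (hwm.indicator hA), Measure.volume_eq_prod, integral_prod_symm _ hI,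
    lintegral_prod_symm' (fun p => A.indicator (fun x => ENNReal.ofReal (wt a x)) (e.symm p))
      ((hwm.indicator hA).comp e.symm.measurable)]
  have hJ : Integrable fun y => ∫ t, A.indicator f (e.symm (t, y)) := hI.integral_prod_right
  calc ENNReal.ofReal (∫ y, ∫ t, A.indicator f (e.symm (t, y)))
      ≤ ENNReal.ofReal (∫ y, max (∫ t, A.indicator f (e.symm (t, y))) 0) :=
        ENNReal.ofReal_le_ofReal (integral_mono hJ hJ.pos_part fun y => le_max_left _ _)
    _ = ∫⁻ y, ENNReal.ofReal (max (∫ t, A.indicator f (e.symm (t, y))) 0) :=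
        ofReal_integral_eq_lintegral_ofReal hJ.pos_part
          (Filter.Eventually.of_forall fun y => le_max_right _ _)
    _ = ∫⁻ y, ENNReal.ofReal (∫ t, A.indicator f (e.symm (t, y))) := by
        refine lintegral_congr fun y => ?_
        rcases le_total (∫ t, A.indicator f (e.symm (t, y))) 0 with h | h
        · rw [max_eq_right h, ENNReal.ofReal_zero, ENNReal.ofReal_of_nonpos h]
        · rw [max_eq_left h]
    _ ≤ _ := lintegral_mono fun y => ?_
  have e1 : ∫ t, A.indicator f (e.symm (t, y)) = ∫ t in F y, f (Fin.insertNth i t y) := by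
    rw [← integral_indicator (hFm y)]
    refine integral_congr_ae (Filter.Eventually.of_forall fun t => ?_)
    show A.indicator f (e.symm (t, y)) = _
    rw [hc']
    simp only [indicator, hF, mem_ofPred_eq]
    congr
  have e2 : ∫⁻ t, A.indicator (fun x => ENNReal.ofReal (wt a x)) (e.symm (t, y))
      = ∫⁻ t in F y, ENNReal.ofReal (wt a (Fin.insertNth i t y)) := by
    rw [← lintegral_indicator (hFm y)]
    refine lintegral_congr fun t => ?_
    rw [hc']
    simp only [indicator, hF, mem_ofPred_eq]
    congr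
  show ENNReal.ofReal _ ≤ ∫⁻ t, A.indicator (fun x => ENNReal.ofReal (wt a x)) (e.symm (t, y))
  rw [e1, e2]
  rcases eq_empty_or_nonempty (F y) with hem | hne
  · simp [hem]
  have hbdd : BddAbove (F y) := ⟨R, fun t ht => by simpa using hR _ ht⟩
  set L := sSup (F y) with hL
  have hpos' : ∀ t ∈ F y, 0 < t := fun t ht => by simpa using hAp ht i
  have hL0 : 0 < L := by
    obtain ⟨t, ht⟩ := hne
    exact (hpos' t ht).trans_le (le_csSup hbdd ht)
  have hin : Ioo 0 L ⊆ F y := fun r hr => by
    obtain ⟨t, ht, hrt⟩ := exists_lt_of_lt_csSup hne hr.2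
    have := hdown _ ht r hr.1 (by simpa using hrt.le)
    simpa [hF, Fin.update_insertNth] using this
  have hyp' : ∀ j, 0 < y j := fun j => by
    obtain ⟨t, ht⟩ := hne
    simpa using hAp ht (i.succAbove j)
  have hae : F y =ᵐ[volume] Ioc 0 L := by
    refine Filter.EventuallyLE.antisymm (LE.le.eventuallyLE fun t ht =>
      ⟨hpos' t ht, le_csSup hbdd ht⟩) ?_
    exact (Ioo_ae_eq_Ioc.symm.le).trans hin.eventuallyLE
  set o := ∑ j, (a (i.succAbove j) - 1) * (log (y j) - log (a (i.succAbove j))) with ho
  set u := a i - 1 with hu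
  have hu1 : -1 < u := by linarith [ha i]
  have hfv : ∀ t, f (Fin.insertNth i t y)
      = exp lam * (1 + (u * (log t - log (a i)) + o + c - lam)) := fun t => by
    rw [hf]
    simp only
    rw [Fin.sum_univ_succAbove _ i]
    simp [ho, hu]
  have hwv : ∀ t, 0 < t →
      wt a (Fin.insertNth i t y) = exp (o - u * log (a i)) * t ^ u := fun t ht => by
    rw [wt, Fin.prod_univ_succAbove _ i]
    simp only [Fin.insertNth_apply_same, Fin.insertNth_apply_succAbove]
    rw [div_rpow ht.le (ha i).le, rpow_def_of_pos (ha i), exp_sub, mul_comm u, ← hu, ho, exp_sum]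
    have : ∀ j, (y j / a (i.succAbove j)) ^ (a (i.succAbove j) - 1)
        = exp ((a (i.succAbove j) - 1) * (log (y j) - log (a (i.succAbove j)))) := fun j => by
      rw [rpow_def_of_pos (div_pos (hyp' j) (ha _)), log_div (hyp' j).ne' (ha _).ne', mul_comm]
    rw [Finset.prod_congr rfl fun j _ => this j]
    field_simp
  rw [setIntegral_congr_set hae, setLIntegral_congr hae]
  simp only [hfv]
  have hlogi : IntervalIntegrable log volume 0 L := intervalIntegral.intervalIntegrable_log'
  have hv1 : ∫ t in Ioc 0 L, exp lam * (1 + (u * (log t - log (a i)) + o + c - lam))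
      = exp lam * (L * (1 + (u * (log L - 1 - log (a i)) + o + c - lam))) := by
    rw [← intervalIntegral.integral_of_le hL0.le]
    have : (fun t => exp lam * (1 + (u * (log t - log (a i)) + o + c - lam)))
        = fun t => exp lam * u * log t + exp lam * (1 - u * log (a i) + o + c - lam) := by
      funext t; ring
    rw [this, intervalIntegral.integral_add (hlogi.const_mul _) intervalIntegrable_const,
      intervalIntegral.integral_const_mul, integral_log]
    simp
    ring
  rw [hv1, setLIntegral_congr_fun measurableSet_Ioc (fun t ht => congrArg ENNReal.ofReal (hwv t ht.1)),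
    ← ofReal_integral_eq_lintegral_ofReal
      (((intervalIntegral.intervalIntegrable_rpow' hu1 (a := 0) (b := L)).1).const_mul _)
      ((ae_restrict_iff' measurableSet_Ioc).2 (Filter.Eventually.of_forall fun t ht =>
        mul_nonneg (exp_pos _).le (rpow_nonneg ht.1.le _)))]
  refine ENNReal.ofReal_le_ofReal ?_
  rw [← intervalIntegral.integral_of_le hL0.le, intervalIntegral.integral_const_mul,
    integral_rpow (Or.inl hu1), zero_rpow (by linarith), sub_zero, rpow_add hL0, rpow_one]
  have hai : u + 1 = a i := by rw [hu]; ring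
  rw [hai, rpow_def_of_pos hL0]
  set E := u * (log L - 1 - log (a i)) + o + c with hE
  have key : exp (o - u * log (a i)) * (exp (log L * u) * L / a i) = L * exp E := by
    have : exp E = exp (o - u * log (a i)) * exp (log L * u) / a i := by
      rw [eq_div_iff (ha i).ne', ← exp_add]
      nth_rewrite 1 [← exp_log (ha i)]
      rw [← exp_add, hE, hc]
      ring_nf
    rw [this]; ring
  rw [key]
  have := add_one_le_exp (E - lam)
  have e3 : exp E = exp lam * exp (E - lam) := by rw [← exp_add]; ring_nf
  rw [e3]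
  nlinarith [mul_le_mul_of_nonneg_left this (mul_pos (exp_pos lam) hL0).le]

/-- The gain inequality: midpoint volume against the two volumes and their logarithmic moments. -/
theorem gain {A B C : Set (Fin k → ℝ)} (hA : MeasurableSet A) (hB : MeasurableSet B)
    (hC : MeasurableSet C) (hA0 : ∀ x ∈ A, 0 ≤ x) (hB0 : ∀ x ∈ B, 0 ≤ x)
    (hAf : volume A ≠ ∞) (hBf : volume B ≠ ∞) (hCf : volume C ≠ ∞)
    (hVA : 0 < volume.real A) (hVB : 0 < volume.real B)
    (hAi : ∀ j, IntegrableOn (fun x => log (x j)) A)
    (hBi : ∀ j, IntegrableOn (fun x => log (x j)) B)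
    (hmid : ∀ x ∈ A, ∀ y ∈ B, ∀ z, (∀ j, 0 < z j) → (∀ j, z j ≤ (x j + y j) / 2) → z ∈ C)
    {u : Fin k → ℝ} (hu : ∀ j, |u j| < 1) :
    log (volume.real A) + log (volume.real B)
        + ∑ j, (u j * ((∫ x in A, log (x j)) / volume.real A - (∫ x in B, log (x j)) / volume.real B)
          - u j * (log (1 + u j) - log (1 - u j)))
      ≤ 2 * log (volume.real C) := by
  have ha : ∀ j, 0 < 1 + u j := fun j => by linarith [neg_abs_le (u j), hu j]
  have hb : ∀ j, 0 < 1 - u j := fun j => by linarith [le_abs_self (u j), hu j]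
  have eA := ae_inter_pos hA0
  have eB := ae_inter_pos hB0
  have vA : volume.real (A ∩ pos k) = volume.real A := measureReal_congr eA
  have vB : volume.real (B ∩ pos k) = volume.real B := measureReal_congr eB
  have h1 := ofReal_le_setLIntegral_wt ha (hA.inter measurableSet_pos) inter_subset_right
    (by rw [measure_congr eA]; exact hAf) (by rw [vA]; exact hVA)
    fun j => (hAi j).mono_set inter_subset_left
  have h2 := ofReal_le_setLIntegral_wt hb (hB.inter measurableSet_pos) inter_subset_right
    (by rw [measure_congr eB]; exact hBf) (by rw [vB]; exact hVB)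
    fun j => (hBi j).mono_set inter_subset_left
  have h3 := (mul_le_mul' h1 h2).trans (wt_mul_le (hA.inter measurableSet_pos)
    (hB.inter measurableSet_pos) hC inter_subset_right inter_subset_right
    (fun x hx y hy => hmid x hx.1 y hy.1) ha hb fun j => by ring)
  simp only [vA, vB, setIntegral_congr_set eA, setIntegral_congr_set eB] at h3
  rw [← ENNReal.ofReal_mul (by positivity),
    ← ENNReal.ofReal_toReal (ENNReal.pow_ne_top hCf (n := 2)),
    ENNReal.ofReal_le_ofReal_iff ENNReal.toReal_nonneg, ENNReal.toReal_pow,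
    ← measureReal_def] at h3
  have hpos : 0 < volume.real C := by
    rcases (measureReal_nonneg (μ := volume) (s := C)).lt_or_eq with h | h
    · exact h
    · exfalso
      rw [← h] at h3
      have : (0 : ℝ) < volume.real A * exp (∑ j, (1 + u j - 1) *
          ((∫ x in A, log (x j)) / volume.real A - log (1 + u j))) * (volume.real B *
          exp (∑ j, (1 - u j - 1) *
          ((∫ x in B, log (x j)) / volume.real B - log (1 - u j)))) := by positivity
      linarith
  have h4 := log_le_log (by positivity) h3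
  rw [log_mul (by positivity) (by positivity), log_mul hVA.ne' (exp_pos _).ne',
    log_mul hVB.ne' (exp_pos _).ne', log_exp, log_exp, log_pow] at h4
  push_cast at h4
  refine le_trans (le_of_eq ?_) h4
  rw [add_add_add_comm (log (volume.real A))]
  congr 1
  rw [← Finset.sum_add_distrib]
  exact Finset.sum_congr rfl fun j _ => by ring

/-- The gain inequality with the fibre term in the coordinate `i`. -/
theorem gain_fibre {l : ℕ} {A B C : Set (Fin (l + 1) → ℝ)} (hA : MeasurableSet A)
    (hB : MeasurableSet B) (hC : MeasurableSet C) (hA0 : ∀ x ∈ A, 0 ≤ x) (hB0 : ∀ x ∈ B, 0 ≤ x)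
    (hAf : volume A ≠ ∞) (hBf : volume B ≠ ∞) (hCf : volume C ≠ ∞)
    (hVA : 0 < volume.real A) (hVB : 0 < volume.real B)
    (hAi : ∀ j, IntegrableOn (fun x => log (x j)) A)
    (hBi : ∀ j, IntegrableOn (fun x => log (x j)) B)
    (i : Fin (l + 1)) {R : ℝ} (hAR : ∀ x ∈ A, x i ≤ R) (hBR : ∀ x ∈ B, x i ≤ R)
    (hAd : ∀ x ∈ A, ∀ y, 0 ≤ y → y ≤ x → y ∈ A) (hBd : ∀ x ∈ B, ∀ y, 0 ≤ y → y ≤ x → y ∈ B)
    (hmid : ∀ x ∈ A, ∀ y ∈ B, ∀ z, (∀ j, 0 < z j) → (∀ j, z j ≤ (x j + y j) / 2) → z ∈ C)
    {u : Fin (l + 1) → ℝ} (hu : ∀ j, |u j| < 1) :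
    log (volume.real A) + log (volume.real B) - log (1 - u i ^ 2)
        + ∑ j, (u j * ((∫ x in A, log (x j)) / volume.real A - (∫ x in B, log (x j)) / volume.real B)
          - u j * (log (1 + u j) - log (1 - u j)))
      ≤ 2 * log (volume.real C) := by
  have ha : ∀ j, 0 < 1 + u j := fun j => by linarith [neg_abs_le (u j), hu j]
  have hb : ∀ j, 0 < 1 - u j := fun j => by linarith [le_abs_self (u j), hu j]
  have eA := ae_inter_pos hA0
  have eB := ae_inter_pos hB0
  have vA : volume.real (A ∩ pos (l + 1)) = volume.real A := measureReal_congr eA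
  have vB : volume.real (B ∩ pos (l + 1)) = volume.real B := measureReal_congr eB
  have hd : ∀ (D : Set (Fin (l + 1) → ℝ)), (∀ x ∈ D, ∀ y, 0 ≤ y → y ≤ x → y ∈ D) →
      ∀ x ∈ D ∩ pos (l + 1), ∀ r, 0 < r → r ≤ x i →
        Function.update x i r ∈ D ∩ pos (l + 1) := fun D hD x hx r hr hrx => by
    have hp : ∀ j, 0 < Function.update x i r j := fun j => by
      rcases eq_or_ne j i with rfl | hj
      · simpa using hr
      · simpa [hj] using hx.2 j
    exact ⟨hD x hx.1 _ (fun j => (hp j).le) (update_le_self_iff.2 hrx), hp⟩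
  have h1 := ofReal_le_setLIntegral_wt_fibre ha (hA.inter measurableSet_pos) inter_subset_right
    (by rw [measure_congr eA]; exact hAf) (by rw [vA]; exact hVA)
    (fun j => (hAi j).mono_set inter_subset_left) i (fun x hx => hAR x hx.1) (hd A hAd)
  have h2 := ofReal_le_setLIntegral_wt_fibre hb (hB.inter measurableSet_pos) inter_subset_right
    (by rw [measure_congr eB]; exact hBf) (by rw [vB]; exact hVB)
    (fun j => (hBi j).mono_set inter_subset_left) i (fun x hx => hBR x hx.1) (hd B hBd)
  have h3 := (mul_le_mul' h1 h2).trans (wt_mul_le (hA.inter measurableSet_pos)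
    (hB.inter measurableSet_pos) hC inter_subset_right inter_subset_right
    (fun x hx y hy => hmid x hx.1 y hy.1) ha hb fun j => by ring)
  simp only [vA, vB, setIntegral_congr_set eA, setIntegral_congr_set eB] at h3
  rw [← ENNReal.ofReal_mul (by positivity),
    ← ENNReal.ofReal_toReal (ENNReal.pow_ne_top hCf (n := 2)),
    ENNReal.ofReal_le_ofReal_iff ENNReal.toReal_nonneg, ENNReal.toReal_pow,
    ← measureReal_def] at h3
  have h4 := log_le_log (by positivity) h3
  rw [log_mul (by positivity) (by positivity), log_mul hVA.ne' (exp_pos _).ne',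
    log_mul hVB.ne' (exp_pos _).ne', log_exp, log_exp, log_pow] at h4
  push_cast at h4
  refine le_trans (le_of_eq ?_) h4
  rw [show (1 : ℝ) - u i ^ 2 = (1 + u i) * (1 - u i) by ring, log_mul (ha i).ne' (hb i).ne']
  have : ∀ j, u j * ((∫ x in A, log (x j)) / volume.real A - (∫ x in B, log (x j)) / volume.real B)
      - u j * (log (1 + u j) - log (1 - u j))
      = (1 + u j - 1) * ((∫ x in A, log (x j)) / volume.real A - log (1 + u j))
        + (1 - u j - 1) * ((∫ x in B, log (x j)) / volume.real B - log (1 - u j)) := fun j => by ring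
  rw [Finset.sum_congr rfl fun j _ => this j, Finset.sum_add_distrib]
  ring

end Vale.P254.E
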