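import Mathlib
import Vale.Agent.P254.E.Defs
import Vale.Agent.P254.E.Gain

/-!
The slices of an orthant body along one coordinate: they are orthant bodies, their normalised
volume is a decreasing log-concave density, and the means of the logarithms form a `GainPath`.
-/

namespace Vale.P254.E

open MeasureTheory Set Filter Topology

variable {n : ℕ}

/-- The largest value of coordinate `i` on `K`. -/
noncomputable def top (K : Set (Fin n → ℝ)) (i : Fin n) : ℝ := sSup ((fun x => x i) '' K)

/-- The normalised slice volume. -/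
noncomputable def margin (K : Set (Fin (n + 1) → ℝ)) (i : Fin (n + 1)) (t : ℝ) : ℝ :=
  volume.real (slice K i t) / volume.real K

/-- The mean of `log y_j` on the slice at height `t`. -/
noncomputable def slMean (K : Set (Fin (n + 1) → ℝ)) (i : Fin (n + 1)) (j : Fin n) (t : ℝ) : ℝ :=
  logMean (slice K i t) j

theorem integrableOn_coord {K : Set (Fin n → ℝ)} (h : U.OrthBody K) (j : Fin n) {f : ℝ → ℝ}
    (hf : ∀ R, IntegrableOn f (Icc 0 R)) : IntegrableOn (fun x => f (x j)) K := by
  obtain ⟨δ, R, -, -, -, hout⟩ := h.exists_boxes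
  refine IntegrableOn.mono_set ?_ hout
  rw [IntegrableOn, ← pi_univ_Icc, volume_pi, Measure.restrict_pi_pi]
  have e : (fun x : Fin n → ℝ => f (x j)) = fun x => ∏ i, (if i = j then f (x i) else 1) := by
    funext x; simp
  rw [e]
  refine Integrable.fintype_prod (f := fun i t => if i = j then f t else (1 : ℝ)) fun i => ?_
  rcases eq_or_ne i j with rfl | hij
  · simp only [if_true]
    exact hf R
  · simp [hij]

theorem integrableOn_log_Icc (R : ℝ) : IntegrableOn Real.log (Icc 0 R) := by
  rcases le_or_gt R 0 with hR | hR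
  · exact integrableOn_zero.congr_fun_ae (by
      rw [EventuallyEq, ae_restrict_iff' measurableSet_Icc]
      filter_upwards [(Measure.ae_ne volume (0 : ℝ))] with x hx hx'
      exact absurd (le_antisymm (hx'.2.trans hR) hx'.1) hx)
  · exact (integrableOn_Icc_iff_integrableOn_Ioc).2
      (intervalIntegral.intervalIntegrable_log'.1 : IntegrableOn Real.log (Ioc 0 R))

theorem integrableOn_log_sq_Icc (R : ℝ) : IntegrableOn (fun x => Real.log x ^ 2) (Icc 0 R) := by
  have h2 : IntegrableOn (fun x : ℝ => x ^ (-(1 / 2) : ℝ)) (Ioc 0 1) :=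
    (intervalIntegral.intervalIntegrable_rpow' (a := 0) (b := 1) (by norm_num)).1
  have hm : Measurable (fun x : ℝ => Real.log x ^ 2) := by fun_prop
  have h01 : IntegrableOn (fun x => Real.log x ^ 2) (Ioc 0 1) := by
    refine Integrable.mono' (h2.const_mul 16) hm.aestronglyMeasurable ?_
    rw [ae_restrict_iff' measurableSet_Ioc]
    refine Eventually.of_forall fun x hx => ?_
    have hy : 0 < x ^ (-(1 / 4) : ℝ) := Real.rpow_pos_of_pos hx.1 _
    have hlog : -Real.log x ≤ 4 * x ^ (-(1 / 4) : ℝ) := by
      have := Real.log_le_sub_one_of_pos hy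
      rw [Real.log_rpow hx.1] at this
      linarith
    have hneg : Real.log x ≤ 0 := Real.log_nonpos hx.1.le hx.2
    have e : x ^ (-(1 / 2) : ℝ) = x ^ (-(1 / 4) : ℝ) * x ^ (-(1 / 4) : ℝ) := by
      rw [← Real.rpow_add hx.1]; norm_num
    rw [Real.norm_eq_abs, abs_of_nonneg (sq_nonneg _), e]
    nlinarith
  have h1 : IntegrableOn (fun x => Real.log x ^ 2) (Icc 1 (max R 1)) := by
    refine ContinuousOn.integrableOn_compact isCompact_Icc ?_
    exact (Real.continuousOn_log.mono fun x hx => by
      simp only [mem_compl_iff, mem_singleton_iff]; linarith [hx.1]).pow 2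
  refine (integrableOn_Icc_iff_integrableOn_Ioc (μ := volume)
    (f := fun x => Real.log x ^ 2) (a := (0 : ℝ)) (b := R)).2
    ((h01.union h1).mono_set fun x hx => ?_)
  rcases le_or_gt x 1 with hx1 | hx1
  · exact Or.inl ⟨hx.1, hx1⟩
  · exact Or.inr ⟨hx1.le, hx.2.trans (le_max_left _ _)⟩

theorem integrableOn_log {K : Set (Fin n → ℝ)} (h : U.OrthBody K) (j : Fin n) :
    IntegrableOn (fun x => Real.log (x j)) K :=
  integrableOn_coord h j integrableOn_log_Icc

theorem integrableOn_log_sq {K : Set (Fin n → ℝ)} (h : U.OrthBody K) (j : Fin n) :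
    IntegrableOn (fun x => Real.log (x j) ^ 2) K :=
  integrableOn_coord h j (f := fun t => Real.log t ^ 2) integrableOn_log_sq_Icc

section
variable {K : Set (Fin (n + 1) → ℝ)} (h : U.OrthBody K) (i : Fin (n + 1))
include h

theorem exists_top : ∃ x ∈ K, x i = top K i := by
  obtain ⟨x₀, hx₀⟩ := h.int_ne
  have hc : IsCompact ((fun x => x i) '' K) := h.compact.image (continuous_apply i)
  exact hc.sSup_mem ⟨_, mem_image_of_mem _ (interior_subset hx₀)⟩

theorem le_top {x : Fin (n + 1) → ℝ} (hx : x ∈ K) : x i ≤ top K i :=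
  le_csSup (h.compact.image (continuous_apply i)).bddAbove (mem_image_of_mem (fun x => x i) hx)

theorem top_pos : 0 < top K i := by
  obtain ⟨δ, R, hδ, -, hin, -⟩ := h.exists_boxes
  exact hδ.trans_le (le_top h i (hin ⟨fun _ => hδ.le, le_rfl⟩))

theorem mem_Icc_of_mem_slice {t : ℝ} {y : Fin n → ℝ} (hy : y ∈ slice K i t) :
    t ∈ Icc 0 (top K i) := by
  have h1 := h.nonneg _ hy i
  have h2 := le_top h i hy
  simp at h1 h2
  exact ⟨h1, h2⟩

theorem slice_eq_empty {t : ℝ} (ht : t ∉ Icc 0 (top K i)) : slice K i t = ∅ :=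
  eq_empty_of_forall_notMem fun _ hy => ht (mem_Icc_of_mem_slice h i hy)

theorem slice_anti {s t : ℝ} (hs : 0 ≤ s) (hst : s ≤ t) : slice K i t ⊆ slice K i s := by
  intro y hy
  refine h.down _ hy _ (fun l => ?_) fun l => ?_
  · refine Fin.succAboveCases i ?_ (fun l => ?_) l
    · simpa using hs
    · simpa using h.nonneg _ hy (i.succAbove l)
  · refine Fin.succAboveCases i ?_ (fun l => ?_) l
    · simpa using hst
    · simp

theorem nonneg_slice {t : ℝ} : ∀ y ∈ slice K i t, 0 ≤ y := fun y hy l => by
  simpa using h.nonneg _ hy (i.succAbove l)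

theorem slice_mid {a b θ : ℝ} (h0 : 0 ≤ θ) (h1 : θ ≤ 1) {x y z : Fin n → ℝ}
    (hx : x ∈ slice K i a) (hy : y ∈ slice K i b) (hz : 0 ≤ z)
    (hle : z ≤ (1 - θ) • x + θ • y) : z ∈ slice K i ((1 - θ) * a + θ * b) := by
  have hc := h.convex hx hy (sub_nonneg.2 h1) h0 (by ring)
  have ha := (mem_Icc_of_mem_slice h i hx).1
  have hb := (mem_Icc_of_mem_slice h i hy).1
  refine h.down _ hc _ (fun l => ?_) fun l => ?_
  · refine Fin.succAboveCases i ?_ (fun l => ?_) l
    · simpa using add_nonneg (mul_nonneg (sub_nonneg.2 h1) ha) (mul_nonneg h0 hb)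
    · simpa using hz l
  · refine Fin.succAboveCases i ?_ (fun l => ?_) l
    · simp
    · simpa using hle l

theorem orthBody_slice {t : ℝ} (ht : t ∈ Ico 0 (top K i)) : U.OrthBody (slice K i t) := by
  have hci : Continuous fun y : Fin n → ℝ => (Fin.insertNth i t y : Fin (n + 1) → ℝ) :=
    Continuous.finInsertNth i continuous_const continuous_id
  refine ⟨?_, ?_, nonneg_slice h i, ?_, ?_⟩
  · refine (h.compact.image (f := fun x l => x (i.succAbove l)) (by fun_prop)).of_isClosed_subset
      (h.compact.isClosed.preimage hci) fun y hy => ?_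
    exact ⟨_, hy, by simp⟩
  · intro x hx y hy a b ha hb hab
    have hl : 0 ≤ a • x + b • y :=
      add_nonneg (smul_nonneg ha (nonneg_slice h i x hx)) (smul_nonneg hb (nonneg_slice h i y hy))
    have := slice_mid h i hb (by linarith) hx hy hl (by rw [show 1 - b = a by linarith])
    rwa [show (1 - b) * t + b * t = t by ring] at this
  · intro x hx y hy hyx
    refine h.down _ hx _ (fun l => ?_) fun l => ?_
    · refine Fin.succAboveCases i ?_ (fun l => ?_) l
      · simpa using ht.1
      · simpa using hy l
    · refine Fin.succAboveCases i ?_ (fun l => ?_) l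
      · simp
      · simpa using hyx l
  · obtain ⟨δ, R, hδ, -, hin, -⟩ := h.exists_boxes
    obtain ⟨x, hxK, hxi⟩ := exists_top h i
    have hT := top_pos h i
    set θ := 1 - t / top K i with hθ
    have hθ0 : 0 < θ := by rw [hθ, sub_pos, div_lt_one hT]; exact ht.2
    have hθ1 : θ ≤ 1 := by rw [hθ]; linarith [div_nonneg ht.1 hT.le]
    have hsub : Icc (0 : Fin n → ℝ) (fun _ => θ * δ) ⊆ slice K i t := by
      intro z hz
      have hxs : (fun l => x (i.succAbove l)) ∈ slice K i (top K i) := by
        show Fin.insertNth i (top K i) _ ∈ K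
        convert hxK using 1
        funext l
        refine Fin.succAboveCases i ?_ (fun l => ?_) l <;> simp [hxi]
      have hds : (fun _ => δ) ∈ slice K i 0 := by
        refine hin ⟨fun l => ?_, fun l => ?_⟩ <;>
          refine Fin.succAboveCases i ?_ (fun l => ?_) l <;> simp [hδ.le]
      have := slice_mid h i hθ0.le hθ1 hxs hds hz.1 fun l => by
        have h1 := hz.2 l
        have h2 := mul_nonneg (sub_nonneg.2 hθ1) (h.nonneg x hxK (i.succAbove l))
        simp only [Pi.add_apply, Pi.smul_apply, smul_eq_mul] at *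
        linarith
      rwa [show (1 - θ) * top K i + θ * 0 = t by rw [hθ]; field_simp; ring] at this
    refine Set.Nonempty.mono (interior_mono hsub) ?_
    rw [← pi_univ_Icc, interior_pi_set finite_univ]
    refine univ_pi_nonempty_iff.2 fun l => ?_
    rw [interior_Icc]
    exact nonempty_Ioo.2 (mul_pos hθ0 hδ)

theorem volume_slice_ne_top (t : ℝ) : volume (slice K i t) ≠ ⊤ := by
  obtain ⟨δ, R, -, -, -, hout⟩ := h.exists_boxes
  refine ne_top_of_le_ne_top (isCompact_Icc (a := (0 : Fin n → ℝ))
    (b := fun _ => R)).measure_lt_top.ne (measure_mono fun y hy => ⟨nonneg_slice h i y hy, fun l => ?_⟩)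
  simpa using (hout hy).2 (i.succAbove l)

theorem measurableSet_slice (t : ℝ) : MeasurableSet (slice K i t) :=
  h.measurableSet.preimage (Continuous.finInsertNth i continuous_const continuous_id).measurable

/-- Fubini along coordinate `i`. -/
theorem integral_slices {f : (Fin (n + 1) → ℝ) → ℝ} (hf : IntegrableOn f K) :
    IntegrableOn (fun t => ∫ y in slice K i t, f (Fin.insertNth i t y)) (Ioc 0 (top K i)) ∧
      ∫ x in K, f x = ∫ t in Ioc 0 (top K i), ∫ y in slice K i t, f (Fin.insertNth i t y) := by
  set e : (Fin (n + 1) → ℝ) ≃ᵐ ℝ × (Fin n → ℝ) :=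
    MeasurableEquiv.piFinSuccAbove (fun _ => ℝ) i with he
  have hp : MeasurePreserving e.symm (volume : Measure (ℝ × (Fin n → ℝ))) volume :=
    (volume_preserving_piFinSuccAbove (fun _ : Fin (n + 1) => ℝ) i).symm
  have hc : ∀ p : ℝ × (Fin n → ℝ), e.symm p = Fin.insertNth i p.1 p.2 := fun p => by
    simp [he, MeasurableEquiv.piFinSuccAbove, Fin.insertNthEquiv]
  have hi' : Integrable (fun p => K.indicator f (e.symm p))
      ((volume : Measure ℝ).prod (volume : Measure (Fin n → ℝ))) :=
    hp.integrable_comp_of_integrable (hf.integrable_indicator h.measurableSet)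
  have hinner : ∀ t, ∫ y, K.indicator f (e.symm (t, y))
      = ∫ y in slice K i t, f (Fin.insertNth i t y) := by
    intro t
    rw [← integral_indicator (measurableSet_slice h i t)]
    refine integral_congr_ae (Eventually.of_forall fun y => ?_)
    show K.indicator f (e.symm (t, y)) = _
    rw [hc (t, y)]
    simp only [indicator, slice, mem_ofPred_eq]
    congr
  have hI : Integrable fun t => ∫ y in slice K i t, f (Fin.insertNth i t y) := by
    simpa only [hinner] using hi'.integral_prod_left
  refine ⟨hI.integrableOn, ?_⟩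
  rw [← integral_Icc_eq_integral_Ioc,
    setIntegral_eq_integral_of_forall_compl_eq_zero (μ := (volume : Measure ℝ))
      (s := Icc 0 (top K i)) (f := fun t => ∫ y in slice K i t, f (Fin.insertNth i t y))
      (fun t ht => by simp [slice_eq_empty h i ht]),
    ← integral_indicator h.measurableSet, ← hp.integral_comp e.symm.measurableEmbedding,
    Measure.volume_eq_prod, integral_prod _ hi']
  simp only [hinner]

theorem measurable_margin : Measurable (margin K i) := by
  have hs : MeasurableSet ((fun p : ℝ × (Fin n → ℝ) =>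
      (Fin.insertNth i p.1 p.2 : Fin (n + 1) → ℝ)) ⁻¹' K) :=
    h.measurableSet.preimage
      (Continuous.finInsertNth i continuous_fst continuous_snd).measurable
  exact ((measurable_measure_prodMk_left (ν := (volume : Measure (Fin n → ℝ)))
    hs).ennreal_toReal).div_const _

theorem measurable_slMean (j : Fin n) : Measurable (slMean K i j) := by
  have hq : Continuous fun p : ℝ × (Fin n → ℝ) =>
      (Fin.insertNth i p.1 p.2 : Fin (n + 1) → ℝ) :=
    Continuous.finInsertNth i continuous_fst continuous_snd
  have hm : Measurable fun p : ℝ × (Fin n → ℝ) =>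
      K.indicator (fun x => Real.log (x (i.succAbove j))) (Fin.insertNth i p.1 p.2) :=
    (((Real.measurable_log.comp (measurable_pi_apply _)).indicator h.measurableSet).comp
      hq.measurable)
  have h1 : Measurable fun t => ∫ y in slice K i t, Real.log (y j) := by
    have := (hm.stronglyMeasurable.integral_prod_right'
      (ν := (volume : Measure (Fin n → ℝ)))).measurable
    refine (congrArg Measurable (funext fun t => ?_)).mp this
    rw [← integral_indicator (measurableSet_slice h i t)]
    refine integral_congr_ae (Eventually.of_forall fun y => ?_)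
    simp only [indicator, slice, mem_ofPred_eq, Fin.insertNth_apply_succAbove]
    congr
  have h2 : Measurable fun t => volume.real (slice K i t) := by
    have := (measurable_margin h i).mul_const (volume.real K)
    refine (congrArg Measurable (funext fun t => ?_)).mp this
    simp [margin, div_mul_cancel₀ _ h.volume_pos.ne']
  exact h1.div h2

theorem log_mid {s t : ℝ} (hs : s ∈ Ico 0 (top K i)) (ht : t ∈ Ico 0 (top K i)) {u : Fin n → ℝ}
    (hu : ∀ j, |u j| < 1) :
    ∑ j, (u j * (slMean K i j t - slMean K i j s) / 2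
        - u j / 2 * Real.log ((1 + u j) / (1 - u j)))
      ≤ Real.log (margin K i ((s + t) / 2))
        - (Real.log (margin K i s) + Real.log (margin K i t)) / 2 := by
  have hA := orthBody_slice h i ht
  have hB := orthBody_slice h i hs
  have hm : (s + t) / 2 ∈ Ico 0 (top K i) :=
    ⟨by linarith [hs.1, ht.1], by linarith [hs.2, ht.2]⟩
  have hC := orthBody_slice h i hm
  have hg := gain hA.measurableSet hB.measurableSet hC.measurableSet hA.nonneg hB.nonneg
    (volume_slice_ne_top h i t) (volume_slice_ne_top h i s) (volume_slice_ne_top h i _)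
    hA.volume_pos hB.volume_pos (integrableOn_log hA) (integrableOn_log hB)
    (fun x hx y hy z hz hle => by
      have := slice_mid h i (show (0 : ℝ) ≤ 1 / 2 by norm_num) (by norm_num) hx hy
        (fun l => (hz l).le) fun l => by
          simp only [Pi.add_apply, Pi.smul_apply, smul_eq_mul]
          linarith [hle l]
      rwa [show (1 - 1 / 2) * t + 1 / 2 * s = (s + t) / 2 by ring] at this) hu
  have hl : ∀ r ∈ Ico 0 (top K i),
      Real.log (margin K i r) = Real.log (volume.real (slice K i r)) - Real.log (volume.real K) :=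
    fun r hr => Real.log_div (orthBody_slice h i hr).volume_pos.ne' h.volume_pos.ne'
  rw [hl _ hm, hl _ hs, hl _ ht]
  have e : ∀ j, u j * (slMean K i j t - slMean K i j s) / 2
      - u j / 2 * Real.log ((1 + u j) / (1 - u j))
      = (u j * ((∫ x in slice K i t, Real.log (x j)) / volume.real (slice K i t)
          - (∫ x in slice K i s, Real.log (x j)) / volume.real (slice K i s))
        - u j * (Real.log (1 + u j) - Real.log (1 - u j))) / 2 := fun j => by
    have h1 := abs_lt.1 (hu j)
    rw [Real.log_div (by linarith) (by linarith)]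
    simp only [slMean, logMean]
    ring
  rw [Finset.sum_congr rfl fun j _ => e j, ← Finset.sum_div]
  linarith

theorem gainPath : GainPath (margin K i) (top K i) (slMean K i) :=
  fun _ hs _ ht _ hu => log_mid h i hs ht hu

theorem margin_antitoneOn : AntitoneOn (margin K i) (Ici 0) := fun _ ha _ _ hab =>
  div_le_div_of_nonneg_right (measureReal_mono (slice_anti h i ha hab)
    (volume_slice_ne_top h i _)) h.volume_pos.le

theorem margin_pos {t : ℝ} (ht : t ∈ Ico 0 (top K i)) : 0 < margin K i t :=
  div_pos (orthBody_slice h i ht).volume_pos h.volume_pos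

theorem log_margin_dyadic {x y : ℝ} (hx : x ∈ Ico 0 (top K i)) (hy : y ∈ Ico 0 (top K i)) :
    ∀ m j : ℕ, j ≤ 2 ^ m →
      (1 - (j : ℝ) / 2 ^ m) * Real.log (margin K i x) + (j : ℝ) / 2 ^ m * Real.log (margin K i y)
        ≤ Real.log (margin K i ((1 - (j : ℝ) / 2 ^ m) * x + (j : ℝ) / 2 ^ m * y)) := by
  intro m
  induction m with
  | zero =>
    intro j hj
    rw [pow_zero] at hj
    interval_cases j <;> simp
  | succ m ih =>
    intro j hj
    rw [pow_succ] at hj
    obtain ⟨l, rfl | rfl⟩ : ∃ l, j = l + l ∨ j = l + (l + 1) := ⟨j / 2, by omega⟩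
    · have e : ((l + l : ℕ) : ℝ) / 2 ^ (m + 1) = (l : ℝ) / 2 ^ m := by
        rw [pow_succ]; push_cast; field_simp; ring
      rw [e]; exact ih l (by omega)
    · have e : ((l + (l + 1) : ℕ) : ℝ) / 2 ^ (m + 1)
          = ((l : ℝ) / 2 ^ m + ((l + 1 : ℕ) : ℝ) / 2 ^ m) / 2 := by
        rw [pow_succ]; push_cast; field_simp
      have hin : ∀ r : ℕ, r ≤ 2 ^ m →
          (1 - (r : ℝ) / 2 ^ m) * x + (r : ℝ) / 2 ^ m * y ∈ Ico 0 (top K i) := fun r hr =>
        convex_Ico 0 (top K i) hx hy (sub_nonneg.2 (show (r : ℝ) / 2 ^ m ≤ 1 by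
          rw [div_le_one (by positivity)]; exact_mod_cast hr))
          (show (0 : ℝ) ≤ (r : ℝ) / 2 ^ m by positivity) (by ring)
      have hmid := log_mid h i (hin l (by omega)) (hin (l + 1) (by omega)) (u := 0) (by simp)
      simp only [Pi.zero_apply, zero_mul, zero_div, sub_zero, Finset.sum_const_zero] at hmid
      have h1 := ih l (by omega)
      have h2 := ih (l + 1) (by omega)
      rw [e]
      have e2 : ∀ p q : ℝ, (1 - (p + q) / 2) * x + (p + q) / 2 * y
          = (((1 - p) * x + p * y) + ((1 - q) * x + q * y)) / 2 := fun p q => by ring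
      rw [e2]
      linarith

theorem log_margin_concaveOn :
    ConcaveOn ℝ (Ico 0 (top K i)) fun t => Real.log (margin K i t) := by
  refine LinearOrder.concaveOn_of_lt (convex_Ico _ _) fun x hx y hy hxy a b ha hb hab => ?_
  simp only [smul_eq_mul]
  have ha' : a = 1 - b := by linarith
  subst ha'
  set r : ℕ → ℝ := fun m => (⌈b * 2 ^ m⌉₊ : ℝ) / 2 ^ m with hr
  have h1 : ∀ m, b ≤ r m := fun m => by
    rw [hr, le_div_iff₀ (by positivity)]; exact Nat.le_ceil _
  have h2 : ∀ m, ⌈b * 2 ^ m⌉₊ ≤ 2 ^ m := fun m => Nat.ceil_le.2 (by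
    push_cast
    exact mul_le_of_le_one_left (by positivity) (by linarith))
  have h3 : Tendsto r atTop (𝓝 b) := by
    have h0 : Tendsto (fun m : ℕ => b + (1 / 2 : ℝ) ^ m) atTop (𝓝 b) := by
      simpa using (tendsto_pow_atTop_nhds_zero_of_lt_one (by norm_num : (0 : ℝ) ≤ 1 / 2)
        (by norm_num)).const_add b
    refine tendsto_of_tendsto_of_tendsto_of_le_of_le tendsto_const_nhds h0 h1 fun m => ?_
    rw [hr, div_le_iff₀ (by positivity), add_mul, ← mul_pow]
    norm_num
    exact (Nat.ceil_lt_add_one (by positivity)).le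
  have hlim : Tendsto (fun m => (1 - r m) * Real.log (margin K i x)
      + r m * Real.log (margin K i y)) atTop
      (𝓝 ((1 - b) * Real.log (margin K i x) + b * Real.log (margin K i y))) :=
    ((tendsto_const_nhds.sub h3).mul_const _).add (h3.mul_const _)
  refine le_of_tendsto hlim (Eventually.of_forall fun m => ?_)
  refine (log_margin_dyadic h i hx hy m _ (h2 m)).trans ?_
  have hr1 : r m ≤ 1 := by rw [hr, div_le_one (by positivity)]; exact_mod_cast h2 m
  have hz : (1 - r m) * x + r m * y ∈ Ico 0 (top K i) :=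
    convex_Ico 0 (top K i) hx hy (sub_nonneg.2 hr1) (hb.le.trans (h1 m)) (by ring)
  have hw : (1 - b) * x + b * y ∈ Ico 0 (top K i) :=
    convex_Ico 0 (top K i) hx hy ha.le hb.le hab
  refine Real.log_le_log (margin_pos h i hz) (margin_antitoneOn h i hw.1 hz.1 ?_)
  nlinarith [h1 m]

theorem marg_margin : Marg (margin K i) (top K i) where
  top_pos := top_pos h i
  pos := fun _ ht => margin_pos h i ht
  nonneg := fun _ => div_nonneg measureReal_nonneg measureReal_nonneg
  zero := fun t ht => by simp [margin, slice_eq_empty h i ht]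
  meas := measurable_margin h i
  anti := margin_antitoneOn h i
  logConcave := log_margin_concaveOn h i
  mass := by
    have h1 := (integral_slices h i (h.integrableOn (continuous_const (y := (1 : ℝ))))).2
    simp only [setIntegral_const, smul_eq_mul, mul_one] at h1
    simp only [margin]
    rw [integral_div, ← h1, div_self h.volume_pos.ne']

end

/-- The gain along a path of slices with the fibre term of one coordinate. -/
theorem log_mid_fibre {m : ℕ} {K : Set (Fin (m + 2) → ℝ)} (h : U.OrthBody K) (i : Fin (m + 2))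
    {s t : ℝ} (hs : s ∈ Ico 0 (top K i)) (ht : t ∈ Ico 0 (top K i)) {u : Fin (m + 1) → ℝ}
    (hu : ∀ j, |u j| < 1) (l : Fin (m + 1)) :
    (∑ j, (u j * (slMean K i j t - slMean K i j s) / 2
        - u j / 2 * Real.log ((1 + u j) / (1 - u j)))) - Real.log (1 - u l ^ 2) / 2
      ≤ Real.log (margin K i ((s + t) / 2))
        - (Real.log (margin K i s) + Real.log (margin K i t)) / 2 := by
  have hA := orthBody_slice h i ht
  have hB := orthBody_slice h i hs
  have hm : (s + t) / 2 ∈ Ico 0 (top K i) :=
    ⟨by linarith [hs.1, ht.1], by linarith [hs.2, ht.2]⟩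
  have hC := orthBody_slice h i hm
  have hb : ∀ r, ∀ x ∈ slice K i r, x l ≤ top K (i.succAbove l) := fun r x hx => by
    simpa using le_top h (i.succAbove l) hx
  have hg := gain_fibre hA.measurableSet hB.measurableSet hC.measurableSet hA.nonneg hB.nonneg
    (volume_slice_ne_top h i t) (volume_slice_ne_top h i s) (volume_slice_ne_top h i _)
    hA.volume_pos hB.volume_pos (integrableOn_log hA) (integrableOn_log hB) l (hb t) (hb s)
    hA.down hB.down (fun x hx y hy z hz hle => by
      have := slice_mid h i (show (0 : ℝ) ≤ 1 / 2 by norm_num) (by norm_num) hx hy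
        (fun j => (hz j).le) fun j => by
          simp only [Pi.add_apply, Pi.smul_apply, smul_eq_mul]
          linarith [hle j]
      rwa [show (1 - 1 / 2) * t + 1 / 2 * s = (s + t) / 2 by ring] at this) hu
  have hl : ∀ r ∈ Ico 0 (top K i),
      Real.log (margin K i r) = Real.log (volume.real (slice K i r)) - Real.log (volume.real K) :=
    fun r hr => Real.log_div (orthBody_slice h i hr).volume_pos.ne' h.volume_pos.ne'
  rw [hl _ hm, hl _ hs, hl _ ht]
  have e : ∀ j, u j * (slMean K i j t - slMean K i j s) / 2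
      - u j / 2 * Real.log ((1 + u j) / (1 - u j))
      = (u j * ((∫ x in slice K i t, Real.log (x j)) / volume.real (slice K i t)
          - (∫ x in slice K i s, Real.log (x j)) / volume.real (slice K i s))
        - u j * (Real.log (1 + u j) - Real.log (1 - u j))) / 2 := fun j => by
    have h1 := abs_lt.1 (hu j)
    rw [Real.log_div (by linarith) (by linarith)]
    simp only [slMean, logMean]
    ring
  rw [Finset.sum_congr rfl fun j _ => e j, ← Finset.sum_div]
  linarith

end Vale.P254.E
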