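import Mathlib
import Vale.Agent.P254.BM
import Vale.Agent.P254.E.Defs
import Vale.Agent.P254.E.Slices

/-! Brunn's principle: the marginals of an orthant body of dimension `n + 1` lie in `InClass`. -/

namespace Vale.P254.E

open MeasureTheory Set Filter

variable {n : ℕ} {K : Set (Fin (n + 1) → ℝ)}

theorem inClass_margin (h : U.OrthBody K) (i : Fin (n + 1)) :
    InClass (n + 1) (margin K i) (top K i) := by
  intro hn
  have hn0 : n ≠ 0 := by omega
  have hp : (1 : ℝ) / (((n + 1 : ℕ) : ℝ) - 1) = (n : ℝ)⁻¹ := by push_cast; simp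
  simp only [hp]
  refine ⟨convex_Ico _ _, fun s hs t ht a b ha hb hab => ?_⟩
  have hm : a • s + b • t ∈ Ico 0 (top K i) := convex_Ico _ _ hs ht ha hb hab
  have hS := orthBody_slice h i hs
  have hT := orthBody_slice h i ht
  have hM := orthBody_slice h i hm
  have hz : ∀ {A : Set (Fin n → ℝ)}, U.OrthBody A → (0 : Fin n → ℝ) ∈ A := by
    intro A hA
    obtain ⟨x, hx⟩ := hA.int_ne
    exact hA.down x (interior_subset hx) 0 le_rfl (hA.nonneg x (interior_subset hx))
  have hVs := hS.volume_pos
  have hVt := hT.volume_pos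
  have hbm := brunn_minkowski hS.compact hT.compact hS.convex hT.convex (hz hS) (hz hT)
    hM.compact (Real.rpow_pos_of_pos hVs (n : ℝ)⁻¹) (Real.rpow_pos_of_pos hVt (n : ℝ)⁻¹) ha hb
    (by linarith) (Real.rpow_inv_natCast_pow hVs.le hn0).le
    (Real.rpow_inv_natCast_pow hVt.le hn0).le fun x hx y hy => by
      have := slice_mid h i hb (by linarith) hx hy
        (add_nonneg (smul_nonneg ha (hS.nonneg x hx)) (smul_nonneg hb (hT.nonneg y hy)))
        (le_of_eq (by rw [show 1 - b = a by linarith]))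
      rwa [show (1 - b) * s + b * t = a • s + b • t by
        rw [show 1 - b = a by linarith]; simp] at this
  have hc : 0 ≤ a * volume.real (slice K i s) ^ (n : ℝ)⁻¹
      + b * volume.real (slice K i t) ^ (n : ℝ)⁻¹ := by positivity
  have h1 := Real.rpow_le_rpow (pow_nonneg hc n) hbm (show (0 : ℝ) ≤ (n : ℝ)⁻¹ by positivity)
  rw [Real.pow_rpow_inv_natCast hc hn0] at h1
  simp only [smul_eq_mul, margin] at h1 ⊢
  rw [Real.div_rpow hVs.le h.volume_pos.le, Real.div_rpow hVt.le h.volume_pos.le,
    Real.div_rpow measureReal_nonneg h.volume_pos.le, ← mul_div_assoc, ← mul_div_assoc,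
    ← add_div]
  exact div_le_div_of_nonneg_right h1 (Real.rpow_nonneg h.volume_pos.le _)

end Vale.P254.E
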