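import Mathlib
import Vale.Agent.P254.E.Defs
import Vale.Agent.P254.E.Slices
import Vale.Agent.P254.E.Brunn

/-!
Induction on the dimension: slice the body along the coordinate with the largest variance of the
logarithm, apply the induction hypothesis to the slices and pay the variance of the slice means
(law of total variance) by the inequality for one variable.
-/

namespace Vale.P254.E

open MeasureTheory Set Filter Topology

variable {n : ℕ}

theorem ae_mem_Ico (T : ℝ) : ∀ᵐ t ∂volume.restrict (Ioc (0 : ℝ) T), t ∈ Ico 0 T := by
  rw [ae_restrict_iff' measurableSet_Ioc]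
  filter_upwards [Measure.ae_ne volume T] with t ht ht'
  exact ⟨ht'.1.le, lt_of_le_of_ne ht'.2 ht⟩

theorem integrableOn_log_sub_sq {K : Set (Fin n → ℝ)} (h : U.OrthBody K) (j : Fin n) (c : ℝ) :
    IntegrableOn (fun x => (Real.log (x j) - c) ^ 2) K := by
  have h1 := ((integrableOn_log_sq h j).sub ((integrableOn_log h j).const_mul (2 * c))).add
    (h.integrableOn (continuous_const (y := c ^ 2)))
  refine h1.congr (Eventually.of_forall fun x => ?_)
  simp only [Pi.add_apply, Pi.sub_apply]
  ring

/-- The variance as second moment minus squared mean. -/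
theorem logVar_add_one {K : Set (Fin n → ℝ)} (h : U.OrthBody K) (j : Fin n) :
    logVar K j + 1 = (∫ x in K, Real.log (x j) ^ 2) / volume.real K - logMean K j ^ 2 := by
  have hV := h.volume_pos
  have hm : ∫ x in K, Real.log (x j) = logMean K j * volume.real K := by
    rw [logMean, div_mul_cancel₀ _ hV.ne']
  have e : ∫ x in K, (Real.log (x j) - logMean K j) ^ 2
      = (∫ x in K, Real.log (x j) ^ 2) - 2 * logMean K j * (∫ x in K, Real.log (x j))
        + logMean K j ^ 2 * volume.real K := by
    have h1 := integrableOn_log_sq h j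
    have h2 := (integrableOn_log h j).const_mul (2 * logMean K j)
    have h3 := h.integrableOn (continuous_const (y := logMean K j ^ 2))
    calc ∫ x in K, (Real.log (x j) - logMean K j) ^ 2
        = ∫ x in K, (Real.log (x j) ^ 2 - 2 * logMean K j * Real.log (x j) + logMean K j ^ 2) :=
          setIntegral_congr_fun h.measurableSet fun x _ => by ring
      _ = _ := by
          have h12 : IntegrableOn
              (fun x => Real.log (x j) ^ 2 - 2 * logMean K j * Real.log (x j)) K := h1.sub h2
          rw [integral_add h12 h3, integral_sub h1 h2, integral_const_mul,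
            setIntegral_const, smul_eq_mul]
          ring
  rw [logVar, e, hm]
  field_simp
  ring

section
variable {K : Set (Fin (n + 1) → ℝ)} (h : U.OrthBody K) (i : Fin (n + 1))
include h

theorem integral_margin_mul {f : ℝ → ℝ} (hf : IntegrableOn (fun x => f (x i)) K) :
    ∫ t in Ioc 0 (top K i), margin K i t * f t = (∫ x in K, f (x i)) / volume.real K := by
  have h1 := (integral_slices h i hf).2
  simp only [Fin.insertNth_apply_same, setIntegral_const, smul_eq_mul] at h1
  rw [h1, ← integral_div]
  refine setIntegral_congr_fun measurableSet_Ioc fun t _ => ?_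
  simp only [margin]
  ring

theorem mLog_margin : mLog (margin K i) (top K i) = logMean K i :=
  integral_margin_mul h i (integrableOn_log h i)

theorem mS_margin : mS (margin K i) (top K i) = logVar K i := by
  rw [mS, mLog_margin h i, logVar,
    integral_margin_mul h i (f := fun t => (Real.log t - logMean K i) ^ 2)
      (integrableOn_log_sub_sq h i _)]

theorem margin_mul_slMean (j : Fin n) {t : ℝ} (ht : t ∈ Ico 0 (top K i)) :
    margin K i t * slMean K i j t
      = (∫ y in slice K i t, Real.log (y j)) / volume.real K := by
  have := (orthBody_slice h i ht).volume_pos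
  simp only [margin, slMean, logMean]
  field_simp

theorem margin_mul_logVar (j : Fin n) {t : ℝ} (ht : t ∈ Ico 0 (top K i)) :
    margin K i t * logVar (slice K i t) j
      = (∫ y in slice K i t, Real.log (y j) ^ 2) / volume.real K
        - margin K i t * slMean K i j t ^ 2 - margin K i t := by
  have hs := (orthBody_slice h i ht).volume_pos
  have e := logVar_add_one (orthBody_slice h i ht) j
  rw [show logVar (slice K i t) j
    = (∫ y in slice K i t, Real.log (y j) ^ 2) / volume.real (slice K i t)
      - slMean K i j t ^ 2 - 1 by simp only [slMean]; linarith]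
  simp only [margin]
  field_simp

theorem integrableOn_slice_log (j : Fin n) :
    IntegrableOn (fun t => ∫ y in slice K i t, Real.log (y j)) (Ioc 0 (top K i)) ∧
      ∫ x in K, Real.log (x (i.succAbove j))
        = ∫ t in Ioc 0 (top K i), ∫ y in slice K i t, Real.log (y j) := by
  simpa only [Fin.insertNth_apply_succAbove] using
    integral_slices h i (integrableOn_log h (i.succAbove j))

theorem integrableOn_slice_log_sq (j : Fin n) :
    IntegrableOn (fun t => ∫ y in slice K i t, Real.log (y j) ^ 2) (Ioc 0 (top K i)) ∧
      ∫ x in K, Real.log (x (i.succAbove j)) ^ 2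
        = ∫ t in Ioc 0 (top K i), ∫ y in slice K i t, Real.log (y j) ^ 2 := by
  simpa only [Fin.insertNth_apply_succAbove] using
    integral_slices h i (integrableOn_log_sq h (i.succAbove j))

theorem integrableOn_margin : IntegrableOn (margin K i) (Ioc 0 (top K i)) := by
  have := ((integral_slices h i (h.integrableOn (continuous_const (y := (1 : ℝ))))).1).div_const
    (volume.real K)
  simp only [setIntegral_const, smul_eq_mul, mul_one] at this
  exact this

theorem integrableOn_margin_mul_slMean (j : Fin n) :
    IntegrableOn (fun t => margin K i t * slMean K i j t) (Ioc 0 (top K i)) := by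
  refine ((integrableOn_slice_log h i j).1.div_const (volume.real K)).congr ?_
  filter_upwards [ae_mem_Ico (top K i)] with t ht
  exact (margin_mul_slMean h i j ht).symm

theorem integral_margin_mul_slMean (j : Fin n) :
    ∫ t in Ioc 0 (top K i), margin K i t * slMean K i j t = logMean K (i.succAbove j) := by
  rw [logMean, (integrableOn_slice_log h i j).2, ← integral_div]
  refine integral_congr_ae ?_
  filter_upwards [ae_mem_Ico (top K i)] with t ht
  exact margin_mul_slMean h i j ht

theorem integrableOn_margin_mul_slMean_sq (j : Fin n) :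
    IntegrableOn (fun t => margin K i t * slMean K i j t ^ 2) (Ioc 0 (top K i)) := by
  refine Integrable.mono' ((integrableOn_slice_log_sq h i j).1.div_const (volume.real K))
    ((measurable_margin h i).mul ((measurable_slMean h i j).pow_const 2)).aestronglyMeasurable ?_
  filter_upwards [ae_mem_Ico (top K i)] with t ht
  have hs := orthBody_slice h i ht
  have hg := (margin_pos h i ht).le
  have h1 : 0 ≤ logVar (slice K i t) j + 1 := by
    simp only [logVar, sub_add_cancel]
    exact div_nonneg (integral_nonneg fun _ => sq_nonneg _) hs.volume_pos.le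
  have h2 := margin_mul_logVar h i j ht
  have h3 := mul_nonneg hg h1
  rw [Real.norm_eq_abs, abs_of_nonneg (mul_nonneg hg (sq_nonneg _))]
  linarith

/-- The law of total variance. -/
theorem integral_var_slMean (j : Fin n) :
    ∫ t in Ioc 0 (top K i), margin K i t
        * (slMean K i j t - ∫ s in Ioc 0 (top K i), margin K i s * slMean K i j s) ^ 2
      = (∫ t in Ioc 0 (top K i), margin K i t * slMean K i j t ^ 2)
        - logMean K (i.succAbove j) ^ 2 := by
  rw [integral_margin_mul_slMean h i j]
  set E := logMean K (i.succAbove j) with hE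
  have h1 := integrableOn_margin_mul_slMean_sq h i j
  have h2 := (integrableOn_margin_mul_slMean h i j).const_mul (2 * E)
  have h3 := (integrableOn_margin h i).const_mul (E ^ 2)
  calc ∫ t in Ioc 0 (top K i), margin K i t * (slMean K i j t - E) ^ 2
      = ∫ t in Ioc 0 (top K i), (margin K i t * slMean K i j t ^ 2
          - 2 * E * (margin K i t * slMean K i j t) + E ^ 2 * margin K i t) :=
        setIntegral_congr_fun measurableSet_Ioc fun t _ => by ring
    _ = _ := by
        have h12 : IntegrableOn (fun t => margin K i t * slMean K i j t ^ 2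
            - 2 * E * (margin K i t * slMean K i j t)) (Ioc 0 (top K i)) := h1.sub h2
        rw [integral_add h12 h3, integral_sub h1 h2, integral_const_mul, integral_const_mul,
          integral_margin_mul_slMean h i j, (marg_margin h i).mass, ← hE]
        ring

theorem integrableOn_margin_mul_log :
    IntegrableOn (fun t => margin K i t * Real.log (margin K i t)) (Ioc 0 (top K i)) := by
  obtain ⟨C, hC⟩ := (isCompact_Icc (a := (0 : ℝ)) (b := margin K i 0)).exists_bound_of_continuousOn
    Real.continuous_mul_log.continuousOn
  refine IntegrableOn.of_bound measure_Ioc_lt_top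
    ((measurable_margin h i).mul (measurable_margin h i).log).aestronglyMeasurable C ?_
  filter_upwards [ae_mem_Ico (top K i)] with t ht
  exact hC _ ⟨(margin_pos h i ht).le, margin_antitoneOn h i self_mem_Ici ht.1 ht.1⟩

end

/-- `F` bounds the variance of the slice means for all bodies of dimension at most `N`. -/
def BodyLoss (N : ℕ) (F : (ℝ → ℝ) → ℝ → ℝ) : Prop :=
  ∀ m, m < N → ∀ K : Set (Fin (m + 1) → ℝ), U.OrthBody K → ∀ i : Fin (m + 1),
    ∑ j, ∫ t in Ioc 0 (top K i), margin K i t
        * (slMean K i j t - ∫ s in Ioc 0 (top K i), margin K i s * slMean K i j s) ^ 2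
      ≤ F (margin K i) (top K i)

/-- The step inequality for the marginals of bodies of dimension at most `N`. -/
def OneDimBUpTo (N : ℕ) (ψ dψ : ℝ → ℝ) (F : (ℝ → ℝ) → ℝ → ℝ) : Prop :=
  ∀ (g : ℝ → ℝ) (T : ℝ), Marg g T → InClass N g T →
    ψ (mS g T) + dψ (mS g T) * F g T ≤ mEnt g T - 1 - mLog g T

theorem bodyLoss_of_lossBound {F : (ℝ → ℝ) → ℝ → ℝ} (hF : LossBound F) (N : ℕ) : BodyLoss N F :=
  fun m _ _ h i => hF _ _ (marg_margin h i) m _ (gainPath h i) (measurable_slMean h i)
    (integrableOn_margin_mul_slMean h i) (integrableOn_margin_mul_slMean_sq h i)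

theorem oneDimBUpTo_of_oneDimB {F : (ℝ → ℝ) → ℝ → ℝ} {ψ dψ : ℝ → ℝ} (hB : OneDimB ψ dψ F)
    (N : ℕ) : OneDimBUpTo N ψ dψ F :=
  fun g T hg _ => hB g T hg

/-- Concave `1 / a`-th powers give concave `1 / b`-th powers for `a ≤ b`. -/
theorem InClass.mono {a b : ℕ} {g : ℝ → ℝ} {T : ℝ} (hg : Marg g T) (hab : a ≤ b) (ha : 2 ≤ a)
    (h : InClass a g T) : InClass b g T := by
  intro hb
  set p : ℝ := 1 / ((a : ℝ) - 1) with hp
  set q : ℝ := 1 / ((b : ℝ) - 1) with hq
  have ha' : (1 : ℝ) < a := by exact_mod_cast ha
  have hab' : (a : ℝ) ≤ b := by exact_mod_cast hab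
  have hb0 : (0 : ℝ) < (b : ℝ) - 1 := by linarith
  have hp0 : 0 < p := by rw [hp]; exact div_pos one_pos (by linarith)
  have hq0 : 0 ≤ q := by rw [hq]; exact (div_pos one_pos hb0).le
  have hr : 0 ≤ q / p ∧ q / p ≤ 1 :=
    ⟨div_nonneg hq0 hp0.le, (div_le_one hp0).2 (one_div_le_one_div_of_le (by linarith)
      (by linarith))⟩
  have hc := h ha
  refine ⟨convex_Ico _ _, fun x hx y hy u v hu hv huv => ?_⟩
  have hz : u • x + v • y ∈ Ico 0 T := convex_Ico _ _ hx hy hu hv huv
  have e : ∀ t ∈ Ico 0 T, g t ^ q = (g t ^ p) ^ (q / p) := fun t ht => by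
    rw [← Real.rpow_mul (hg.pos t ht).le, mul_div_cancel₀ _ hp0.ne']
  have h1 := (Real.concaveOn_rpow hr.1 hr.2).2 (mem_Ici.2 (Real.rpow_nonneg (hg.nonneg x) p))
    (mem_Ici.2 (Real.rpow_nonneg (hg.nonneg y) p)) hu hv huv
  have h2 := hc.2 hx hy hu hv huv
  show u • g x ^ q + v • g y ^ q ≤ g (u • x + v • y) ^ q
  rw [e x hx, e y hy, e _ hz]
  refine h1.trans (Real.rpow_le_rpow ?_ h2 hr.1)
  exact add_nonneg (smul_nonneg hu (Real.rpow_nonneg (hg.nonneg x) p))
    (smul_nonneg hv (Real.rpow_nonneg (hg.nonneg y) p))

/-- The one-dimensional body has a constant marginal, which lies in every class. -/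
theorem inClass_margin_upTo {m N : ℕ} {K : Set (Fin (m + 1) → ℝ)} (h : U.OrthBody K)
    (i : Fin (m + 1)) (hm : m < N) : InClass N (margin K i) (top K i) := by
  rcases Nat.eq_zero_or_pos m with rfl | hm0
  · intro _
    have hc : ∀ t ∈ Ico 0 (top K i), margin K i t = 1 / volume.real K := fun t ht => by
      obtain ⟨x, hx⟩ := (orthBody_slice h i ht).int_ne
      have hu : slice K i t = univ := eq_univ_of_forall fun y => by
        rw [Subsingleton.elim y x]; exact interior_subset hx
      simp [margin, hu, measureReal_def, volume_pi, Measure.pi_empty_univ]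
    refine ⟨convex_Ico _ _, fun x hx y hy a b ha hb hab => ?_⟩
    have hz : a • x + b • y ∈ Ico 0 (top K i) := convex_Ico _ _ hx hy ha hb hab
    simp only [smul_eq_mul] at hz ⊢
    rw [hc x hx, hc y hy, hc _ hz, ← add_mul, hab, one_mul]
  · exact (inClass_margin h i).mono (marg_margin h i) hm (by omega)

/-- The entropy bound up to dimension `N` from the inequality for one variable. -/
theorem spine_upTo {F : (ℝ → ℝ) → ℝ → ℝ} {ψ dψ : ℝ → ℝ} {N : ℕ} (hF : BodyLoss N F)
    (hB : OneDimBUpTo N ψ dψ F) (hψ : Potential ψ dψ) : ∀ n ≤ N, Spine n ψ := by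
  intro n
  induction n with
  | zero =>
    intro _ K hK
    obtain ⟨x, hx⟩ := hK.int_ne
    have hu : K = univ := eq_univ_of_forall fun y => by
      rw [Subsingleton.elim y x]; exact interior_subset hx
    simp [hu, measureReal_def, volume_pi, Measure.pi_empty_univ]
  | succ n ih' =>
    intro hnN K h
    have ih := ih' (Nat.le_of_succ_le hnN)
    obtain ⟨i, -, hmax⟩ :=
      Finset.exists_max_image (Finset.univ : Finset (Fin (n + 1))) (logVar K) Finset.univ_nonempty
    set T := top K i with hT
    set g := margin K i with hg
    set V := volume.real K with hV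
    have hV0 : 0 < V := h.volume_pos
    set e := slMean K i with he
    set S : Fin n → ℝ := fun j => logVar K (i.succAbove j) with hS
    set E : Fin n → ℝ := fun j => logMean K (i.succAbove j) with hE
    set L : Fin n → ℝ → ℝ := fun j t => g t * (1 + ψ (S j) - dψ (S j) * S j - dψ (S j))
      + g t * e j t
      + dψ (S j) * ((∫ y in slice K i t, Real.log (y j) ^ 2) / V - g t * e j t ^ 2) with hL
    have hLi : ∀ j, IntegrableOn (L j) (Ioc 0 T) := fun j =>
      (((integrableOn_margin h i).mul_const _).add (integrableOn_margin_mul_slMean h i j)).add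
        ((((integrableOn_slice_log_sq h i j).1.div_const V).sub
          (integrableOn_margin_mul_slMean_sq h i j)).const_mul _)
    have hpt : ∀ t ∈ Ico 0 T, ∑ j, L j t ≤ g t * Real.log (g t) + g t * Real.log V := by
      intro t ht
      have hs := orthBody_slice h i ht
      have hgt := margin_pos h i ht
      have h1 := mul_le_mul_of_nonneg_left (ih _ hs) hgt.le
      have hlog : Real.log (volume.real (slice K i t)) = Real.log (g t) + Real.log V := by
        rw [hg, margin, Real.log_div hs.volume_pos.ne' hV0.ne']; ring
      rw [hlog, mul_add, Finset.mul_sum] at h1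
      refine le_trans (Finset.sum_le_sum fun j _ => ?_) h1
      have h2 := mul_le_mul_of_nonneg_left (hψ.subgrad (S j) (logVar (slice K i t) j)) hgt.le
      have h3 : g t * logVar (slice K i t) j
          = (∫ y in slice K i t, Real.log (y j) ^ 2) / V - g t * e j t ^ 2 - g t :=
        margin_mul_logVar h i j ht
      have h4 : logMean (slice K i t) j = e j t := rfl
      rw [h4]
      simp only [hL]
      linear_combination h2 + (-(dψ (S j))) * h3
    have hint : ∑ j, ∫ t in Ioc 0 T, L j t ≤ -mEnt g T + Real.log V := by
      rw [← integral_finsetSum _ fun j _ => hLi j]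
      refine (integral_mono_ae (integrable_finsetSum _ fun j _ => hLi j)
        ((integrableOn_margin_mul_log h i).add ((integrableOn_margin h i).mul_const (Real.log V)))
        ?_).trans_eq ?_
      · filter_upwards [ae_mem_Ico T] with t ht using hpt t ht
      · simp only [Pi.add_apply]
        rw [integral_add (integrableOn_margin_mul_log h i)
          ((integrableOn_margin h i).mul_const _), integral_mul_const, (marg_margin h i).mass,
          mEnt]
        ring
    have hLv : ∀ j, ∫ t in Ioc 0 T, L j t = 1 + E j + ψ (S j) - dψ (S j)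
        * ∫ t in Ioc 0 T, g t * (e j t - ∫ s in Ioc 0 T, g s * e j s) ^ 2 := by
      intro j
      have h0 := (integrableOn_margin h i).mul_const (1 + ψ (S j) - dψ (S j) * S j - dψ (S j))
      have h1 := integrableOn_margin_mul_slMean h i j
      have h2 := (integrableOn_slice_log_sq h i j).1.div_const V
      have h3 := integrableOn_margin_mul_slMean_sq h i j
      have hA : (∫ x in K, Real.log (x (i.succAbove j)) ^ 2) / V = S j + 1 + E j ^ 2 := by
        have := logVar_add_one h (i.succAbove j)
        simp only [hS, hE, hV]
        linarith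
      simp only [hL]
      have h01 : IntegrableOn (fun t => g t * (1 + ψ (S j) - dψ (S j) * S j - dψ (S j))
          + g t * e j t) (Ioc 0 T) := h0.add h1
      have h23 : IntegrableOn (fun t => dψ (S j)
          * ((∫ y in slice K i t, Real.log (y j) ^ 2) / V - g t * e j t ^ 2)) (Ioc 0 T) :=
        (h2.sub h3).const_mul _
      rw [integral_var_slMean h i j, integral_add h01 h23]
      simp only [hg, he, hT] at *
      rw [integral_add h0 h1, integral_const_mul, integral_sub h2 h3, integral_div,
        ← (integrableOn_slice_log_sq h i j).2, hA, integral_mul_const,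
        (marg_margin h i).mass, integral_margin_mul_slMean h i j]
      simp only [hE]
      ring
    simp only [hLv, Finset.sum_sub_distrib] at hint
    have hloss := hF n hnN K h i
    have hsum : ∑ j, dψ (S j) * ∫ t in Ioc 0 T, g t * (e j t - ∫ s in Ioc 0 T, g s * e j s) ^ 2
        ≤ dψ (mS g T) * F g T := by
      refine le_trans (Finset.sum_le_sum fun j _ => ?_)
        ((Finset.mul_sum _ _ _).symm.trans_le (mul_le_mul_of_nonneg_left hloss (hψ.nonneg _)))
      refine mul_le_mul_of_nonneg_right (hψ.mono ?_)
        (setIntegral_nonneg measurableSet_Ioc fun t _ =>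
          mul_nonneg ((marg_margin h i).nonneg t) (sq_nonneg _))
      rw [mS_margin h i]
      exact hmax _ (Finset.mem_univ _)
    have hone := hB g T (marg_margin h i) (inClass_margin_upTo h i hnN)
    rw [mS_margin h i, mLog_margin h i] at hone
    rw [mS_margin h i] at hsum
    rw [Fin.sum_univ_succAbove _ i]
    simp only [hE, hS] at hint ⊢
    linarith

/-- The entropy bound in every dimension, frozen interface. -/
theorem spine {F : (ℝ → ℝ) → ℝ → ℝ} {ψ dψ : ℝ → ℝ} (hF : LossBound F)
    (hB : OneDimB ψ dψ F) (hψ : Potential ψ dψ) (n : ℕ) : Spine n ψ :=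
  spine_upTo (bodyLoss_of_lossBound hF n) (oneDimBUpTo_of_oneDimB hB n) hψ n le_rfl

end Vale.P254.E
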