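import Mathlib

/-!
A symmetric matrix below `2` and above every `e_k e_kᵀ` is at least `2 / (m + 1)`.
-/

namespace Vale.P254.E

open Matrix

theorem quad_lower {m : ℕ} {C : Matrix (Fin m) (Fin m) ℝ} (hs : C.IsSymm)
    (h2 : ∀ b : Fin m → ℝ, b ⬝ᵥ C *ᵥ b ≤ 2 * (b ⬝ᵥ b))
    (h1 : ∀ (b : Fin m → ℝ) k, b k ^ 2 ≤ b ⬝ᵥ C *ᵥ b) (b : Fin m → ℝ) :
    2 / ((m : ℝ) + 1) * (b ⬝ᵥ b) ≤ b ⬝ᵥ C *ᵥ b := by
  rcases Nat.eq_zero_or_pos m with rfl | hm
  · simp [dotProduct]
  have hQ : ∀ x : Fin m → ℝ, 0 ≤ x ⬝ᵥ C *ᵥ x := fun x => (sq_nonneg _).trans (h1 x ⟨0, hm⟩)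
  have hsym : ∀ x y : Fin m → ℝ, x ⬝ᵥ C *ᵥ y = y ⬝ᵥ C *ᵥ x := fun x y => by
    rw [dotProduct_mulVec, ← mulVec_transpose, hs.eq, dotProduct_comm]
  have hexp : ∀ (x y : Fin m → ℝ) (t : ℝ), (x + t • y) ⬝ᵥ C *ᵥ (x + t • y)
      = x ⬝ᵥ C *ᵥ x + 2 * t * (x ⬝ᵥ C *ᵥ y) + t ^ 2 * (y ⬝ᵥ C *ᵥ y) := fun x y t => by
    simp only [mulVec_add, mulVec_smul, dotProduct_add, add_dotProduct, smul_dotProduct,
      dotProduct_smul, smul_eq_mul, hsym y x]
    ring
  have hinj : Function.Injective C.mulVecLin := by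
    rw [← LinearMap.ker_eq_bot, LinearMap.ker_eq_bot']
    intro x hx
    funext k
    have := h1 x k
    simp only [mulVecLin_apply] at hx
    rw [hx, dotProduct_zero] at this
    simpa using le_antisymm this (sq_nonneg _)
  set S := (LinearEquiv.ofBijective C.mulVecLin
    ⟨hinj, LinearMap.injective_iff_surjective.1 hinj⟩).symm with hS
  have hCS : ∀ x, C *ᵥ S x = x := fun x => by
    have := LinearEquiv.apply_symm_apply (LinearEquiv.ofBijective C.mulVecLin
      ⟨hinj, LinearMap.injective_iff_surjective.1 hinj⟩) x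
    exact this
  -- `x ↦ x ⬝ S x - |x|² / 2` is nonnegative
  have hM : ∀ x, (x ⬝ᵥ x) / 2 ≤ x ⬝ᵥ S x := fun x => by
    have e1 : S x ⬝ᵥ C *ᵥ S x = x ⬝ᵥ S x := by rw [hCS, dotProduct_comm]
    have e2 : S x ⬝ᵥ C *ᵥ x = x ⬝ᵥ x := by rw [hsym, hCS]
    have := hexp (S x) x (-1 / 2)
    have := hQ (S x + (-1 / 2 : ℝ) • x)
    have := h2 x
    nlinarith
  set P : Fin m → Fin m → ℝ := fun j k => Pi.single j (1 : ℝ) ⬝ᵥ S (Pi.single k 1) with hP
  have hPs : ∀ j k, P j k = P k j := fun j k => by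
    simp only [hP]
    conv_lhs => rw [← hCS (Pi.single j 1), dotProduct_comm, hsym]
    rw [hCS, dotProduct_comm]
  have hdiag : ∀ k, P k k ≤ 1 := fun k => by
    have := h1 (S (Pi.single k 1)) k
    rw [hCS, dotProduct_comm] at this
    have e : S (Pi.single k 1) k = P k k := by simp [hP]
    rw [e] at this
    change P k k ^ 2 ≤ P k k at this
    nlinarith
  have hbound : ∀ j k, |P j k - (if j = k then 1 / 2 else 0)| ≤ 1 / 2 := fun j k => by
    rcases eq_or_ne j k with rfl | h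
    · have := hM (Pi.single j 1)
      simp at this
      have := hdiag j
      simp only [hP, single_dotProduct, one_mul] at this
      simp only [hP, single_dotProduct, one_mul, if_true, abs_le]
      constructor <;> linarith
    · have hp := hM (Pi.single j 1 + Pi.single k 1)
      have hn := hM (Pi.single j 1 - Pi.single k 1)
      have dj := hdiag j
      have dk := hdiag k
      have := hPs j k
      simp [hP, h, h.symm] at hp hn dj dk this ⊢
      rw [abs_le]
      constructor <;> linarith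
  have hup : b ⬝ᵥ S b ≤ ((m : ℝ) + 1) / 2 * (b ⬝ᵥ b) := by
    have e : b ⬝ᵥ S b = ∑ j, ∑ k, b j * b k * P j k := by
      have hb : S b = ∑ k, b k • S (Pi.single k 1) := by
        simp_rw [← map_smul, ← map_sum]
        congr 1
        funext l
        simp [Finset.sum_apply, Pi.single_apply]
      simp only [dotProduct, hb, Finset.sum_apply, Pi.smul_apply, smul_eq_mul, Finset.mul_sum]
      refine Finset.sum_congr rfl fun j _ => Finset.sum_congr rfl fun k _ => ?_
      simp [hP]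
      ring
    have e2 : b ⬝ᵥ b = ∑ j, b j ^ 2 := by simp [dotProduct, pow_two]
    have h3 : ∀ j k, b j * b k * P j k ≤ (if j = k then b j ^ 2 / 2 else 0) + |b j| * |b k| / 2 :=
      fun j k => by
      have := hbound j k
      have h4 : |b j * b k * (P j k - if j = k then 1 / 2 else 0)| ≤ |b j| * |b k| * (1 / 2) := by
        rw [abs_mul, abs_mul]; gcongr
      have := (le_abs_self _).trans h4
      split_ifs with hjk
      · subst hjk
        simp only [if_true] at this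
        nlinarith
      · simp only [hjk, if_false, sub_zero] at this
        linarith
    have h5 : (∑ j, |b j|) ^ 2 ≤ (m : ℝ) * ∑ j, b j ^ 2 := by
      have := sq_sum_le_card_mul_sum_sq (s := (Finset.univ : Finset (Fin m))) (f := fun j => |b j|)
      simpa [sq_abs] using this
    calc b ⬝ᵥ S b ≤ ∑ j, ∑ k, ((if j = k then b j ^ 2 / 2 else 0) + |b j| * |b k| / 2) :=
          e.trans_le (Finset.sum_le_sum fun j _ => Finset.sum_le_sum fun k _ => h3 j k)
      _ = (∑ j, b j ^ 2) / 2 + (∑ j, |b j|) ^ 2 / 2 := by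
          simp [Finset.sum_add_distrib, Finset.sum_div, pow_two, Finset.sum_mul, Finset.mul_sum]
          rw [Finset.sum_comm]
      _ ≤ _ := by rw [e2]; linarith
  set t : ℝ := 2 / ((m : ℝ) + 1) with ht
  have e3 : b ⬝ᵥ C *ᵥ S b = b ⬝ᵥ b := by rw [hCS]
  have e4 : S b ⬝ᵥ C *ᵥ S b = b ⬝ᵥ S b := by rw [hCS, dotProduct_comm]
  have h6 := hQ (b + (-t) • S b)
  rw [hexp b (S b) (-t), e3, e4, neg_sq] at h6
  have ht2 : t ^ 2 * (b ⬝ᵥ S b) ≤ t * (b ⬝ᵥ b) :=
    (mul_le_mul_of_nonneg_left hup (sq_nonneg t)).trans_eq (by rw [ht]; field_simp)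
  linarith

end Vale.P254.E
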