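import Mathlib
import Vale.Agent.P254.E.Slices
import Vale.Agent.P254.E.LambdaAlg

/-!
The covariance of the logarithms of the coordinates on a down-closed convex body in `ℝ^m` is at
least `2 / (m + 1)`: it is at most `2` (Prékopa) and at least one in each coordinate (fibres).
-/

namespace Vale.P254.E

open MeasureTheory Set Filter Topology Matrix

variable {m : ℕ}

/-- The centred linear statistic of the logarithms. -/
noncomputable def logStat (A : Set (Fin m → ℝ)) (b x : Fin m → ℝ) : ℝ :=
  ∑ j, b j * (Real.log (x j) - logMean A j)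

theorem two_add_sq_le_exp_add_exp_neg (x : ℝ) : 2 + x ^ 2 ≤ Real.exp x + Real.exp (-x) := by
  have h1 : |x / 2| ≤ |Real.sinh (x / 2)| := by
    rw [Real.abs_sinh]; exact Real.self_le_sinh_iff.2 (abs_nonneg _)
  have h2 := sq_le_sq.2 h1
  rw [Real.sinh_eq] at h2
  have e1 : Real.exp (x / 2) * Real.exp (-(x / 2)) = 1 := by rw [← Real.exp_add]; simp
  have e2 : Real.exp x = Real.exp (x / 2) ^ 2 := by rw [← Real.exp_nat_mul]; ring_nf
  have e3 : Real.exp (-x) = Real.exp (-(x / 2)) ^ 2 := by rw [← Real.exp_nat_mul]; ring_nf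
  nlinarith

theorem mul_log_sub_log_le {u : ℝ} (hu : |u| < 1) :
    u * (Real.log (1 + u) - Real.log (1 - u)) ≤ 2 * u ^ 2 / (1 - |u|) := by
  obtain ⟨v, hv, hv0⟩ : ∃ v, v = |u| ∧ 0 ≤ v := ⟨_, rfl, abs_nonneg u⟩
  have e : u * (Real.log (1 + u) - Real.log (1 - u))
      = v * (Real.log (1 + v) - Real.log (1 - v)) := by
    rcases abs_cases u with ⟨h, -⟩ | ⟨h, -⟩ <;> rw [hv, h]
    rw [← sub_eq_add_neg, sub_neg_eq_add]; ring
  have h1 : Real.log (1 + v) ≤ v := by
    linarith [Real.log_le_sub_one_of_pos (show (0 : ℝ) < 1 + v by linarith)]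
  have h2 := Real.one_sub_inv_le_log_of_pos (show (0 : ℝ) < 1 - v by linarith)
  have h4 : v + ((1 - v)⁻¹ - 1) ≤ 2 * v / (1 - v) := by
    rw [le_div_iff₀ (by linarith)]
    have : (1 - v)⁻¹ * (1 - v) = 1 := inv_mul_cancel₀ (by linarith)
    nlinarith
  have h3 : v * (Real.log (1 + v) - Real.log (1 - v)) ≤ v * (2 * v / (1 - v)) :=
    mul_le_mul_of_nonneg_left (by linarith) hv0
  rw [e, ← hv, show u ^ 2 = v ^ 2 by rw [hv, sq_abs]]
  exact h3.trans_eq (by ring)

section
variable {A : Set (Fin m → ℝ)} (h : U.OrthBody A)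

theorem logStat_sq_eq (b x : Fin m → ℝ) :
    logStat A b x ^ 2 = ∑ j, ∑ k, b j * b k
      * ((Real.log (x j) - logMean A j) * (Real.log (x k) - logMean A k)) := by
  rw [logStat, pow_two, Finset.sum_mul_sum]
  exact Finset.sum_congr rfl fun j _ => Finset.sum_congr rfl fun k _ => by ring

include h

theorem integrableOn_cl (j : Fin m) :
    IntegrableOn (fun x => Real.log (x j) - logMean A j) A :=
  (integrableOn_log h j).sub (h.integrableOn continuous_const)

theorem integrableOn_cl_sq (j : Fin m) :
    IntegrableOn (fun x => (Real.log (x j) - logMean A j) ^ 2) A := by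
  have := (((integrableOn_log_sq h j).sub ((integrableOn_log h j).const_mul (2 * logMean A j))).add
    (h.integrableOn (continuous_const (y := logMean A j ^ 2))))
  refine this.congr (Eventually.of_forall fun x => ?_)
  simp only [Pi.add_apply, Pi.sub_apply]
  ring

theorem integrableOn_cl_mul (j k : Fin m) :
    IntegrableOn (fun x => (Real.log (x j) - logMean A j) * (Real.log (x k) - logMean A k)) A := by
  refine Integrable.mono' ((integrableOn_cl_sq h j).add (integrableOn_cl_sq h k))
    (by fun_prop) (Eventually.of_forall fun x => ?_)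
  simp only [Pi.add_apply, Real.norm_eq_abs]
  rw [abs_le]
  constructor <;>
    nlinarith [sq_nonneg (Real.log (x j) - logMean A j + (Real.log (x k) - logMean A k)),
      sq_nonneg (Real.log (x j) - logMean A j - (Real.log (x k) - logMean A k))]

theorem integrableOn_logStat (b : Fin m → ℝ) : IntegrableOn (logStat A b) A :=
  integrable_finsetSum _ fun j _ => (integrableOn_cl h j).const_mul _

theorem integrableOn_logStat_sq (b : Fin m → ℝ) : IntegrableOn (fun x => logStat A b x ^ 2) A := by
  simp only [logStat_sq_eq]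
  exact integrable_finsetSum _ fun j _ => integrable_finsetSum _ fun k _ =>
    (integrableOn_cl_mul h j k).const_mul _

theorem integral_logStat (b : Fin m → ℝ) : ∫ x in A, logStat A b x = 0 := by
  unfold logStat
  rw [integral_finsetSum _ fun j _ => (integrableOn_cl h j).const_mul _]
  refine Finset.sum_eq_zero fun j _ => ?_
  rw [integral_const_mul, integral_sub (integrableOn_log h j) (h.integrableOn continuous_const)]
  simp [logMean]
  field_simp [h.volume_pos.ne']
  simp

/-- The cumulant bound, from Prékopa for the weights `1 + u` and `1 - u` on the same body. -/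
theorem logStat_sq_le_exp {u : Fin m → ℝ} (hu : ∀ j, |u j| < 1) :
    volume.real A + (∫ x in A, logStat A u x ^ 2)
      ≤ volume.real A * Real.exp (∑ j, u j * (Real.log (1 + u j) - Real.log (1 - u j))) := by
  have ha : ∀ j, 0 < 1 + u j := fun j => by linarith [neg_abs_le (u j), hu j]
  have hc : ∀ j, 0 < 1 - u j := fun j => by linarith [le_abs_self (u j), hu j]
  have hV := h.volume_pos
  have hfin : volume A ≠ ⊤ := h.compact.measure_lt_top.ne
  have eA := ae_inter_pos h.nonneg
  set S := A ∩ pos m with hS
  have hSm : MeasurableSet S := h.measurableSet.inter measurableSet_pos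
  set Ka := ∑ j, u j * (logMean A j - Real.log (1 + u j)) with hKa
  set Kb := ∑ j, -u j * (logMean A j - Real.log (1 - u j)) with hKb
  have hwa : ∀ x ∈ S, wt (fun j => 1 + u j) x = Real.exp (logStat A u x + Ka) := fun x hx => by
    rw [wt, hKa, logStat, ← Finset.sum_add_distrib, Real.exp_sum]
    refine Finset.prod_congr rfl fun j _ => ?_
    rw [Real.rpow_def_of_pos (div_pos (hx.2 j) (ha j)), Real.log_div (hx.2 j).ne' (ha j).ne']
    ring_nf
  have hwb : ∀ x ∈ S, wt (fun j => 1 - u j) x = Real.exp (-logStat A u x + Kb) := fun x hx => by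
    rw [wt, hKb, logStat, ← Finset.sum_neg_distrib, ← Finset.sum_add_distrib, Real.exp_sum]
    refine Finset.prod_congr rfl fun j _ => ?_
    rw [Real.rpow_def_of_pos (div_pos (hx.2 j) (hc j)), Real.log_div (hx.2 j).ne' (hc j).ne']
    ring_nf
  have vS : volume.real S = volume.real A := measureReal_congr eA
  have hmid : ∀ x ∈ S, ∀ y ∈ S, ∀ z, (∀ j, 0 < z j) → (∀ j, z j ≤ (x j + y j) / 2) → z ∈ A := by
    intro x hx y hy z hz hle
    refine h.down _ (h.convex hx.1 hy.1 (show (0 : ℝ) ≤ 1 / 2 by norm_num)
      (show (0 : ℝ) ≤ 1 / 2 by norm_num) (by norm_num)) z (fun j => (hz j).le) fun j => ?_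
    simp only [Pi.add_apply, Pi.smul_apply, smul_eq_mul]
    linarith [hle j]
  have hprod := wt_mul_le hSm hSm h.measurableSet inter_subset_right inter_subset_right hmid ha hc
    (fun j => by ring)
  have hint : ∀ j, IntegrableOn (fun x => Real.log (x j)) S := fun j =>
    (integrableOn_log h j).mono_set inter_subset_left
  have hfS : volume S ≠ ⊤ := by rw [measure_congr eA]; exact hfin
  have hVS : 0 < volume.real S := vS ▸ hV
  have na := (ENNReal.ofReal_pos.2 (mul_pos hVS (Real.exp_pos _))).trans_le
    (ofReal_le_setLIntegral_wt ha hSm inter_subset_right hfS hVS hint)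
  have nb := (ENNReal.ofReal_pos.2 (mul_pos hVS (Real.exp_pos _))).trans_le
    (ofReal_le_setLIntegral_wt hc hSm inter_subset_right hfS hVS hint)
  rw [setLIntegral_congr_fun hSm fun x hx => congrArg ENNReal.ofReal (hwa x hx),
    setLIntegral_congr_fun hSm fun x hx => congrArg ENNReal.ofReal (hwb x hx)] at hprod
  rw [setLIntegral_congr_fun hSm fun x hx => congrArg ENNReal.ofReal (hwa x hx)] at na
  rw [setLIntegral_congr_fun hSm fun x hx => congrArg ENNReal.ofReal (hwb x hx)] at nb
  have htop := ne_top_of_le_ne_top (ENNReal.pow_ne_top hfin) hprod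
  rw [setLIntegral_congr eA, setLIntegral_congr eA] at hprod htop
  rw [setLIntegral_congr eA] at na nb
  have hmZ : Measurable (logStat A u) := by unfold logStat; fun_prop
  have hpA := (lintegral_ofReal_ne_top_iff_integrable (μ := volume.restrict A)
    (f := fun x => Real.exp (logStat A u x + Ka)) (hmZ.add_const Ka).exp.aestronglyMeasurable
    (Eventually.of_forall fun x => (Real.exp_pos _).le)).1
      (fun e => htop (by rw [e, ENNReal.top_mul nb.ne']))
  have hnA := (lintegral_ofReal_ne_top_iff_integrable (μ := volume.restrict A)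
    (f := fun x => Real.exp (-logStat A u x + Kb)) (hmZ.neg.add_const Kb).exp.aestronglyMeasurable
    (Eventually.of_forall fun x => (Real.exp_pos _).le)).1
      (fun e => htop (by rw [e, ENNReal.mul_top na.ne']))
  rw [← ofReal_integral_eq_lintegral_ofReal hpA (Eventually.of_forall fun x => (Real.exp_pos _).le),
    ← ofReal_integral_eq_lintegral_ofReal hnA (Eventually.of_forall fun x => (Real.exp_pos _).le),
    ← ENNReal.ofReal_mul (integral_nonneg fun x => (Real.exp_pos _).le),
    ← ENNReal.ofReal_toReal (ENNReal.pow_ne_top hfin (n := 2)),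
    ENNReal.ofReal_le_ofReal_iff ENNReal.toReal_nonneg, ENNReal.toReal_pow,
    ← measureReal_def] at hprod
  simp only [Real.exp_add, integral_mul_const] at hprod
  have hp : IntegrableOn (fun x => Real.exp (logStat A u x)) A := by
    refine (hpA.const_mul (Real.exp (-Ka))).congr (Eventually.of_forall fun x => ?_)
    simp only
    rw [← Real.exp_add]; ring_nf
  have hn : IntegrableOn (fun x => Real.exp (-logStat A u x)) A := by
    refine (hnA.const_mul (Real.exp (-Kb))).congr (Eventually.of_forall fun x => ?_)
    simp only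
    rw [← Real.exp_add]; ring_nf
  set P := ∫ x in A, Real.exp (logStat A u x)
  set N := ∫ x in A, Real.exp (-logStat A u x)
  have : NeZero (volume.restrict A) := ⟨fun e => hV.ne' (by
    rw [measureReal_def, Measure.restrict_eq_zero.1 e, ENNReal.toReal_zero])⟩
  have hP : 0 < P := integral_exp_pos hp
  set s := volume.real A / P with hs
  have hs0 : 0 < s := div_pos hV hP
  have hZ := integrableOn_logStat h u
  have hQ := integrableOn_logStat_sq h u
  have hI1 : IntegrableOn (fun x => 2 + Real.log s ^ 2 + logStat A u x ^ 2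
      + 2 * Real.log s * logStat A u x) A :=
    ((h.integrableOn continuous_const).add hQ).add (hZ.const_mul _)
  have key : ∫ x in A, (2 + Real.log s ^ 2 + logStat A u x ^ 2 + 2 * Real.log s * logStat A u x)
      ≤ ∫ x in A, (s * Real.exp (logStat A u x) + s⁻¹ * Real.exp (-logStat A u x)) := by
    refine integral_mono hI1 ((hp.const_mul _).add (hn.const_mul _)) fun x => ?_
    have := two_add_sq_le_exp_add_exp_neg (logStat A u x + Real.log s)
    rw [Real.exp_add, neg_add, Real.exp_add, Real.exp_neg (Real.log s), Real.exp_log hs0] at this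
    linarith
  rw [integral_add ((h.integrableOn continuous_const).fun_add hQ) (hZ.const_mul _),
    integral_add (h.integrableOn continuous_const) hQ,
    integral_add (hp.const_mul _) (hn.const_mul _), integral_const_mul, integral_const_mul,
    integral_const_mul, integral_logStat h u, setIntegral_const, smul_eq_mul, mul_zero,
    add_zero] at key
  have hsP : s * P = volume.real A := div_mul_cancel₀ _ hP.ne'
  have hPN : P * N ≤ volume.real A ^ 2
      * Real.exp (∑ j, u j * (Real.log (1 + u j) - Real.log (1 - u j))) := by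
    have e : Real.exp Ka * Real.exp Kb
        * Real.exp (∑ j, u j * (Real.log (1 + u j) - Real.log (1 - u j))) = 1 := by
      rw [← Real.exp_add, ← Real.exp_add, Real.exp_eq_one_iff, hKa, hKb,
        ← Finset.sum_add_distrib, ← Finset.sum_add_distrib]
      exact Finset.sum_eq_zero fun j _ => by ring
    calc P * N = (P * Real.exp Ka * (N * Real.exp Kb))
          * Real.exp (∑ j, u j * (Real.log (1 + u j) - Real.log (1 - u j))) := by
          linear_combination (-(P * N)) * e
      _ ≤ _ := mul_le_mul_of_nonneg_right hprod (Real.exp_pos _).le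
  have hN : s⁻¹ * N * volume.real A = P * N := by
    rw [hs, inv_div]; field_simp
  have hlog : 0 ≤ volume.real A * Real.log s ^ 2 := mul_nonneg hV.le (sq_nonneg _)
  refine le_of_mul_le_mul_left ?_ hV
  nlinarith [mul_le_mul_of_nonneg_left key hV.le, mul_nonneg hV.le hlog]

theorem logStat_sq_le_two (b : Fin m → ℝ) :
    ∫ x in A, logStat A b x ^ 2 ≤ 2 * (∑ j, b j ^ 2) * volume.real A := by
  set B := ∑ j, |b j|
  set s := ∑ j, b j ^ 2
  set f : ℝ → ℝ := fun ε =>
    2 * s / (1 - ε * B) * Real.exp (2 * ε ^ 2 * s / (1 - ε * B)) * volume.real A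
  have hf : Tendsto f (𝓝[>] 0) (𝓝 (2 * s * volume.real A)) := by
    have : ContinuousAt f 0 := by
      refine ContinuousAt.mul (ContinuousAt.mul ?_ ?_) continuousAt_const
      · exact ContinuousAt.div (by fun_prop) (by fun_prop) (by simp)
      · exact (ContinuousAt.div (by fun_prop) (by fun_prop) (by simp)).rexp
    simpa [f] using this.tendsto.mono_left nhdsWithin_le_nhds
  refine ge_of_tendsto hf ?_
  have hB0 : 0 ≤ B := Finset.sum_nonneg fun j _ => abs_nonneg _
  filter_upwards [Ioo_mem_nhdsGT (show (0 : ℝ) < 1 / (B + 1) by positivity)] with ε hε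
  have hεB : ε * B < 1 := by
    have := (lt_div_iff₀ (by linarith)).1 hε.2
    nlinarith [hε.1]
  have hj : ∀ j, |ε * b j| ≤ ε * B := fun j => by
    rw [abs_mul, abs_of_pos hε.1]
    exact mul_le_mul_of_nonneg_left
      (Finset.single_le_sum (fun l _ => abs_nonneg (b l)) (Finset.mem_univ j)) hε.1.le
  have h1 := logStat_sq_le_exp h (u := fun j => ε * b j) fun j => (hj j).trans_lt hεB
  have e1 : ∀ x, logStat A (fun j => ε * b j) x ^ 2 = ε ^ 2 * logStat A b x ^ 2 := fun x => by
    simp only [logStat, mul_assoc, ← Finset.mul_sum]; ring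
  simp only [e1, integral_const_mul] at h1
  set y := 2 * ε ^ 2 * s / (1 - ε * B) with hy
  have hsum : ∑ j, ε * b j * (Real.log (1 + ε * b j) - Real.log (1 - ε * b j)) ≤ y := by
    rw [hy, Finset.mul_sum, Finset.sum_div]
    refine Finset.sum_le_sum fun j _ => (mul_log_sub_log_le ((hj j).trans_lt hεB)).trans ?_
    rw [show 2 * (ε * b j) ^ 2 = 2 * ε ^ 2 * b j ^ 2 by ring]
    exact div_le_div_of_nonneg_left (by positivity) (by linarith) (by linarith [hj j])
  have h2 : Real.exp y - 1 ≤ y * Real.exp y := by
    have := mul_le_mul_of_nonneg_left (Real.add_one_le_exp (-y)) (Real.exp_pos y).le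
    rw [← Real.exp_add, add_neg_cancel, Real.exp_zero] at this
    linarith
  have hV := h.volume_pos
  have h3 : ε ^ 2 * ∫ x in A, logStat A b x ^ 2 ≤ ε ^ 2 * f ε := by
    have h4 := mul_le_mul_of_nonneg_left (Real.exp_le_exp.2 hsum) hV.le
    have h5 := mul_le_mul_of_nonneg_left h2 hV.le
    have : ε ^ 2 * f ε = volume.real A * (y * Real.exp y) := by
      simp only [f, hy]; ring
    linarith
  exact le_of_mul_le_mul_left h3 (pow_pos hε.1 2)

end

/-- A fibrewise nonnegative integral. -/
theorem integral_nonneg_of_fibre {l : ℕ} {A : Set (Fin (l + 1) → ℝ)} (h : U.OrthBody A)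
    (k : Fin (l + 1)) {f : (Fin (l + 1) → ℝ) → ℝ} (hf : IntegrableOn f A)
    (hfib : ∀ y L, 0 ≤ L → 0 ≤ ∫ t in 0..L, f (Fin.insertNth k t y)) : 0 ≤ ∫ x in A, f x := by
  set e : (Fin (l + 1) → ℝ) ≃ᵐ ℝ × (Fin l → ℝ) :=
    MeasurableEquiv.piFinSuccAbove (fun _ => ℝ) k with he
  have hp : MeasurePreserving e.symm (volume : Measure (ℝ × (Fin l → ℝ))) volume :=
    (volume_preserving_piFinSuccAbove (fun _ : Fin (l + 1) => ℝ) k).symm
  have hc : ∀ p : ℝ × (Fin l → ℝ), e.symm p = Fin.insertNth k p.1 p.2 := fun p => by
    simp [he, MeasurableEquiv.piFinSuccAbove, Fin.insertNthEquiv]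
  have hI : Integrable (fun p => A.indicator f (e.symm p))
      ((volume : Measure ℝ).prod (volume : Measure (Fin l → ℝ))) :=
    hp.integrable_comp_of_integrable (hf.integrable_indicator h.measurableSet)
  rw [← integral_indicator h.measurableSet, ← hp.integral_comp e.symm.measurableEmbedding,
    Measure.volume_eq_prod, integral_prod_symm _ hI]
  refine integral_nonneg fun y => ?_
  set F : Set ℝ := {t | Fin.insertNth k t y ∈ A} with hF
  have hFc : IsClosed F :=
    h.compact.isClosed.preimage (Continuous.finInsertNth k continuous_id continuous_const)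
  have e1 : ∫ t, A.indicator f (e.symm (t, y)) = ∫ t in F, f (Fin.insertNth k t y) := by
    rw [← integral_indicator hFc.measurableSet]
    refine integral_congr_ae (Eventually.of_forall fun t => ?_)
    show A.indicator f (e.symm (t, y)) = _
    rw [hc]
    simp only [indicator, hF, mem_ofPred_eq]
    congr
  simp only [Pi.zero_apply]
  rw [e1]
  rcases eq_empty_or_nonempty F with hem | hne
  · simp [hem]
  have hb : BddAbove F := ⟨top A k, fun t ht => by simpa using le_top h k ht⟩
  have hL := hFc.csSup_mem hne hb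
  have h0 : ∀ t ∈ F, 0 ≤ t := fun t ht => by simpa using h.nonneg _ ht k
  have hy : ∀ j, 0 ≤ y j := fun j => by simpa using h.nonneg _ hL (k.succAbove j)
  have eF : F = Icc 0 (sSup F) := by
    refine Subset.antisymm (fun t ht => ⟨h0 t ht, le_csSup hb ht⟩) fun t ht => ?_
    refine h.down _ hL _ (fun j => ?_) fun j => ?_
    · refine Fin.succAboveCases k ?_ (fun j => ?_) j
      · simpa using ht.1
      · simpa using hy j
    · refine Fin.succAboveCases k ?_ (fun j => ?_) j
      · simpa using ht.2
      · simp
  rw [eF, integral_Icc_eq_integral_Ioc, ← intervalIntegral.integral_of_le (h0 _ hL)]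
  exact hfib y _ (h0 _ hL)

theorem intervalIntegrable_log_sq {L : ℝ} (hL : 0 ≤ L) :
    IntervalIntegrable (fun t => Real.log t ^ 2) volume 0 L :=
  (intervalIntegrable_iff_integrableOn_Ioc_of_le hL).2
    ((integrableOn_log_sq_Icc L).mono_set Ioc_subset_Icc_self)

theorem integral_log_sq {L : ℝ} (hL : 0 ≤ L) :
    ∫ t in 0..L, Real.log t ^ 2 = L * (Real.log L ^ 2 - 2 * Real.log L + 2) := by
  set G : ℝ → ℝ := fun t =>
    4 * (Real.sqrt t * Real.log (Real.sqrt t)) ^ 2 - 2 * (t * Real.log t) + 2 * t
  have hG : ∀ t, 0 ≤ t → G t = t * (Real.log t ^ 2 - 2 * Real.log t + 2) := fun t ht => by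
    simp only [G, Real.log_sqrt ht, mul_pow, Real.sq_sqrt ht]; ring
  have hc : Continuous G :=
    ((continuous_const.mul ((Real.continuous_mul_log.comp Real.continuous_sqrt).pow 2)).sub
      (continuous_const.mul Real.continuous_mul_log)).add (continuous_const.mul continuous_id)
  have hd : ∀ t ∈ Ioo 0 L, HasDerivAt G (Real.log t ^ 2) t := fun t ht => by
    have h1 : HasDerivAt (fun s => s * (Real.log s ^ 2 - 2 * Real.log s + 2)) (Real.log t ^ 2) t := by
      have hl := Real.hasDerivAt_log ht.1.ne'
      refine ((hasDerivAt_id t).mul (((hl.fun_pow 2).sub (hl.const_mul 2)).add_const 2)).congr_deriv ?_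
      simp
      field_simp [ht.1.ne']
      ring
    refine h1.congr_of_eventuallyEq ?_
    filter_upwards [Ioi_mem_nhds ht.1] with s hs
    exact hG s (le_of_lt hs)
  rw [intervalIntegral.integral_eq_sub_of_hasDerivAt_of_le hL hc.continuousOn hd
    (intervalIntegrable_log_sq hL), hG L hL, hG 0 le_rfl]
  simp

theorem sq_le_logStat_sq {A : Set (Fin m → ℝ)} (h : U.OrthBody A) (b : Fin m → ℝ) (k : Fin m) :
    b k ^ 2 * volume.real A ≤ ∫ x in A, logStat A b x ^ 2 := by
  obtain _ | l := m
  · exact k.elim0
  have hi : IntegrableOn (fun x => logStat A b x ^ 2 - b k ^ 2) A :=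
    (integrableOn_logStat_sq h b).sub (h.integrableOn continuous_const)
  have := integral_nonneg_of_fibre h k hi fun y L hL => by
    set o := -(b k * logMean A k)
      + ∑ j, b (k.succAbove j) * (Real.log (y j) - logMean A (k.succAbove j)) with ho
    have e : ∀ t, logStat A b (Fin.insertNth k t y) ^ 2 - b k ^ 2
        = b k ^ 2 * Real.log t ^ 2 + 2 * b k * o * Real.log t + (o ^ 2 - b k ^ 2) := fun t => by
      rw [logStat, Fin.sum_univ_succAbove _ k]
      simp only [Fin.insertNth_apply_same, Fin.insertNth_apply_succAbove, ho]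
      ring
    simp only [e]
    have hl : IntervalIntegrable Real.log volume 0 L := intervalIntegral.intervalIntegrable_log'
    rw [intervalIntegral.integral_add (((intervalIntegrable_log_sq hL).const_mul _).add
        (hl.const_mul _)) intervalIntegrable_const,
      intervalIntegral.integral_add ((intervalIntegrable_log_sq hL).const_mul _) (hl.const_mul _),
      intervalIntegral.integral_const_mul, intervalIntegral.integral_const_mul,
      integral_log_sq hL, integral_log, intervalIntegral.integral_const]
    simp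
    nlinarith [mul_nonneg hL (sq_nonneg (b k * (Real.log L - 1) + o))]
  rw [integral_sub (integrableOn_logStat_sq h b) (h.integrableOn continuous_const),
    setIntegral_const, smul_eq_mul] at this
  linarith

/-- The covariance of the logarithms is at least `2 / (m + 1)`. -/
theorem logStat_sq_lower {A : Set (Fin m → ℝ)} (h : U.OrthBody A) (b : Fin m → ℝ) :
    2 / ((m : ℝ) + 1) * (∑ j, b j ^ 2) * volume.real A ≤ ∫ x in A, logStat A b x ^ 2 := by
  have hV := h.volume_pos
  set C : Matrix (Fin m) (Fin m) ℝ := Matrix.of fun j k =>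
    (∫ x in A, (Real.log (x j) - logMean A j) * (Real.log (x k) - logMean A k)) / volume.real A
    with hC
  have hq : ∀ c : Fin m → ℝ, c ⬝ᵥ C *ᵥ c = (∫ x in A, logStat A c x ^ 2) / volume.real A := by
    intro c
    simp only [logStat_sq_eq]
    rw [integral_finsetSum _ fun j _ => integrable_finsetSum _ fun k _ =>
      (integrableOn_cl_mul h j k).const_mul _, Finset.sum_div]
    simp only [dotProduct, mulVec, hC, Matrix.of_apply, Finset.mul_sum]
    refine Finset.sum_congr rfl fun j _ => ?_
    rw [integral_finsetSum _ fun k _ => (integrableOn_cl_mul h j k).const_mul _, Finset.sum_div]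
    refine Finset.sum_congr rfl fun k _ => ?_
    rw [integral_const_mul]
    ring
  have hd : ∀ c : Fin m → ℝ, c ⬝ᵥ c = ∑ j, c j ^ 2 := fun c => by simp [dotProduct, pow_two]
  have := quad_lower (C := C) (Matrix.IsSymm.ext fun j k => by simp [hC, mul_comm])
    (fun c => by rw [hq, hd, div_le_iff₀ hV]; exact logStat_sq_le_two h c)
    (fun c k => by rw [hq, le_div_iff₀ hV]; exact sq_le_logStat_sq h c k) b
  rwa [hq, hd, le_div_iff₀ hV] at this

end Vale.P254.E
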