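import Mathlib
import Vale.Agent.P254.E.LambdaVar

/-!
Second-order Jensen for the weighted integrals, uniform between two boxes, and the resulting gain
along the slices with `ρ` arbitrarily close to `2 / (m + 1)`.
-/

namespace Vale.P254.E

open MeasureTheory Set Filter Topology

variable {m : ℕ}

theorem exp_ge_quadratic_sub (z : ℝ) : 1 + z + z ^ 2 / 2 - |z| ^ 3 ≤ Real.exp z := by
  rcases le_or_gt |z| 1 with h | h
  · have h1 := Real.exp_bound h (n := 3) (by norm_num)
    norm_num [Finset.sum_range_succ, Nat.factorial] at h1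
    have h2 := (abs_le.1 h1).1
    have h3 : 0 ≤ |z| ^ 3 := by positivity
    linarith
  · rcases le_total 0 z with h0 | h0
    · have := Real.quadratic_le_exp_of_nonneg h0
      have h3 : 0 ≤ |z| ^ 3 := by positivity
      linarith
    · rw [abs_of_nonpos h0] at h ⊢
      nlinarith [Real.exp_pos z, mul_le_mul_of_nonneg_left h.le (sq_nonneg z), sq_nonneg z]

theorem integrableOn_abs_log_cube_Icc (c R : ℝ) :
    IntegrableOn (fun x => (|Real.log x| + c) ^ 3) (Icc 0 R) := by
  have hm : Measurable (fun x : ℝ => (|Real.log x| + c) ^ 3) := by fun_prop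
  refine (integrableOn_Icc_iff_integrableOn_Ioc).2 ?_
  have h2 : IntegrableOn (fun x : ℝ => 4 * ((6 ^ 3) * x ^ (-(1 / 2) : ℝ))
      + 4 * ((|R| + |c|) ^ 3)) (Ioc 0 R) := by
    rcases le_or_gt R 0 with hR | hR
    · simp [hR]
    · exact (((intervalIntegral.intervalIntegrable_rpow' (a := 0) (b := R)
        (by norm_num : (-1 : ℝ) < -(1 / 2))).1.const_mul _).const_mul _).add
          (integrableOn_const measure_Ioc_lt_top.ne)
  refine Integrable.mono' h2 hm.aestronglyMeasurable ?_
  rw [ae_restrict_iff' measurableSet_Ioc]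
  refine Eventually.of_forall fun x hx => ?_
  have hy : 0 < x ^ (-(1 / 6) : ℝ) := Real.rpow_pos_of_pos hx.1 _
  have hl : |Real.log x| ≤ 6 * x ^ (-(1 / 6) : ℝ) + |R| := by
    have h1 := Real.log_le_sub_one_of_pos hy
    rw [Real.log_rpow hx.1] at h1
    have h3 := Real.log_le_sub_one_of_pos hx.1
    have := le_abs_self R
    have := abs_nonneg R
    rw [abs_le]
    constructor <;> linarith [hx.2]
  have e : x ^ (-(1 / 2) : ℝ) = (x ^ (-(1 / 6) : ℝ)) ^ 3 := by
    rw [← Real.rpow_natCast, ← Real.rpow_mul hx.1.le]; norm_num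
  have h4 : |(|Real.log x| + c)| ≤ 6 * x ^ (-(1 / 6) : ℝ) + (|R| + |c|) := by
    refine (abs_add_le _ _).trans ?_
    rw [abs_abs]; linarith
  rw [Real.norm_eq_abs, abs_pow, e]
  refine (pow_le_pow_left₀ (abs_nonneg _) h4 3).trans ?_
  have hP : 0 ≤ |R| + |c| := by positivity
  generalize |R| + |c| = q at hP ⊢
  have hw : 0 ≤ 6 * x ^ (-(1 / 6) : ℝ) := by positivity
  rw [show (6 : ℝ) ^ 3 * (x ^ (-(1 / 6) : ℝ)) ^ 3 = (6 * x ^ (-(1 / 6) : ℝ)) ^ 3 by ring]
  generalize 6 * x ^ (-(1 / 6) : ℝ) = w at hw ⊢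
  nlinarith [mul_nonneg (add_nonneg hw hP) (sq_nonneg (w - q))]

theorem orthBody_box {R : ℝ} (hR : 0 < R) : U.OrthBody (Icc (0 : Fin m → ℝ) fun _ => R) where
  compact := isCompact_Icc
  convex := convex_Icc _ _
  nonneg := fun _ hx => hx.1
  down := fun _ hx _ hy0 hy => ⟨hy0, hy.trans hx.2⟩
  int_ne := by
    rw [← pi_univ_Icc, interior_pi_set finite_univ]
    refine univ_pi_nonempty_iff.2 fun l => ?_
    rw [interior_Icc]
    exact nonempty_Ioo.2 hR

/-- Second-order Jensen, uniform over the bodies between two boxes. -/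
theorem exists_wt_lower (m : ℕ) {δ R : ℝ} (hδ : 0 < δ) (hR : δ ≤ R) {ε : ℝ} (hε : 0 < ε)
    (hε1 : ε ≤ 1) :
    ∃ d : ℝ, 0 < d ∧ ∀ A : Set (Fin m → ℝ), U.OrthBody A → Icc (0 : Fin m → ℝ) (fun _ => δ) ⊆ A →
      A ⊆ Icc 0 (fun _ => R) → ∀ u : Fin m → ℝ, (∀ j, |u j| ≤ d) →
        ENNReal.ofReal (volume.real A * Real.exp ((∑ j, u j * (logMean A j - Real.log (1 + u j)))
            + (1 - ε) / ((m : ℝ) + 1) * ∑ j, u j ^ 2))
          ≤ ∫⁻ x in A ∩ pos m, ENNReal.ofReal (wt (fun j => 1 + u j) x) := by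
  have hR0 : 0 < R := hδ.trans_le hR
  have hBx := orthBody_box (m := m) hR0
  set V₀ := volume.real (Icc (0 : Fin m → ℝ) fun _ => δ)
  have hV₀ : 0 < V₀ := (orthBody_box (m := m) hδ).volume_pos
  set E₀ := (∑ j, ∫ x in Icc (0 : Fin m → ℝ) fun _ => R, |Real.log (x j)|) / V₀
  set Φ : (Fin m → ℝ) → ℝ := fun x => (m : ℝ) ^ 2 * ∑ j, (|Real.log (x j)| + E₀) ^ 3
  have hΦ : IntegrableOn Φ (Icc (0 : Fin m → ℝ) fun _ => R) :=
    (integrable_finsetSum _ fun j _ => integrableOn_coord hBx j
      (f := fun t => (|Real.log t| + E₀) ^ 3) fun R' => integrableOn_abs_log_cube_Icc E₀ R').const_mul _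
  set M := (∫ x in Icc (0 : Fin m → ℝ) fun _ => R, Φ x) / V₀
  have hE0 : 0 ≤ E₀ :=
    div_nonneg (Finset.sum_nonneg fun j _ => integral_nonneg fun x => abs_nonneg _) hV₀.le
  have hΦ0 : ∀ x, 0 ≤ Φ x := fun x => by positivity
  have hM0 : 0 ≤ M := div_nonneg (integral_nonneg hΦ0) hV₀.le
  set k : ℝ := ε / (2 * ((m : ℝ) + 1))
  refine ⟨min (min (1 / 2) (k / (M + 1))) (k / (m + 1)), by positivity, ?_⟩
  intro A h hin hout u hu
  have hk : 0 < k := by positivity
  have hu12 : ∀ j, |u j| ≤ 1 / 2 := fun j => (hu j).trans ((min_le_left _ _).trans (min_le_left _ _))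
  have hV := h.volume_pos
  have hVV : V₀ ≤ volume.real A := measureReal_mono hin h.compact.measure_lt_top.ne
  have hE : ∀ j, |logMean A j| ≤ E₀ := fun j => by
    rw [logMean, abs_div, abs_of_pos hV]
    refine (div_le_div₀ (Finset.sum_nonneg fun l _ => integral_nonneg fun x => abs_nonneg _)
      ?_ hV₀ hVV)
    refine (abs_integral_le_integral_abs).trans ?_
    refine (setIntegral_mono_set ((integrableOn_log hBx j).abs) (Eventually.of_forall fun x =>
      abs_nonneg _) hout.eventuallyLE).trans ?_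
    exact Finset.single_le_sum (f := fun l => ∫ x in Icc (0 : Fin m → ℝ) fun _ => R,
      |Real.log (x l)|) (fun l _ => integral_nonneg fun x => abs_nonneg _) (Finset.mem_univ j)
  set s := ∑ j, u j ^ 2
  have hs0 : 0 ≤ s := Finset.sum_nonneg fun j _ => sq_nonneg _
  set w := ∑ j, |u j| ^ 3
  have hcube : ∀ x, |logStat A u x| ^ 3 ≤ w * Φ x := fun x => by
    have h1 : |logStat A u x| ≤ ∑ j, |u j| * (|Real.log (x j)| + E₀) := by
      refine (Finset.abs_sum_le_sum_abs _ _).trans (Finset.sum_le_sum fun j _ => ?_)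
      rw [abs_mul]
      exact mul_le_mul_of_nonneg_left ((abs_sub _ _).trans (by linarith [hE j])) (abs_nonneg _)
    refine (pow_le_pow_left₀ (abs_nonneg _) h1 3).trans ?_
    have h2 := pow_sum_le_card_mul_sum_pow (s := (Finset.univ : Finset (Fin m)))
      (f := fun j => |u j| * (|Real.log (x j)| + E₀)) (fun j _ => by positivity) 2
    simp only [Finset.card_univ, Fintype.card_fin] at h2
    refine h2.trans ?_
    simp only [Φ]
    rw [← mul_assoc, mul_comm w, mul_assoc]
    refine mul_le_mul_of_nonneg_left ?_ (by positivity)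
    rw [Finset.mul_sum]
    refine Finset.sum_le_sum fun j _ => ?_
    rw [mul_pow]
    exact mul_le_mul_of_nonneg_right
      (Finset.single_le_sum (f := fun l => |u l| ^ 3) (fun l _ => pow_nonneg (abs_nonneg (u l)) 3)
        (Finset.mem_univ j))
      (by positivity)
  have hZ := integrableOn_logStat h u
  have hQ := integrableOn_logStat_sq h u
  have hΦA : IntegrableOn Φ A := hΦ.mono_set hout
  set f : (Fin m → ℝ) → ℝ := fun x => Real.exp (∑ j, u j * (logMean A j - Real.log (1 + u j)))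
    * (1 + logStat A u x + logStat A u x ^ 2 / 2 - w * Φ x)
  have hg : IntegrableOn (fun x => 1 + logStat A u x + logStat A u x ^ 2 / 2 - w * Φ x) A :=
    (((h.integrableOn continuous_const).fun_add hZ).fun_add (hQ.div_const 2)).sub (hΦA.const_mul w)
  have hf : IntegrableOn f A := hg.const_mul _
  have hpt : ∀ x ∈ A ∩ pos m, f x ≤ wt (fun j => 1 + u j) x := fun x hx => by
    have ha : ∀ j, 0 < 1 + u j := fun j => by linarith [neg_abs_le (u j), hu12 j]
    have e : wt (fun j => 1 + u j) x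
        = Real.exp (∑ j, u j * (logMean A j - Real.log (1 + u j)))
          * Real.exp (logStat A u x) := by
      rw [← Real.exp_add, wt, logStat, ← Finset.sum_add_distrib, Real.exp_sum]
      refine Finset.prod_congr rfl fun j _ => ?_
      rw [Real.rpow_def_of_pos (div_pos (hx.2 j) (ha j)), Real.log_div (hx.2 j).ne' (ha j).ne']
      ring_nf
    rw [e]
    refine mul_le_mul_of_nonneg_left ?_ (Real.exp_pos _).le
    linarith [exp_ge_quadratic_sub (logStat A u x), hcube x]
  have eA := ae_inter_pos h.nonneg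
  have hfS : IntegrableOn f (A ∩ pos m) := hf.mono_set inter_subset_left
  have hle : ENNReal.ofReal (∫ x in A, f x)
      ≤ ∫⁻ x in A ∩ pos m, ENNReal.ofReal (wt (fun j => 1 + u j) x) := by
    rw [← setIntegral_congr_set eA]
    calc ENNReal.ofReal (∫ x in A ∩ pos m, f x)
        ≤ ENNReal.ofReal (∫ x in A ∩ pos m, max (f x) 0) :=
          ENNReal.ofReal_le_ofReal (integral_mono hfS hfS.pos_part fun x => le_max_left _ _)
      _ = ∫⁻ x in A ∩ pos m, ENNReal.ofReal (max (f x) 0) :=
          ofReal_integral_eq_lintegral_ofReal hfS.pos_part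
            (Eventually.of_forall fun x => le_max_right _ _)
      _ ≤ _ := setLIntegral_mono' (h.measurableSet.inter measurableSet_pos) fun x hx =>
          ENNReal.ofReal_le_ofReal (max_le (hpt x hx) (Finset.prod_nonneg fun j _ =>
            Real.rpow_nonneg (div_nonneg (hx.2 j).le (by linarith [neg_abs_le (u j), hu12 j])) _))
  refine le_trans (ENNReal.ofReal_le_ofReal ?_) hle
  have hval : ∫ x in A, f x = Real.exp (∑ j, u j * (logMean A j - Real.log (1 + u j)))
      * (volume.real A + (∫ x in A, logStat A u x ^ 2) / 2 - w * ∫ x in A, Φ x) := by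
    simp only [f]
    rw [integral_const_mul, integral_sub (((h.integrableOn continuous_const).fun_add hZ).fun_add
        (hQ.div_const 2)) (hΦA.const_mul w),
      integral_add ((h.integrableOn continuous_const).fun_add hZ) (hQ.div_const 2),
      integral_add (h.integrableOn continuous_const) hZ, integral_logStat h u, integral_div,
      integral_const_mul, setIntegral_const, smul_eq_mul, mul_one, add_zero]
  rw [hval, Real.exp_add, mul_left_comm]
  refine mul_le_mul_of_nonneg_left ?_ (Real.exp_pos _).le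
  have hw : w ≤ min (k / (M + 1)) (k / (m + 1)) * s := by
    rw [Finset.mul_sum]
    refine Finset.sum_le_sum fun j _ => ?_
    rw [pow_succ' |u j| 2, sq_abs]
    refine mul_le_mul_of_nonneg_right ((hu j).trans ?_) (sq_nonneg _)
    exact le_min ((min_le_left _ _).trans (min_le_right _ _)) (min_le_right _ _)
  have hw0 : 0 ≤ w := Finset.sum_nonneg fun j _ => by positivity
  have hI : w * (∫ x in A, Φ x) ≤ k * s * volume.real A := by
    have h1 : ∫ x in A, Φ x ≤ M * V₀ := by
      rw [div_mul_cancel₀ _ hV₀.ne']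
      exact setIntegral_mono_set hΦ (Eventually.of_forall hΦ0) hout.eventuallyLE
    have h2 : w * (M + 1) ≤ k * s := by
      have := mul_le_mul_of_nonneg_right (hw.trans (mul_le_mul_of_nonneg_right (min_le_left _ _) hs0))
        (by linarith : (0 : ℝ) ≤ M + 1)
      refine this.trans_eq ?_
      field_simp
    calc w * (∫ x in A, Φ x) ≤ w * (M * V₀) := mul_le_mul_of_nonneg_left h1 hw0
      _ = w * M * V₀ := by ring
      _ ≤ k * s * V₀ := mul_le_mul_of_nonneg_right (by nlinarith) hV₀.le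
      _ ≤ k * s * volume.real A := mul_le_mul_of_nonneg_left hVV (by positivity)
  have hQl := logStat_sq_lower h u
  set a := (1 - ε) / ((m : ℝ) + 1) * s with ha
  have ha0 : 0 ≤ a := by
    have : 0 ≤ 1 - ε := by linarith
    positivity
  have hk1 : k ≤ 1 / (2 * ((m : ℝ) + 1)) := by
    simp only [k]; gcongr
  have hsd : s ≤ k := by
    have : ∀ j, u j ^ 2 ≤ k / (m + 1) := fun j => by
      rw [← sq_abs, pow_two]
      exact le_trans (mul_le_of_le_one_right (abs_nonneg _) (by linarith [hu12 j]))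
        ((hu j).trans (min_le_right _ _))
    refine (Finset.sum_le_sum fun j _ => this j).trans ?_
    simp
    rw [mul_div_assoc', div_le_iff₀ (by positivity)]
    nlinarith
  -- `exp a ≤ 1 + a + a²`
  have hs1 : s ≤ 1 := by
    refine hsd.trans (hk1.trans ?_)
    rw [div_le_one (by positivity)]
    linarith [(Nat.cast_nonneg m : (0 : ℝ) ≤ m)]
  have ha1 : a ≤ 1 := by
    refine le_trans (mul_le_mul ?_ hs1 hs0 zero_le_one) (by norm_num)
    rw [div_le_one (by positivity)]
    linarith [(Nat.cast_nonneg m : (0 : ℝ) ≤ m)]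
  have hexp : Real.exp a ≤ 1 + a + a ^ 2 := by
    have h1 := (abs_le.1 (Real.abs_exp_sub_one_sub_id_le (x := a) (by rw [abs_of_nonneg ha0]; exact ha1))).2
    linarith
  have haa : a ^ 2 ≤ k * s := by
    have h1 : a ≤ s := by
      refine mul_le_of_le_one_left hs0 ?_
      rw [div_le_one (by positivity)]
      linarith [(Nat.cast_nonneg m : (0 : ℝ) ≤ m)]
    rw [pow_two]
    exact mul_le_mul (h1.trans hsd) h1 ha0 hk.le
  have key : a + k * s + k * s ≤ 1 / ((m : ℝ) + 1) * s := by
    rw [ha]; simp only [k]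
    rw [show (1 - ε) / ((m : ℝ) + 1) * s + ε / (2 * ((m : ℝ) + 1)) * s
      + ε / (2 * ((m : ℝ) + 1)) * s = 1 / ((m : ℝ) + 1) * s by field_simp; ring]
  rw [show 2 / ((m : ℝ) + 1) = 2 * (1 / ((m : ℝ) + 1)) by ring] at hQl
  nlinarith [mul_le_mul_of_nonneg_left hexp hV.le, mul_le_mul_of_nonneg_left key hV.le,
    mul_le_mul_of_nonneg_left haa hV.le]

/-- The gain along slices, locally uniformly, with `ρ` close to `2 / (m + 1)`. -/
theorem log_mid_lambda {n : ℕ} {K : Set (Fin (n + 1) → ℝ)} (h : U.OrthBody K) (i : Fin (n + 1))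
    {t₀ : ℝ} (ht₀ : t₀ ∈ Ico 0 (top K i)) {ρ : ℝ} (hρ : ρ < 2 / ((n : ℝ) + 1)) :
    ∃ d : ℝ, 0 < d ∧ ∀ s ∈ Icc 0 t₀, ∀ t ∈ Icc 0 t₀, ∀ u : Fin n → ℝ, (∀ j, |u j| ≤ d) →
      ∑ j, (u j * (slMean K i j t - slMean K i j s) / 2
          - u j / 2 * Real.log ((1 + u j) / (1 - u j))) + ρ / 2 * ∑ j, u j ^ 2
        ≤ Real.log (margin K i ((s + t) / 2))
          - (Real.log (margin K i s) + Real.log (margin K i t)) / 2 := by
  obtain ⟨δ, -, hδ, -, hin, -⟩ := (orthBody_slice h i ht₀).exists_boxes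
  obtain ⟨δ₀, R, -, -, -, hout⟩ := (orthBody_slice h i ⟨le_rfl, top_pos h i⟩).exists_boxes
  set ε : ℝ := min 1 (1 - ρ * ((n : ℝ) + 1) / 2) with hεd
  have hε : 0 < ε := by
    refine lt_min one_pos ?_
    rw [lt_div_iff₀ (by positivity)] at hρ
    linarith
  obtain ⟨d, hd0, hd⟩ := exists_wt_lower n hδ (le_max_right R δ) hε (min_le_left _ _)
  refine ⟨min d (1 / 2), by positivity, fun s hs t ht u hu => ?_⟩
  have hsI : s ∈ Ico 0 (top K i) := ⟨hs.1, hs.2.trans_lt ht₀.2⟩
  have htI : t ∈ Ico 0 (top K i) := ⟨ht.1, ht.2.trans_lt ht₀.2⟩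
  have hm : (s + t) / 2 ∈ Ico 0 (top K i) :=
    ⟨by linarith [hs.1, ht.1], by linarith [hsI.2, htI.2]⟩
  have hA := orthBody_slice h i htI
  have hB := orthBody_slice h i hsI
  have hC := orthBody_slice h i hm
  have hu' : ∀ j, |u j| < 1 := fun j => ((hu j).trans (min_le_right _ _)).trans_lt (by norm_num)
  have hbox : ∀ r ∈ Icc 0 t₀, slice K i r ⊆ Icc 0 (fun _ => max R δ) := fun r hr =>
    ((slice_anti h i le_rfl hr.1).trans hout).trans (Icc_subset_Icc_right fun _ => le_max_left _ _)
  have h1 := hd _ hA (hin.trans (slice_anti h i ht.1 ht.2)) (hbox t ht) u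
    fun j => (hu j).trans (min_le_left _ _)
  have h2 := hd _ hB (hin.trans (slice_anti h i hs.1 hs.2)) (hbox s hs) (fun j => -u j)
    fun j => by rw [abs_neg]; exact (hu j).trans (min_le_left _ _)
  have ha : ∀ j, 0 < 1 + u j := fun j => by linarith [neg_abs_le (u j), hu' j]
  have hb : ∀ j, 0 < 1 - u j := fun j => by linarith [le_abs_self (u j), hu' j]
  simp only [← sub_eq_add_neg, neg_sq] at h2
  have h3 := (mul_le_mul' h1 h2).trans (wt_mul_le (hA.measurableSet.inter measurableSet_pos)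
    (hB.measurableSet.inter measurableSet_pos) hC.measurableSet inter_subset_right
    inter_subset_right (fun x hx y hy z hz hle => by
      have := slice_mid h i (show (0 : ℝ) ≤ 1 / 2 by norm_num) (by norm_num) hx.1 hy.1
        (fun l => (hz l).le) fun l => by
          simp only [Pi.add_apply, Pi.smul_apply, smul_eq_mul]
          linarith [hle l]
      rwa [show (1 - 1 / 2) * t + 1 / 2 * s = (s + t) / 2 by ring] at this) ha hb
      fun j => by ring)
  have hVA := hA.volume_pos
  have hVB := hB.volume_pos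
  rw [← ENNReal.ofReal_mul (by positivity),
    ← ENNReal.ofReal_toReal (ENNReal.pow_ne_top (volume_slice_ne_top h i _) (n := 2)),
    ENNReal.ofReal_le_ofReal_iff ENNReal.toReal_nonneg, ENNReal.toReal_pow,
    ← measureReal_def] at h3
  have h4 := Real.log_le_log (by positivity) h3
  rw [Real.log_mul (by positivity) (by positivity), Real.log_mul hVA.ne' (Real.exp_pos _).ne',
    Real.log_mul hVB.ne' (Real.exp_pos _).ne', Real.log_exp, Real.log_exp, Real.log_pow] at h4
  push_cast at h4
  have hl : ∀ r ∈ Ico 0 (top K i),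
      Real.log (margin K i r) = Real.log (volume.real (slice K i r)) - Real.log (volume.real K) :=
    fun r hr => Real.log_div (orthBody_slice h i hr).volume_pos.ne' h.volume_pos.ne'
  rw [hl _ hm, hl _ hsI, hl _ htI]
  have e : ∑ j, (u j * (slMean K i j t - slMean K i j s) / 2
      - u j / 2 * Real.log ((1 + u j) / (1 - u j)))
      = ((∑ j, u j * (logMean (slice K i t) j - Real.log (1 + u j)))
        + ∑ j, -u j * (logMean (slice K i s) j - Real.log (1 - u j))) / 2 := by
    rw [← Finset.sum_add_distrib, Finset.sum_div]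
    refine Finset.sum_congr rfl fun j _ => ?_
    rw [Real.log_div (ha j).ne' (hb j).ne']
    simp only [slMean]
    ring
  have hρε : ρ / 2 * ∑ j, u j ^ 2 ≤ (1 - ε) / ((n : ℝ) + 1) * ∑ j, u j ^ 2 := by
    refine mul_le_mul_of_nonneg_right ?_ (Finset.sum_nonneg fun j _ => sq_nonneg _)
    rw [le_div_iff₀ (by positivity)]
    have := min_le_right 1 (1 - ρ * ((n : ℝ) + 1) / 2)
    rw [← hεd] at this
    linarith
  rw [e]
  linarith

end Vale.P254.E
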