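import Mathlib
import Vale.Agent.P254.E.Defs

/-!
From the gain along a path to the loss: the squared increments of the slice means are at most
`(2 - ρ)` times the length times the increment of the slope of `- log g`.
-/

namespace Vale.P254.E

open MeasureTheory Set Filter Topology

variable {m : ℕ}

/-- A gain path with an additional quadratic term `ρ`. -/
def GainQuad (g : ℝ → ℝ) (T : ℝ) (e : Fin m → ℝ → ℝ) (ρ : ℝ) : Prop :=
  ∀ s ∈ Ico 0 T, ∀ t ∈ Ico 0 T, ∀ u : Fin m → ℝ, (∀ j, |u j| < 1) →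
    ∑ j, (u j * (e j t - e j s) / 2 - u j / 2 * Real.log ((1 + u j) / (1 - u j)))
        + ρ / 2 * ∑ j, u j ^ 2
      ≤ Real.log (g ((s + t) / 2)) - (Real.log (g s) + Real.log (g t)) / 2

theorem gainQuad_zero {g : ℝ → ℝ} {T : ℝ} {e : Fin m → ℝ → ℝ} (h : GainPath g T e) :
    GainQuad g T e 0 := fun s hs t ht u hu => by simpa using h s hs t ht u hu

/-- The quadratic gain for small weights, locally uniformly in the heights. -/
def GainLoc (g : ℝ → ℝ) (T : ℝ) (e : Fin m → ℝ → ℝ) (ρ : ℝ) : Prop :=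
  ∀ t₀, 0 < t₀ → t₀ < T → ∃ d₀ : ℝ, 0 < d₀ ∧ ∀ s ∈ Icc 0 t₀, ∀ t ∈ Icc 0 t₀, ∀ u : Fin m → ℝ,
    (∀ j, |u j| ≤ d₀) →
    ∑ j, (u j * (e j t - e j s) / 2 - u j / 2 * Real.log ((1 + u j) / (1 - u j)))
        + ρ / 2 * ∑ j, u j ^ 2
      ≤ Real.log (g ((s + t) / 2)) - (Real.log (g s) + Real.log (g t)) / 2

theorem GainQuad.loc {g : ℝ → ℝ} {T ρ : ℝ} {e : Fin m → ℝ → ℝ} (h : GainQuad g T e ρ) :
    GainLoc g T e ρ := fun _ _ ht₀ => ⟨1 / 2, one_half_pos, fun s hs t ht u hu =>
  h s ⟨hs.1, hs.2.trans_lt ht₀⟩ t ⟨ht.1, ht.2.trans_lt ht₀⟩ u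
    fun j => (hu j).trans_lt one_half_lt_one⟩

theorem log_ratio_le {u d : ℝ} (hu : |u| ≤ d) (hd : d < 1) :
    u / 2 * Real.log ((1 + u) / (1 - u)) ≤ u ^ 2 / (1 - d) := by
  obtain ⟨h1, h2⟩ := abs_le.1 hu
  rcases le_total 0 u with h0 | h0
  · calc u / 2 * Real.log ((1 + u) / (1 - u))
        ≤ u / 2 * ((1 + u) / (1 - u) - 1) := mul_le_mul_of_nonneg_left
          (Real.log_le_sub_one_of_pos (div_pos (by linarith) (by linarith))) (by linarith)
      _ = u ^ 2 / (1 - u) := by
          have : (1 - u) ≠ 0 := by linarith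
          field_simp; ring
      _ ≤ _ := div_le_div_of_nonneg_left (sq_nonneg u) (by linarith) (by linarith)
  · calc u / 2 * Real.log ((1 + u) / (1 - u))
        = -u / 2 * Real.log ((1 - u) / (1 + u)) := by
          rw [← inv_div (1 - u) (1 + u), Real.log_inv]; ring
      _ ≤ -u / 2 * ((1 - u) / (1 + u) - 1) := mul_le_mul_of_nonneg_left
          (Real.log_le_sub_one_of_pos (div_pos (by linarith) (by linarith))) (by linarith)
      _ = u ^ 2 / (1 + u) := by
          have : (1 + u) ≠ 0 := by linarith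
          field_simp; ring
      _ ≤ _ := div_le_div_of_nonneg_left (sq_nonneg u) (by linarith) (by linarith)

/-- The midpoint defect. -/
noncomputable def defect (g : ℝ → ℝ) (s t : ℝ) : ℝ :=
  Real.log (g ((s + t) / 2)) - (Real.log (g s) + Real.log (g t)) / 2

section
variable {g : ℝ → ℝ} {T ρ : ℝ} {e : Fin m → ℝ → ℝ}

theorem defect_nonneg (h : GainLoc g T e ρ) {s t : ℝ} (hs : s ∈ Ico 0 T) (ht : t ∈ Ico 0 T) :
    0 ≤ defect g s t := by
  have hT : 0 < T := hs.1.trans_lt hs.2
  obtain ⟨d₀, hd₀, h'⟩ := h (max (max s t) (T / 2)) (lt_max_of_lt_right (half_pos hT))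
    (max_lt (max_lt hs.2 ht.2) (half_lt_self hT))
  simpa [defect] using h' s ⟨hs.1, (le_max_left _ _).trans (le_max_left _ _)⟩ t
    ⟨ht.1, (le_max_right _ _).trans (le_max_left _ _)⟩ 0 (fun j => by simpa using hd₀.le)

/-- For a small defect the increments are controlled by it. -/
theorem sum_sq_le_defect {s t d : ℝ}
    (h : ∀ u : Fin m → ℝ, (∀ j, |u j| ≤ 3 * d) →
      ∑ j, (u j * (e j t - e j s) / 2 - u j / 2 * Real.log ((1 + u j) / (1 - u j)))
          + ρ / 2 * ∑ j, u j ^ 2
        ≤ Real.log (g ((s + t) / 2)) - (Real.log (g s) + Real.log (g t)) / 2)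
    (hρ0 : 0 ≤ ρ) (hρ1 : ρ ≤ 1) (hd0 : 0 < d) (hd : d ≤ 1 / 6)
    (hJ : defect g s t ≤ d ^ 2) :
    ∑ j, (e j t - e j s) ^ 2 ≤ 16 * (1 / (1 - 3 * d) - ρ / 2) * defect g s t := by
  set D : Fin m → ℝ := fun j => e j t - e j s with hD
  set c := 1 / (1 - 3 * d) - ρ / 2 with hc
  have hc1 : 1 ≤ 1 / (1 - 3 * d) := by
    rw [le_div_iff₀ (by linarith)]; linarith
  have hc0 : 1 / 2 ≤ c := by rw [hc]; linarith
  have hone : ∀ j, |D j| ≤ 5 * d := by
    intro j
    set v : ℝ := if 0 ≤ D j then d else -d with hv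
    have hva : |v| = d := by
      rw [hv]; split_ifs <;> simp [abs_of_pos hd0]
    have := h (Pi.single j v) fun k => by
      rcases eq_or_ne k j with rfl | hk
      · rw [Pi.single_eq_same, hva]; linarith
      · simp [Pi.single_eq_of_ne hk, hd0.le]
    rw [Finset.sum_eq_single_of_mem j (Finset.mem_univ j) (fun k _ hk => by
        simp [Pi.single_eq_of_ne hk]), Finset.sum_eq_single_of_mem j (Finset.mem_univ j)
        (fun k _ hk => by simp [Pi.single_eq_of_ne hk]), Pi.single_eq_same] at this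
    have h2 := log_ratio_le hva.le (show d < 1 by linarith)
    have h3 : v * D j = d * |D j| := by
      rw [hv]; split_ifs with h0
      · rw [abs_of_nonneg h0]
      · rw [abs_of_neg (lt_of_not_ge h0)]; ring
    have h4 : v ^ 2 = d ^ 2 := by rw [← sq_abs, hva]
    have h5 : d ^ 2 / (1 - d) ≤ 3 / 2 * d ^ 2 := by
      rw [div_le_iff₀ (by linarith)]; nlinarith
    have h6 : 0 ≤ ρ / 2 * v ^ 2 := by positivity
    rw [h4] at h2
    have : d * |D j| ≤ d * (5 * d) := by
      rw [← h3]
      simp only [hD, defect] at *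
      nlinarith
    exact le_of_mul_le_mul_left this hd0
  have hu : ∀ j, |D j / (4 * c)| ≤ 3 * d := fun j => by
    rw [abs_div, abs_of_pos (by linarith : (0 : ℝ) < 4 * c), div_le_iff₀ (by linarith)]
    nlinarith [hone j]
  have := h (fun j => D j / (4 * c)) hu
  have hsum : (∑ j, D j ^ 2) / (16 * c) ≤ defect g s t := by
    refine le_trans ?_ this
    rw [Finset.sum_div, Finset.mul_sum, ← Finset.sum_add_distrib]
    refine Finset.sum_le_sum fun j _ => ?_
    have h2 := log_ratio_le (hu j) (show 3 * d < 1 by linarith)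
    have e1 : D j ^ 2 / (16 * c) = D j / (4 * c) * D j / 2
        - c * (D j / (4 * c)) ^ 2 := by field_simp; ring
    rw [e1, hc]
    simp only [hD] at h2 ⊢
    have e2 : ∀ x : ℝ, x ^ 2 / (1 - 3 * d) = 1 / (1 - 3 * d) * x ^ 2 := fun x => by ring
    rw [e2] at h2
    linarith
  rw [div_le_iff₀ (by linarith)] at hsum
  linarith

/-- Telescoping of second differences on an equally spaced grid. -/
theorem sum_second_diff (f : ℕ → ℝ) (N : ℕ) :
    ∑ l ∈ Finset.range N, ((f l + f (l + 2)) / 2 - f (l + 1))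
      = ((f (N + 1) - f N) - (f 1 - f 0)) / 2 := by
  induction N with
  | zero => simp
  | succ N ih => rw [Finset.sum_range_succ, ih]; ring

theorem sum_even_odd (f : ℕ → ℝ) (N : ℕ) :
    ∑ i ∈ Finset.range N, (f (2 * i) + f (2 * i + 1)) = ∑ l ∈ Finset.range (2 * N), f l := by
  induction N with
  | zero => simp
  | succ N ih =>
    rw [Finset.sum_range_succ, ih, show 2 * (N + 1) = 2 * N + 1 + 1 by ring,
      Finset.sum_range_succ, Finset.sum_range_succ]
    ring

theorem slope_le {f : ℝ → ℝ} (hf : ConcaveOn ℝ (Ico 0 T) f) {x y x' y' : ℝ} (hx : x ∈ Ico 0 T)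
    (hy' : y' ∈ Ico 0 T) (hxy : x < y) (hxx : x ≤ x') (hyy : y ≤ y') (hxy' : x' < y') :
    (f y' - f x') / (y' - x') ≤ (f y - f x) / (y - x) := by
  have hy : y ∈ Ico 0 T := ⟨hx.1.trans hxy.le, hyy.trans_lt hy'.2⟩
  have hx' : x' ∈ Ico 0 T := ⟨hx.1.trans hxx, hxy'.trans hy'.2⟩
  have h1 : (f y' - f x) / (y' - x) ≤ (f y - f x) / (y - x) := by
    rcases hyy.eq_or_lt with rfl | hlt
    · rfl
    · have := hf.slope_anti hx ⟨hy, ne_of_gt hxy⟩ ⟨hy', ne_of_gt (hxy.trans hlt)⟩ hlt.le
      simpa [slope_def_field] using this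
  refine le_trans ?_ h1
  rcases hxx.eq_or_lt with rfl | hlt
  · rfl
  · have := hf.slope_anti hy' ⟨hx, ne_of_lt (hlt.trans hxy')⟩ ⟨hx', ne_of_lt hxy'⟩ hlt.le
    simp [slope_def_field] at this
    rw [← neg_div_neg_eq (f y' - f x'), ← neg_div_neg_eq (f y' - f x)]
    simpa using this

theorem defect_le (hf : ConcaveOn ℝ (Ico 0 T) fun r => Real.log (g r)) {s' s x η t t' : ℝ}
    (hs' : s' ∈ Ico 0 T) (ht' : t' ∈ Ico 0 T) (hη : 0 < η) (h1 : s' < s) (h2 : s' ≤ x)
    (h3 : s ≤ x + η) (h4 : x + η ≤ t) (h5 : x + 2 * η ≤ t') (h6 : t < t') :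
    defect g x (x + 2 * η) ≤ η / 2 * ((Real.log (g s) - Real.log (g s')) / (s - s')
      - (Real.log (g t') - Real.log (g t)) / (t' - t)) := by
  have hx : x ∈ Ico 0 T := ⟨hs'.1.trans h2, by linarith [ht'.2]⟩
  have hxm : x + η ∈ Ico 0 T := ⟨by linarith [hx.1], by linarith [ht'.2]⟩
  have hx2 : x + 2 * η ∈ Ico 0 T := ⟨by linarith [hx.1], by linarith [ht'.2]⟩
  have a := slope_le hf hs' hxm h1 h2 h3 (by linarith)
  have b := slope_le hf hxm ht' (show x + η < x + 2 * η by linarith) h4 h5 h6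
  rw [div_le_iff₀ (by linarith)] at a
  rw [le_div_iff₀ (by linarith)] at b
  rw [defect, show (x + (x + 2 * η)) / 2 = x + η by ring]
  linarith

/-- The increments of the slice means against the increment of the slope. -/
theorem increment_le (h : GainLoc g T e ρ) (hρ0 : 0 ≤ ρ) (hρ1 : ρ ≤ 1)
    (hf : ConcaveOn ℝ (Ico 0 T) fun r => Real.log (g r)) {s' s t t' : ℝ} (hs' : 0 ≤ s')
    (h1 : s' < s) (hst : s < t) (h2 : t < t') (ht' : t' < T) :
    ∑ j, (e j t - e j s) ^ 2 ≤ (2 - ρ) * (t - s) *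
      ((Real.log (g s) - Real.log (g s')) / (s - s')
        - (Real.log (g t') - Real.log (g t)) / (t' - t)) := by
  set B := (Real.log (g s) - Real.log (g s')) / (s - s') with hB
  set A := (Real.log (g t') - Real.log (g t)) / (t' - t) with hA
  set t'' := (t' + T) / 2 with ht''
  set A' := (Real.log (g t'') - Real.log (g t')) / (t'' - t') with hA'
  have hmem : ∀ r, s' ≤ r → r ≤ t'' → r ∈ Ico 0 T := fun r hr hr' =>
    ⟨hs'.trans hr, by linarith⟩
  set η : ℕ → ℝ := fun N => (t - s) / (2 * (N + 1)) with hη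
  have hη0 : ∀ N, 0 < η N := fun N => div_pos (by linarith) (by positivity)
  have hηlim : Tendsto η atTop (𝓝 0) := by
    have := (tendsto_one_div_add_atTop_nhds_zero_nat).const_mul ((t - s) / 2)
    rw [mul_zero] at this
    refine this.congr fun N => ?_
    simp only [hη]; field_simp
  obtain ⟨d₀, hd₀, hloc⟩ := h t'' (by linarith) (by linarith)
  have hw : ∀ d : ℝ, 0 < d → d ≤ min (1 / 6) (d₀ / 3) →
      ∀ x : ℕ → ℝ, (∀ᶠ N in atTop, s ≤ x N ∧ x N ≤ t) →
      Tendsto (fun N => ∑ j, (e j (x N + η N) - e j (x N)) ^ 2) atTop (𝓝 0) := by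
    intro d hd0 hd' x hx
    have hd : d ≤ 1 / 6 := hd'.trans (min_le_left _ _)
    have hd3 : 3 * d ≤ d₀ := by linarith [hd'.trans (min_le_right _ _)]
    set c := 16 * (1 / (1 - 3 * d) - ρ / 2)
    have hup : Tendsto (fun N => η N / 4 * (B - A')) atTop (𝓝 0) := by
      simpa using (hηlim.div_const 4).mul_const (B - A')
    refine squeeze_zero' (Eventually.of_forall fun N => Finset.sum_nonneg fun j _ => sq_nonneg _)
      ?_ (g := fun N => c * (η N / 4 * (B - A'))) (by simpa using hup.const_mul c)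
    filter_upwards [hx, hηlim.eventually (eventually_le_nhds (show 0 < t' - t by linarith)),
      hup.eventually (eventually_le_nhds (pow_pos hd0 2))] with N hN hN1 hN2
    have hb : defect g (x N) (x N + η N) ≤ η N / 4 * (B - A') := by
      have := defect_le hf (s' := s') (s := s) (x := x N) (η := η N / 2) (t := t') (t' := t'')
        (hmem s' le_rfl (by linarith)) (hmem t'' (by linarith) le_rfl) (by linarith [hη0 N]) h1
        (by linarith) (by linarith [hη0 N]) (by linarith [hη0 N]) (by linarith [hη0 N])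
        (by linarith)
      rw [show x N + 2 * (η N / 2) = x N + η N by ring] at this
      linarith
    refine (sum_sq_le_defect (fun u hu => hloc (x N) ⟨by linarith, by linarith⟩ (x N + η N)
      ⟨by linarith [hη0 N], by linarith⟩ u fun j => (hu j).trans hd3) hρ0 hρ1 hd0 hd (hb.trans hN2)).trans
      (mul_le_mul_of_nonneg_left hb ?_)
    have : 1 ≤ 1 / (1 - 3 * d) := by rw [le_div_iff₀ (by linarith)]; linarith
    linarith
  have main : ∀ d : ℝ, 0 < d → d ≤ min (1 / 6) (d₀ / 3) →
      2 * ∑ j, (e j t - e j s) ^ 2 ≤ 4 * (1 / (1 - 3 * d) - ρ / 2) * (t - s) * (B - A) := by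
    intro d hd0 hd'
    have hd : d ≤ 1 / 6 := hd'.trans (min_le_left _ _)
    have hd3 : 3 * d ≤ d₀ := by linarith [hd'.trans (min_le_right _ _)]
    set c := 1 / (1 - 3 * d) - ρ / 2 with hc
    have hlim : Tendsto (fun N => ∑ j, ((e j t - e j s) ^ 2
        + (e j (t + η N) - e j (s + η N)) ^ 2)) atTop (𝓝 (2 * ∑ j, (e j t - e j s) ^ 2)) := by
      have hz : ∀ x : ℝ, s ≤ x → x ≤ t → ∀ j,
          Tendsto (fun N => e j (x + η N) - e j x) atTop (𝓝 0) := by
        intro x hx hx' j
        have h0 := (hw d hd0 hd' (fun _ => x) (Eventually.of_forall fun _ => ⟨hx, hx'⟩)).sqrt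
        rw [Real.sqrt_zero] at h0
        refine squeeze_zero_norm (fun N => ?_) h0
        rw [Real.norm_eq_abs, ← Real.sqrt_sq_eq_abs]
        exact Real.sqrt_le_sqrt (Finset.single_le_sum
          (f := fun l => (e l (x + η N) - e l x) ^ 2) (fun l _ => sq_nonneg _) (Finset.mem_univ j))
      have e0 : ∀ j, Tendsto (fun N => (e j t - e j s) ^ 2 + (e j (t + η N) - e j (s + η N)) ^ 2)
          atTop (𝓝 (2 * (e j t - e j s) ^ 2)) := fun j => by
        have h3 := ((((hz t hst.le le_rfl j).sub (hz s le_rfl hst.le j)).add_const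
          (e j t - e j s)).pow 2).const_add ((e j t - e j s) ^ 2)
        rw [sub_zero, zero_add, ← two_mul] at h3
        refine h3.congr fun N => ?_
        ring
      rw [Finset.mul_sum]
      exact tendsto_finsetSum _ fun j _ => e0 j
    refine le_of_tendsto hlim ?_
    filter_upwards [hηlim.eventually (eventually_le_nhds (show 0 < t' - t by linarith)),
      (hηlim.const_mul ((B - A) / 2)).eventually
        (eventually_le_nhds (show (B - A) / 2 * 0 < d ^ 2 by rw [mul_zero]; positivity))]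
      with N hN hN'
    set p : ℕ → ℝ := fun l => s + l * η N with hp
    have hNt : s + (2 * (N + 1) : ℕ) * η N = t := by
      simp only [hη]; push_cast; field_simp; ring
    have hpb : ∀ l, l ≤ 2 * (N + 1) + 1 → p l ∈ Ico 0 T := fun l hl => by
      have h1' : (l : ℝ) * η N ≤ ((2 * (N + 1) + 1 : ℕ) : ℝ) * η N :=
        mul_le_mul_of_nonneg_right (by exact_mod_cast hl) (hη0 N).le
      have h2' : 0 ≤ (l : ℝ) * η N := mul_nonneg (Nat.cast_nonneg _) (hη0 N).le
      refine hmem _ (by simp only [hp]; linarith) ?_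
      simp only [hp]; push_cast at h1' hNt; linarith
    set J : ℕ → ℝ := fun l => defect g (p l) (p (l + 2)) with hJ
    have hJsum : ∑ l ∈ Finset.range (2 * (N + 1)), J l ≤ η N / 2 * (B - A) := by
      have e3 := sum_second_diff (fun l => - Real.log (g (p l))) (2 * (N + 1))
      have e4 : ∀ l, J l = (-Real.log (g (p l)) + -Real.log (g (p (l + 2)))) / 2
          - -Real.log (g (p (l + 1))) := fun l => by
        simp only [hJ, defect, hp]; push_cast; ring_nf
      rw [Finset.sum_congr rfl fun l _ => e4 l, e3]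
      have q0 : p 0 = s := by simp [hp]
      have q1 : p 1 = s + η N := by simp [hp]
      have q2 : p (2 * (N + 1)) = t := hNt
      have q3 : p (2 * (N + 1) + 1) = t + η N := by
        rw [← hNt]; simp only [hp]; push_cast; ring
      have u1 := slope_le hf (hmem s' le_rfl (by linarith))
        (hmem (s + η N) (by linarith [hη0 N]) (by linarith)) h1 h1.le (by linarith [hη0 N])
        (show s < s + η N by linarith [hη0 N])
      have u2 := slope_le hf (hmem t (by linarith) (by linarith))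
        (hmem t' (by linarith) (by linarith)) (show t < t + η N by linarith [hη0 N]) le_rfl
        (by linarith) h2
      rw [add_sub_cancel_left, div_le_iff₀ (hη0 N)] at u1
      rw [add_sub_cancel_left, le_div_iff₀ (hη0 N)] at u2
      rw [q0, q1, q2, q3]
      simp only [← hB, ← hA] at u1 u2
      linarith
    have hsq : ∀ l < 2 * (N + 1), ∑ j, (e j (p (l + 2)) - e j (p l)) ^ 2 ≤ 16 * c * J l :=
      fun l hl => by
      have hb : ∀ r, r ≤ 2 * (N + 1) + 1 → p r ∈ Icc 0 t'' := fun r hr =>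
        ⟨(hpb r hr).1, by
          have h1' : (r : ℝ) * η N ≤ ((2 * (N + 1) + 1 : ℕ) : ℝ) * η N :=
            mul_le_mul_of_nonneg_right (by exact_mod_cast hr) (hη0 N).le
          simp only [hp]; push_cast at h1' hNt; linarith⟩
      refine sum_sq_le_defect (fun u hu => hloc _ (hb l (by omega)) _ (hb (l + 2) (by omega)) u
        fun j => (hu j).trans hd3) hρ0 hρ1 hd0 hd ?_
      refine le_trans (Finset.single_le_sum (f := J) (fun r hr => defect_nonneg h
        (hpb r (by have := Finset.mem_range.1 hr; omega))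
        (hpb (r + 2) (by have := Finset.mem_range.1 hr; omega))) (Finset.mem_range.2 hl)) ?_
      linarith
    have htel : ∀ (j : Fin m) (o : ℕ), (e j (p (2 * (N + 1) + o)) - e j (p o)) ^ 2
        ≤ (N + 1) * ∑ i ∈ Finset.range (N + 1),
          (e j (p (2 * i + o + 2)) - e j (p (2 * i + o))) ^ 2 := by
      intro j o
      have hs2 := Finset.sum_range_sub (fun i => e j (p (2 * i + o))) (N + 1)
      have hcs := sq_sum_le_card_mul_sum_sq (s := Finset.range (N + 1))
        (f := fun i => e j (p (2 * (i + 1) + o)) - e j (p (2 * i + o)))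
      rw [hs2, Finset.card_range] at hcs
      simp only [mul_zero, zero_add] at hcs
      push_cast at hcs
      refine hcs.trans (le_of_eq ?_)
      congr 1
      refine Finset.sum_congr rfl fun i _ => ?_
      rw [show 2 * (i + 1) + o = 2 * i + o + 2 by ring]
    have q4 : ∀ j, e j (p (2 * (N + 1) + 0)) - e j (p 0) = e j t - e j s := fun j => by
      simp only [add_zero, hp]; rw [hNt]; simp
    have q5 : ∀ j, e j (p (2 * (N + 1) + 1)) - e j (p 1) = e j (t + η N) - e j (s + η N) :=
      fun j => by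
      rw [← hNt]; simp only [hp]; push_cast; ring_nf
    calc ∑ j, ((e j t - e j s) ^ 2 + (e j (t + η N) - e j (s + η N)) ^ 2)
        ≤ ∑ j, (N + 1) * ∑ l ∈ Finset.range (2 * (N + 1)),
            (e j (p (l + 2)) - e j (p l)) ^ 2 := Finset.sum_le_sum fun j _ => by
          rw [← q4 j, ← q5 j, ← sum_even_odd, Finset.sum_add_distrib]
          exact (add_le_add (htel j 0) (htel j 1)).trans_eq (mul_add _ _ _).symm
      _ = (N + 1) * ∑ l ∈ Finset.range (2 * (N + 1)),
            ∑ j, (e j (p (l + 2)) - e j (p l)) ^ 2 := by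
          rw [← Finset.mul_sum, Finset.sum_comm]
      _ ≤ (N + 1) * ∑ l ∈ Finset.range (2 * (N + 1)), 16 * c * J l :=
          mul_le_mul_of_nonneg_left (Finset.sum_le_sum fun l hl => hsq l (Finset.mem_range.1 hl))
            (by positivity)
      _ ≤ (N + 1) * (16 * c * (η N / 2 * (B - A))) := by
          rw [← Finset.mul_sum]
          refine mul_le_mul_of_nonneg_left (mul_le_mul_of_nonneg_left hJsum ?_) (by positivity)
          have : 1 ≤ 1 / (1 - 3 * d) := by rw [le_div_iff₀ (by linarith)]; linarith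
          linarith
      _ = 4 * c * (t - s) * (B - A) := by simp only [hη]; field_simp; ring
  have hl : Tendsto (fun d : ℝ => 4 * (1 / (1 - 3 * d) - ρ / 2) * (t - s) * (B - A)) (𝓝[>] 0)
      (𝓝 (4 * (1 - ρ / 2) * (t - s) * (B - A))) := by
    have : Tendsto (fun d : ℝ => 1 - 3 * d) (𝓝[>] 0) (𝓝 1) := by
      have hc : Continuous fun d : ℝ => 1 - 3 * d := by fun_prop
      simpa using (hc.tendsto 0).mono_left nhdsWithin_le_nhds
    have := ((((this.inv₀ one_ne_zero).sub_const (ρ / 2)).const_mul 4).mul_const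
      (t - s)).mul_const (B - A)
    simpa [one_div] using this
  have hfin : 2 * ∑ j, (e j t - e j s) ^ 2 ≤ 4 * (1 - ρ / 2) * (t - s) * (B - A) := by
    refine ge_of_tendsto hl ?_
    filter_upwards [Ioc_mem_nhdsGT (show (0 : ℝ) < min (1 / 6) (d₀ / 3) from lt_min (by norm_num) (by linarith))] with d hd
    exact main d hd.1 hd.2
  nlinarith

end

end Vale.P254.E
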