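import Mathlib
import Vale.Agent.P254.E.Loss

/-!
The loss in terms of the tail: with `L = -log tail`, `σ = W'` and `ρ = tail * σ / g` the total
variance of the slice means is at most `r * E [ρ (2 - ρ) L - ρ]`.
-/

namespace Vale.P254.E

open MeasureTheory Set Filter Topology

variable {m : ℕ}

/-- The tail of `g`. -/
noncomputable def tail (g : ℝ → ℝ) (T x : ℝ) : ℝ := ∫ t in Ioc x T, g t

/-- The right derivative of `- log g`. -/
noncomputable def slopeW (g : ℝ → ℝ) (x : ℝ) : ℝ :=
  derivWithin (fun y => -Real.log (g y)) (Ioi x) x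

/-- The ratio `tail * W' / g`, in `[0, 1]`. -/
noncomputable def tailRatio (g : ℝ → ℝ) (T x : ℝ) : ℝ := tail g T x * slopeW g x / g x

/-- The tail bound for the loss. -/
noncomputable def tailLoss (r : ℝ) (g : ℝ → ℝ) (T : ℝ) : ℝ :=
  r * ∫ x in Ioc 0 T, g x *
    (tailRatio g T x * (2 - tailRatio g T x) * -Real.log (tail g T x) - tailRatio g T x)

section
variable {g : ℝ → ℝ} {T ρ : ℝ} {e : Fin m → ℝ → ℝ}

theorem Marg.convexW (hg : Marg g T) : ConvexOn ℝ (Ioo 0 T) fun y => -Real.log (g y) :=
  (hg.logConcave.subset Ioo_subset_Ico_self (convex_Ioo 0 T)).neg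

theorem Marg.slopeW_mono (hg : Marg g T) : MonotoneOn (slopeW g) (Ioo 0 T) := by
  have := hg.convexW.monotoneOn_rightDeriv
  rwa [interior_Ioo] at this

theorem Marg.slope_ge (hg : Marg g T) {x y : ℝ} (hx : 0 < x) (hxy : x < y) (hy : y < T) :
    slopeW g x ≤ -(Real.log (g y) - Real.log (g x)) / (y - x) := by
  have := hg.convexW.rightDeriv_le_slope_of_mem_interior (x := x) (y := y)
    (by rw [interior_Ioo]; exact ⟨hx, hxy.trans hy⟩) ⟨hx.trans hxy, hy⟩ hxy
  simpa [slope_def_field, slopeW, neg_add_eq_sub] using this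

theorem Marg.slope_le_slopeW (hg : Marg g T) {x y : ℝ} (hx : 0 < x) (hxy : x < y) (hy : y < T) :
    -(Real.log (g y) - Real.log (g x)) / (y - x) ≤ slopeW g y := by
  have hint : y ∈ interior (Ioo 0 T) := by rw [interior_Ioo]; exact ⟨hx.trans hxy, hy⟩
  have hd := hg.convexW.hasDerivWithinAt_rightDeriv_of_mem_interior hint
  refine ge_of_tendsto ((hasDerivWithinAt_iff_tendsto_slope' self_notMem_Ioi).1 hd) ?_
  filter_upwards [Ioo_mem_nhdsGT hy] with z hz
  have := hg.convexW.slope_mono_adjacent (show x ∈ Ioo 0 T from ⟨hx, hxy.trans hy⟩)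
    (show z ∈ Ioo 0 T from ⟨(hx.trans hxy).trans hz.1, hz.2⟩) hxy hz.1
  rw [slope_def_field]
  simpa [neg_add_eq_sub] using this

theorem Marg.slopeW_nonneg (hg : Marg g T) {x : ℝ} (hx : x ∈ Ioo 0 T) : 0 ≤ slopeW g x := by
  refine le_trans ?_ (hg.slope_le_slopeW (half_pos hx.1) (half_lt_self hx.1) hx.2)
  have h1 := hg.anti (half_pos hx.1).le hx.1.le (half_le_self hx.1.le)
  have h2 := Real.log_le_log (hg.pos x ⟨hx.1.le, hx.2⟩) h1
  exact div_nonneg (by linarith) (by linarith [hx.1])

/-- The increment against the increment of the right derivative. -/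
theorem increment_slopeW (hg : Marg g T) (h : GainLoc g T e ρ) (hρ0 : 0 ≤ ρ) (hρ1 : ρ ≤ 1)
    {s t : ℝ} (hs : 0 < s) (hst : s < t) (ht : t < T) :
    ∑ j, (e j t - e j s) ^ 2 ≤ (2 - ρ) * (t - s) * (slopeW g t - slopeW g s) := by
  set t₀ := (t + T) / 2 with ht₀
  set C := (2 - ρ) * (slopeW g t₀ - slopeW g (s / 2) + 1) with hC
  have hcont : ∀ j, ∀ x y, s ≤ x → x < y → y ≤ t →
      |e j y - e j x| ≤ Real.sqrt (C * (y - x)) := by
    intro j x y hx hxy hy
    have h1 := increment_le h hρ0 hρ1 hg.logConcave (s' := (s / 2 + x) / 2) (t' := (y + t₀) / 2)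
      (by linarith) (by linarith) hxy (by linarith) (by linarith)
    have a := hg.slope_ge (show 0 < (s / 2 + x) / 2 by linarith)
      (show (s / 2 + x) / 2 < x by linarith) (show x < T by linarith)
    have b := hg.slope_le_slopeW (show 0 < y by linarith)
      (show y < (y + t₀) / 2 by linarith) (show (y + t₀) / 2 < T by linarith)
    have c := hg.slopeW_mono (show s / 2 ∈ Ioo 0 T from ⟨by linarith, by linarith⟩)
      (show (s / 2 + x) / 2 ∈ Ioo 0 T from ⟨by linarith, by linarith⟩) (by linarith)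
    have d := hg.slopeW_mono (show (y + t₀) / 2 ∈ Ioo 0 T from ⟨by linarith, by linarith⟩)
      (show t₀ ∈ Ioo 0 T from ⟨by linarith, by linarith⟩) (by linarith)
    rw [neg_div] at a b
    rw [← Real.sqrt_sq_eq_abs]
    refine Real.sqrt_le_sqrt ((Finset.single_le_sum (f := fun l => (e l y - e l x) ^ 2)
      (fun l _ => sq_nonneg _) (Finset.mem_univ j)).trans (h1.trans ?_))
    rw [hC, mul_right_comm (2 - ρ) (slopeW g t₀ - slopeW g (s / 2) + 1)]
    exact mul_le_mul_of_nonneg_left (by linarith) (mul_nonneg (by linarith) (by linarith))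
  set ε : ℕ → ℝ := fun N => (t - s) / 3 / (N + 1) with hε
  have hε0 : ∀ N, 0 < ε N := fun N => div_pos (by linarith) (by positivity)
  have hε1 : ∀ N, ε N ≤ (t - s) / 3 := fun N =>
    div_le_self (by linarith) (by linarith [(Nat.cast_nonneg N : (0 : ℝ) ≤ N)])
  have hεlim : Tendsto ε atTop (𝓝 0) := by
    have := (tendsto_one_div_add_atTop_nhds_zero_nat).const_mul ((t - s) / 3)
    rw [mul_zero] at this
    exact this.congr fun N => by simp only [hε]; ring
  have hlim : ∀ j, Tendsto (fun N => e j (t - ε N) - e j (s + ε N)) atTop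
      (𝓝 (e j t - e j s)) := by
    intro j
    have hsq : Tendsto (fun N => Real.sqrt (C * ε N)) atTop (𝓝 0) := by
      simpa using (hεlim.const_mul C).sqrt
    have h1 : Tendsto (fun N => e j t - e j (t - ε N)) atTop (𝓝 0) :=
      squeeze_zero_norm (fun N => by
        rw [Real.norm_eq_abs]
        simpa using hcont j (t - ε N) t (by linarith [hε1 N]) (by linarith [hε0 N]) le_rfl) hsq
    have h2 : Tendsto (fun N => e j (s + ε N) - e j s) atTop (𝓝 0) :=
      squeeze_zero_norm (fun N => by
        rw [Real.norm_eq_abs]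
        simpa using hcont j s (s + ε N) le_rfl (by linarith [hε0 N]) (by linarith [hε1 N])) hsq
    have := ((h1.add h2).neg).const_add (e j t - e j s)
    simp only [add_zero, neg_zero] at this
    exact this.congr fun N => by ring
  refine le_of_tendsto (tendsto_finsetSum _ fun j _ => (hlim j).pow 2)
    (Eventually.of_forall fun N => ?_)
  have h0 := hε0 N
  have h1 := hε1 N
  refine (increment_le h hρ0 hρ1 hg.logConcave (s' := s + ε N / 2) (t' := t - ε N / 2)
    (by linarith) (by linarith) (by linarith) (by linarith) (by linarith)).trans ?_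
  have a := hg.slope_ge hs (show s < s + ε N / 2 by linarith) (show s + ε N / 2 < T by linarith)
  have a' := hg.slope_ge (show 0 < s + ε N / 2 by linarith)
    (show s + ε N / 2 < s + ε N by linarith) (show s + ε N < T by linarith)
  have a'' := hg.slopeW_mono (show s ∈ Ioo 0 T from ⟨hs, by linarith⟩)
    (show s + ε N / 2 ∈ Ioo 0 T from ⟨by linarith, by linarith⟩) (by linarith)
  have b := hg.slope_le_slopeW (show 0 < t - ε N by linarith)
    (show t - ε N < t - ε N / 2 by linarith) (show t - ε N / 2 < T by linarith)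
  have b' := hg.slopeW_mono (show t - ε N / 2 ∈ Ioo 0 T from ⟨by linarith, by linarith⟩)
    (show t ∈ Ioo 0 T from ⟨by linarith, ht⟩) (by linarith)
  have c := hg.slopeW_mono (show s ∈ Ioo 0 T from ⟨hs, by linarith⟩)
    (show t ∈ Ioo 0 T from ⟨by linarith, ht⟩) hst.le
  rw [neg_div] at a' b
  refine le_trans (mul_le_mul_of_nonneg_left (show _ ≤ slopeW g t - slopeW g s by linarith)
    (mul_nonneg (by linarith) (by linarith))) ?_
  exact mul_le_mul_of_nonneg_right (mul_le_mul_of_nonneg_left (by linarith) (by linarith))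
    (by linarith)

theorem Marg.integrableOn (hg : Marg g T) : IntegrableOn g (Ioc 0 T) :=
  Integrable.of_integral_ne_zero (by rw [hg.mass]; norm_num)

theorem Marg.intervalIntegrable (hg : Marg g T) {a b : ℝ} (ha : 0 ≤ a) (hab : a ≤ b) (hb : b ≤ T) :
    IntervalIntegrable g volume a b :=
  (intervalIntegrable_iff_integrableOn_Ioc_of_le hab).2
    (hg.integrableOn.mono_set (Ioc_subset_Ioc ha hb))

theorem Marg.continuousOn_log (hg : Marg g T) :
    ContinuousOn (fun y => -Real.log (g y)) (Ioo 0 T) :=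
  hg.convexW.continuousOn isOpen_Ioo

theorem Marg.continuousOn (hg : Marg g T) : ContinuousOn g (Ioo 0 T) :=
  (Real.continuous_exp.comp_continuousOn hg.continuousOn_log.neg).congr fun x hx => by
    simp [Real.exp_log (hg.pos x ⟨hx.1.le, hx.2⟩)]

theorem Marg.hasDeriv_tail (hg : Marg g T) {x : ℝ} (hx : x ∈ Ioo 0 T) :
    HasDerivAt (tail g T) (-g x) x := by
  have hint : ∀ y ∈ Icc 0 T, tail g T y = (∫ t in (0 : ℝ)..T, g t) - ∫ t in (0 : ℝ)..y, g t := by
    intro y hy
    rw [intervalIntegral.integral_interval_sub_left (hg.intervalIntegrable le_rfl hg.top_pos.le le_rfl)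
      (hg.intervalIntegrable le_rfl hy.1 hy.2), tail, intervalIntegral.integral_of_le hy.2]
  refine (((intervalIntegral.integral_hasDerivAt_right
    (hg.intervalIntegrable le_rfl hx.1.le hx.2.le)
    (hg.continuousOn.stronglyMeasurableAtFilter isOpen_Ioo x hx)
    (hg.continuousOn.continuousAt (isOpen_Ioo.mem_nhds hx))).const_sub
      (∫ t in (0 : ℝ)..T, g t))).congr_of_eventuallyEq ?_
  filter_upwards [isOpen_Ioo.mem_nhds hx] with y hy
  exact hint y ⟨hy.1.le, hy.2.le⟩

theorem Marg.tail_pos (hg : Marg g T) {x : ℝ} (hx : x ∈ Ioo 0 T) : 0 < tail g T x := by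
  set y := (x + T) / 2 with hy
  have hxy : x < y := by linarith [hx.2]
  have hyT : y < T := by linarith [hx.2]
  have h1 : g y * (y - x) ≤ ∫ t in Ioc x y, g t := by
    refine le_trans (le_of_eq ?_) (setIntegral_mono_on (f := fun _ => g y)
      (integrableOn_const measure_Ioc_lt_top.ne)
      (hg.integrableOn.mono_set (Ioc_subset_Ioc hx.1.le hyT.le)) measurableSet_Ioc fun t ht =>
        hg.anti (show (0 : ℝ) ≤ t by linarith [hx.1, ht.1]) (show (0 : ℝ) ≤ y by linarith [hx.1])
          ht.2)
    rw [setIntegral_const, measureReal_def, Real.volume_Ioc,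
      ENNReal.toReal_ofReal (by linarith), smul_eq_mul, mul_comm]
  have h2 : ∫ t in Ioc x y, g t ≤ tail g T x :=
    setIntegral_mono_set (hg.integrableOn.mono_set (Ioc_subset_Ioc_left hx.1.le))
      (Eventually.of_forall fun t => hg.nonneg t) (Ioc_subset_Ioc_right hyT.le).eventuallyLE
  have : 0 < g y * (y - x) :=
    mul_pos (hg.pos y ⟨by linarith [hx.1], hyT⟩) (by linarith)
  linarith

theorem Marg.tail_le_one (hg : Marg g T) {x : ℝ} (hx : 0 ≤ x) : tail g T x ≤ 1 :=
  hg.mass ▸ setIntegral_mono_set hg.integrableOn (Eventually.of_forall fun t => hg.nonneg t)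
    (Ioc_subset_Ioc_left hx).eventuallyLE

theorem Marg.tail_mul_slopeW_le (hg : Marg g T) {x : ℝ} (hx : x ∈ Ioo 0 T) :
    tail g T x * slopeW g x ≤ g x := by
  set s := slopeW g x with hs
  have hs0 : 0 ≤ s := hg.slopeW_nonneg hx
  set p : ℝ → ℝ := fun t => g x * Real.exp (-s * (t - x)) with hp
  have hc : Continuous p := by fun_prop
  have h1 : tail g T x ≤ ∫ t in Ioc x T, p t := by
    refine setIntegral_mono_on_ae (hg.integrableOn.mono_set (Ioc_subset_Ioc_left hx.1.le))
      hc.integrableOn_Ioc measurableSet_Ioc ?_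
    filter_upwards [Measure.ae_ne volume T] with t htT ht
    have htT' : t < T := lt_of_le_of_ne ht.2 htT
    have h2 := hg.slope_ge hx.1 ht.1 htT'
    rw [le_div_iff₀ (by linarith [ht.1]), ← hs] at h2
    have h3 : Real.log (g t) ≤ Real.log (g x) + -s * (t - x) := by linarith
    calc g t = Real.exp (Real.log (g t)) :=
          (Real.exp_log (hg.pos t ⟨by linarith [hx.1, ht.1], htT'⟩)).symm
      _ ≤ Real.exp (Real.log (g x) + -s * (t - x)) := Real.exp_le_exp.2 h3
      _ = p t := by rw [Real.exp_add, Real.exp_log (hg.pos x ⟨hx.1.le, hx.2⟩)]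
  have h2 : (∫ t in Ioc x T, p t) * s = g x - p T := by
    have hd : ∀ t ∈ uIcc x T, HasDerivAt (fun t => -p t) (p t * s) t := fun t _ =>
      (((((hasDerivAt_id' t).sub_const x).const_mul (-s)).exp.const_mul (g x)).neg).congr_deriv
        (by simp only [hp]; ring)
    rw [← intervalIntegral.integral_of_le hx.2.le, ← intervalIntegral.integral_mul_const,
      intervalIntegral.integral_eq_sub_of_hasDerivAt hd ((hc.mul continuous_const).intervalIntegrable _ _)]
    simp [hp]; ring
  calc tail g T x * s ≤ (∫ t in Ioc x T, p t) * s := mul_le_mul_of_nonneg_right h1 hs0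
    _ = g x - p T := h2
    _ ≤ g x := by
        have : 0 ≤ p T := mul_nonneg (hg.nonneg x) (Real.exp_pos _).le
        linarith

/-- The ratio `tail / g`. -/
noncomputable def tailQ (g : ℝ → ℝ) (T x : ℝ) : ℝ := tail g T x / g x

/-- The Stieltjes integral of `tail / g` against `slopeW`, by parts. -/
noncomputable def psiTail (g : ℝ → ℝ) (T a x : ℝ) : ℝ :=
  tailQ g T x * slopeW g x + ∫ z in a..x, slopeW g z * (1 - tailQ g T z * slopeW g z)

theorem Marg.hasDeriv_tailQ (hg : Marg g T) {x : ℝ} (hx : x ∈ Ioo 0 T) :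
    HasDerivWithinAt (tailQ g T) (-1 + tailQ g T x * slopeW g x) (Ioi x) x := by
  have hW : HasDerivWithinAt (fun y => -Real.log (g y)) (slopeW g x) (Ioi x) x :=
    hg.convexW.hasDerivWithinAt_rightDeriv_of_mem_interior (by rwa [interior_Ioo])
  have hgpos := hg.pos x ⟨hx.1.le, hx.2⟩
  refine (((hg.hasDeriv_tail hx).hasDerivWithinAt.mul hW.exp).congr_of_eventuallyEq ?_ ?_).congr_deriv ?_
  · filter_upwards [Ioo_mem_nhdsGT hx.2] with y hy
    simp [tailQ, Real.exp_neg, Real.exp_log (hg.pos y ⟨by linarith [hx.1, hy.1], hy.2⟩),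
      div_eq_mul_inv]
  · simp [tailQ, Real.exp_neg, Real.exp_log hgpos, div_eq_mul_inv]
  · simp only [tailQ, Real.exp_neg, Real.exp_log hgpos]
    field_simp

theorem Marg.tailRatio_mem (hg : Marg g T) {x : ℝ} (hx : x ∈ Ioo 0 T) :
    tailQ g T x * slopeW g x ∈ Icc (0 : ℝ) 1 := by
  have h0 := hg.pos x ⟨hx.1.le, hx.2⟩
  refine ⟨mul_nonneg (div_nonneg (hg.tail_pos hx).le h0.le) (hg.slopeW_nonneg hx), ?_⟩
  rw [tailQ, div_mul_eq_mul_div, div_le_one h0]
  exact hg.tail_mul_slopeW_le hx

theorem Marg.continuousOn_tailQ (hg : Marg g T) : ContinuousOn (tailQ g T) (Ioo 0 T) :=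
  ContinuousOn.div (fun _ hx => (hg.hasDeriv_tail hx).continuousAt.continuousWithinAt)
    hg.continuousOn fun x hx => (hg.pos x ⟨hx.1.le, hx.2⟩).ne'

theorem Marg.intervalIntegrable_slopeW (hg : Marg g T) {a b : ℝ} (ha : 0 < a) (hab : a ≤ b)
    (hb : b < T) : IntervalIntegrable (slopeW g) volume a b :=
  MonotoneOn.intervalIntegrable (hg.slopeW_mono.mono (by
    rw [uIcc_of_le hab]; exact fun z hz => ⟨by linarith [hz.1], by linarith [hz.2]⟩))

theorem Marg.tailQ_sub (hg : Marg g T) {a b : ℝ} (ha : 0 < a) (hab : a ≤ b) (hb : b < T) :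
    ∫ z in a..b, (-1 + tailQ g T z * slopeW g z) = tailQ g T b - tailQ g T a := by
  have hsub : Icc a b ⊆ Ioo 0 T := fun z hz => ⟨by linarith [hz.1], by linarith [hz.2]⟩
  exact intervalIntegral.integral_eq_sub_of_hasDeriv_right_of_le hab
    (hg.continuousOn_tailQ.mono hsub) (fun z hz => hg.hasDeriv_tailQ (hsub (Ioo_subset_Icc_self hz)))
    (intervalIntegrable_const.add ((hg.intervalIntegrable_slopeW ha hab hb).continuousOn_mul
      (by rw [uIcc_of_le hab]; exact hg.continuousOn_tailQ.mono hsub)))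

theorem Marg.psiTail_sub (hg : Marg g T) {a x y : ℝ} (ha : 0 < a) (hax : a ≤ x) (hxy : x ≤ y)
    (hy : y < T) :
    (tailQ g T x - (y - x)) * (slopeW g y - slopeW g x) ≤ psiTail g T a y - psiTail g T a x := by
  have hsub : ∀ u v, a ≤ u → v ≤ y → Icc u v ⊆ Ioo 0 T := fun u v hu hv z hz =>
    ⟨by linarith [hz.1], by linarith [hz.2]⟩
  have hi : ∀ u v, a ≤ u → u ≤ v → v ≤ y → IntervalIntegrable
      (fun z => slopeW g z * (1 - tailQ g T z * slopeW g z)) volume u v := fun u v hu huv hv => by
    have hs := hg.intervalIntegrable_slopeW (ha.trans_le hu) huv (hv.trans_lt hy)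
    refine hs.mono_fun ?_ ?_
    · have hm : AEStronglyMeasurable (slopeW g) (volume.restrict (uIoc u v)) :=
        hs.def'.aestronglyMeasurable
      refine hm.mul (aestronglyMeasurable_const.sub (AEStronglyMeasurable.mul ?_ hm))
      exact ((hg.continuousOn_tailQ.mono (hsub u v hu hv)).aestronglyMeasurable
        measurableSet_Icc).mono_measure (Measure.restrict_mono
          (by rw [uIoc_of_le huv]; exact Ioc_subset_Icc_self) le_rfl)
    · rw [EventuallyLE, ae_restrict_iff' measurableSet_uIoc]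
      refine Eventually.of_forall fun z hz => ?_
      rw [uIoc_of_le huv] at hz
      have h := hg.tailRatio_mem (hsub u v hu hv ⟨hz.1.le, hz.2⟩)
      rw [norm_mul]
      exact mul_le_of_le_one_right (norm_nonneg _)
        (by rw [Real.norm_eq_abs, abs_le]; constructor <;> linarith [h.1, h.2])
  have h1 : psiTail g T a y - psiTail g T a x = tailQ g T y * slopeW g y - tailQ g T x * slopeW g x
      + ∫ z in x..y, slopeW g z * (1 - tailQ g T z * slopeW g z) := by
    rw [← intervalIntegral.integral_interval_sub_left (hi a y le_rfl (hax.trans hxy) le_rfl)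
      (hi a x le_rfl hax hxy)]
    simp only [psiTail]; ring
  have hq := hg.tailQ_sub (ha.trans_le hax) hxy hy
  have h2 : IntervalIntegrable (fun z => -1 + tailQ g T z * slopeW g z) volume x y :=
    intervalIntegrable_const.add ((hg.intervalIntegrable_slopeW (ha.trans_le hax) hxy hy).continuousOn_mul
      (by rw [uIcc_of_le hxy]; exact hg.continuousOn_tailQ.mono (hsub x y hax le_rfl)))
  have h3 : -(y - x) * (slopeW g y - slopeW g x)
      ≤ ∫ z in x..y, (slopeW g y * (-1 + tailQ g T z * slopeW g z)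
        + slopeW g z * (1 - tailQ g T z * slopeW g z)) := by
    refine le_trans (le_of_eq ?_) (intervalIntegral.integral_mono_on hxy
      (f := fun _ => -(slopeW g y - slopeW g x)) intervalIntegrable_const
      ((h2.const_mul _).add (hi x y hax hxy le_rfl)) fun z hz => ?_)
    · simp; ring
    · have hz' := hsub x y hax le_rfl hz
      have h := hg.tailRatio_mem hz'
      have m1 := hg.slopeW_mono (hsub x y hax le_rfl ⟨le_rfl, hxy⟩) hz' hz.1
      have m2 := hg.slopeW_mono hz' (hsub x y hax le_rfl ⟨hxy, le_rfl⟩) hz.2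
      nlinarith [mul_le_mul_of_nonneg_left (show 1 - tailQ g T z * slopeW g z ≤ 1 by linarith [h.1])
        (sub_nonneg.2 m2)]
  rw [intervalIntegral.integral_add (h2.const_mul _) (hi x y hax hxy le_rfl),
    intervalIntegral.integral_const_mul, hq] at h3
  rw [h1]
  linarith

theorem Marg.logTail_sub (hg : Marg g T) {x y : ℝ} (hx : 0 < x) (hxy : x ≤ y) (hy : y < T) :
    (y - x) * g y / tail g T x ≤ -Real.log (tail g T y) - -Real.log (tail g T x) := by
  have hx' : x ∈ Ioo 0 T := ⟨hx, by linarith⟩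
  have hy' : y ∈ Ioo 0 T := ⟨by linarith, hy⟩
  have h1 : (y - x) * g y ≤ tail g T x - tail g T y := by
    have e : tail g T x - tail g T y = ∫ t in x..y, g t := by
      have := intervalIntegral.integral_add_adjacent_intervals
        (hg.intervalIntegrable hx.le hxy hy.le) (hg.intervalIntegrable hy'.1.le hy.le le_rfl)
      rw [tail, tail, ← intervalIntegral.integral_of_le hx'.2.le,
        ← intervalIntegral.integral_of_le hy.le]
      linarith
    rw [e]
    refine le_trans (le_of_eq ?_) (intervalIntegral.integral_mono_on hxy (f := fun _ => g y)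
      intervalIntegrable_const (hg.intervalIntegrable hx.le hxy hy.le) fun t ht =>
        hg.anti (show (0 : ℝ) ≤ t by linarith [ht.1]) hy'.1.le ht.2)
    simp
  have h2 := Real.log_le_sub_one_of_pos (div_pos (hg.tail_pos hy') (hg.tail_pos hx'))
  rw [Real.log_div (hg.tail_pos hy').ne' (hg.tail_pos hx').ne'] at h2
  calc (y - x) * g y / tail g T x ≤ (tail g T x - tail g T y) / tail g T x :=
        div_le_div_of_nonneg_right h1 (hg.tail_pos hx').le
    _ = 1 - tail g T y / tail g T x := by rw [sub_div, div_self (hg.tail_pos hx').ne']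
    _ ≤ _ := by linarith

theorem Marg.psiTail_mono (hg : Marg g T) {a : ℝ} (ha : 0 < a) :
    MonotoneOn (psiTail g T a) (Ico a T) := by
  intro x hx y hy hxy
  -- on a fine grid every step is nonnegative
  obtain ⟨N, hN⟩ := exists_nat_gt ((y - x) / tailQ g T y)
  have hy' : y ∈ Ioo 0 T := ⟨by linarith [hy.1], hy.2⟩
  have hq : 0 < tailQ g T y := div_pos (hg.tail_pos hy') (hg.pos y ⟨hy'.1.le, hy'.2⟩)
  set h := (y - x) / (N + 1) with hh
  have h0 : 0 ≤ h := div_nonneg (by linarith) (by positivity)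
  have hhq : h ≤ tailQ g T y := by
    rw [hh, div_le_iff₀ (by positivity)]
    rw [div_lt_iff₀ hq] at hN
    linarith
  have key : ∀ l : ℕ, l ≤ N + 1 → psiTail g T a x ≤ psiTail g T a (x + l * h) := by
    intro l
    induction l with
    | zero => simp
    | succ l ih =>
      intro hl
      refine (ih (by omega)).trans ?_
      have hle : x + ((l + 1 : ℕ) : ℝ) * h ≤ y := by
        have : ((l + 1 : ℕ) : ℝ) * h ≤ ((N + 1 : ℕ) : ℝ) * h :=
          mul_le_mul_of_nonneg_right (by exact_mod_cast hl) h0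
        have e : ((N + 1 : ℕ) : ℝ) * h = y - x := by rw [hh]; push_cast; field_simp
        linarith
      have hlo : a ≤ x + (l : ℝ) * h := le_add_of_le_of_nonneg hx.1 (by positivity)
      have hstep : x + (l : ℝ) * h ≤ x + ((l + 1 : ℕ) : ℝ) * h := by push_cast; linarith
      have := hg.psiTail_sub ha hlo hstep (hle.trans_lt hy.2)
      have hmem : x + (l : ℝ) * h ∈ Ioo 0 T := ⟨ha.trans_le hlo, (hstep.trans hle).trans_lt hy.2⟩
      have hqa : tailQ g T y ≤ tailQ g T (x + (l : ℝ) * h) := by
        have h2 := hg.tailQ_sub hmem.1 (hstep.trans hle) hy.2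
        have h3 : ∫ z in (x + (l : ℝ) * h)..y, (-1 + tailQ g T z * slopeW g z) ≤ 0 :=
          le_trans (intervalIntegral.integral_mono_on (g := fun _ => (0 : ℝ)) (hstep.trans hle)
            (intervalIntegrable_const.add ((hg.intervalIntegrable_slopeW hmem.1 (hstep.trans hle)
              hy.2).continuousOn_mul (by
                rw [uIcc_of_le (hstep.trans hle)]
                exact hg.continuousOn_tailQ.mono fun z hz =>
                  ⟨hmem.1.trans_le hz.1, hz.2.trans_lt hy.2⟩)))
            intervalIntegrable_const fun z hz => by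
              linarith [(hg.tailRatio_mem ⟨hmem.1.trans_le hz.1, hz.2.trans_lt hy.2⟩).2])
            (le_of_eq (by simp))
        linarith
      have hm := hg.slopeW_mono hmem ⟨hmem.1.trans_le hstep, hle.trans_lt hy.2⟩ hstep
      have e : x + ((l + 1 : ℕ) : ℝ) * h - (x + (l : ℝ) * h) = h := by push_cast; ring
      rw [e] at this
      nlinarith [mul_nonneg (show 0 ≤ tailQ g T (x + (l : ℝ) * h) - h by linarith) (sub_nonneg.2 hm)]
  have := key (N + 1) le_rfl
  rwa [hh, show x + ((N + 1 : ℕ) : ℝ) * ((y - x) / (N + 1)) = y by push_cast; field_simp; ring]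
    at this

theorem Marg.tailQ_anti (hg : Marg g T) {x y : ℝ} (hx : 0 < x) (hxy : x ≤ y) (hy : y < T) :
    tailQ g T y ≤ tailQ g T x := by
  have h2 := hg.tailQ_sub hx hxy hy
  have h3 : ∫ z in x..y, (-1 + tailQ g T z * slopeW g z) ≤ 0 :=
    le_trans (intervalIntegral.integral_mono_on (g := fun _ => (0 : ℝ)) hxy
      (intervalIntegrable_const.add ((hg.intervalIntegrable_slopeW hx hxy hy).continuousOn_mul (by
        rw [uIcc_of_le hxy]
        exact hg.continuousOn_tailQ.mono fun z hz => ⟨hx.trans_le hz.1, hz.2.trans_lt hy⟩)))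
      intervalIntegrable_const fun z hz => by
        linarith [(hg.tailRatio_mem ⟨hx.trans_le hz.1, hz.2.trans_lt hy⟩).2])
      (le_of_eq (by simp))
  linarith

theorem Marg.step_le (hg : Marg g T) {a x y t : ℝ} (ha : 0 < a) (hax : a ≤ x) (hxy : x < y)
    (hyt : y ≤ t) (ht : t < T) (hq : y - x ≤ tailQ g T t) (hs : (y - x) * slopeW g t ≤ 1) :
    (1 - (y - x) / tailQ g T t) * (1 - (y - x) * slopeW g t) *
        ((y - x) * (slopeW g y - slopeW g x))
      ≤ (-Real.log (tail g T y) - -Real.log (tail g T x)) *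
          (psiTail g T a y - psiTail g T a x) := by
  have hx0 : 0 < x := ha.trans_le hax
  have hxm : x ∈ Ioo 0 T := ⟨hx0, by linarith⟩
  have hym : y ∈ Ioo 0 T := ⟨by linarith, by linarith⟩
  have htm : t ∈ Ioo 0 T := ⟨by linarith, ht⟩
  have hgx := hg.pos x ⟨hx0.le, hxm.2⟩
  have hgy := hg.pos y ⟨hym.1.le, hym.2⟩
  have hGx := hg.tail_pos hxm
  have hqt : 0 < tailQ g T t := div_pos (hg.tail_pos htm) (hg.pos t ⟨htm.1.le, ht⟩)
  have hqx : 0 < tailQ g T x := div_pos hGx hgx
  have hanti := hg.tailQ_anti hx0 (by linarith : x ≤ t) ht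
  have hσ := hg.slopeW_mono hxm hym hxy.le
  have h1 := hg.logTail_sub hx0 hxy.le hym.2
  have h2 := hg.psiTail_sub ha hax hxy.le hym.2
  have h3 : 1 - (y - x) * slopeW g t ≤ g y / g x := by
    have h4 := hg.slope_le_slopeW hx0 hxy hym.2
    rw [div_le_iff₀ (by linarith)] at h4
    have h5 := hg.slopeW_mono hym htm hyt
    have h6 := Real.log_le_sub_one_of_pos (div_pos hgx hgy)
    have h7 : Real.log (g y / g x) + 1 ≤ g y / g x := by
      linarith [Real.log_le_sub_one_of_pos (div_pos hgy hgx)]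
    rw [Real.log_div hgy.ne' hgx.ne'] at h7
    nlinarith [mul_le_mul_of_nonneg_left h5 (by linarith : (0 : ℝ) ≤ y - x)]
  have h4 : 1 - (y - x) / tailQ g T t ≤ (tailQ g T x - (y - x)) / tailQ g T x := by
    rw [show (tailQ g T x - (y - x)) / tailQ g T x = 1 - (y - x) / tailQ g T x by field_simp]
    linarith [div_le_div_of_nonneg_left (by linarith : (0 : ℝ) ≤ y - x) hqt hanti]
  have hL : (y - x) * g y / tail g T x = g y / g x * ((y - x) / tailQ g T x) := by
    rw [tailQ]; field_simp
  calc (1 - (y - x) / tailQ g T t) * (1 - (y - x) * slopeW g t) *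
        ((y - x) * (slopeW g y - slopeW g x))
      ≤ (tailQ g T x - (y - x)) / tailQ g T x * (g y / g x) *
          ((y - x) * (slopeW g y - slopeW g x)) :=
        mul_le_mul_of_nonneg_right (mul_le_mul h4 h3 (by linarith)
          (div_nonneg (by linarith) hqx.le)) (mul_nonneg (by linarith) (by linarith))
    _ = (y - x) * g y / tail g T x * ((tailQ g T x - (y - x)) * (slopeW g y - slopeW g x)) := by
        rw [hL]; ring
    _ ≤ _ := mul_le_mul h1 h2 (mul_nonneg (by linarith) (by linarith))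
        (le_trans (div_nonneg (mul_nonneg (by linarith) hgy.le) hGx.le) h1)

/-- The increments against the product of the increments of `L` and `psiTail`. -/
theorem increment_tail (hg : Marg g T) (h : GainLoc g T e ρ) (hρ0 : 0 ≤ ρ) (hρ1 : ρ ≤ 1)
    {a s t : ℝ} (ha : 0 < a) (has : a ≤ s) (hst : s < t) (ht : t < T) :
    ∑ j, (e j t - e j s) ^ 2 ≤ (2 - ρ) * ((-Real.log (tail g T t) - -Real.log (tail g T s)) *
      (psiTail g T a t - psiTail g T a s)) := by
  have htm : t ∈ Ioo 0 T := ⟨by linarith, ht⟩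
  have hqt : 0 < tailQ g T t := div_pos (hg.tail_pos htm) (hg.pos t ⟨htm.1.le, ht⟩)
  have hσt := hg.slopeW_nonneg htm
  set η : ℕ → ℝ := fun N => (t - s) / (N + 1) with hη
  have hη0 : ∀ N, 0 < η N := fun N => div_pos (by linarith) (by positivity)
  have hηlim : Tendsto η atTop (𝓝 0) := by
    have := (tendsto_one_div_add_atTop_nhds_zero_nat).const_mul (t - s)
    rw [mul_zero] at this
    exact this.congr fun N => by simp only [hη]; ring
  set f : ℕ → ℝ := fun N => (1 - η N / tailQ g T t) * (1 - η N * slopeW g t) with hf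
  have hflim : Tendsto (fun N => f N * ∑ j, (e j t - e j s) ^ 2) atTop
      (𝓝 (∑ j, (e j t - e j s) ^ 2)) := by
    have := (((hηlim.div_const (tailQ g T t)).const_sub 1).mul
      ((hηlim.mul_const (slopeW g t)).const_sub 1)).mul_const (∑ j, (e j t - e j s) ^ 2)
    simpa using this
  refine le_of_tendsto hflim ?_
  filter_upwards [hηlim.eventually (eventually_le_nhds hqt),
    (hηlim.mul_const (slopeW g t)).eventually
      (eventually_le_nhds (show 0 * slopeW g t < 1 by simp))] with N hN1 hN2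
  set p : ℕ → ℝ := fun l => s + l * η N with hp
  have hend : p (N + 1) = t := by simp only [hp, hη]; push_cast; field_simp; ring
  have hmono : ∀ l, l ≤ N + 1 → a ≤ p l ∧ p l ≤ t := fun l hl => by
    have h1 : (l : ℝ) * η N ≤ ((N + 1 : ℕ) : ℝ) * η N :=
      mul_le_mul_of_nonneg_right (by exact_mod_cast hl) (hη0 N).le
    have h2 : 0 ≤ (l : ℝ) * η N := mul_nonneg (Nat.cast_nonneg _) (hη0 N).le
    simp only [hp] at hend ⊢
    constructor <;> linarith
  have hgap : ∀ l, p (l + 1) - p l = η N := fun l => by simp only [hp]; push_cast; ring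
  set dL : ℕ → ℝ := fun l => -Real.log (tail g T (p (l + 1))) - -Real.log (tail g T (p l)) with hdL
  set dP : ℕ → ℝ := fun l => psiTail g T a (p (l + 1)) - psiTail g T a (p l) with hdP
  have hf0 : 0 ≤ f N := mul_nonneg
    (by rw [sub_nonneg, div_le_one hqt]; exact hN1) (by linarith)
  have hpos : ∀ l < N + 1, 0 < dL l := fun l hl => by
    have h0 := hmono l (by omega)
    have h1 := hmono (l + 1) (by omega)
    have hp0 : 0 < p l := ha.trans_le h0.1
    have hlt : p l ≤ p (l + 1) := by linarith [hgap l, hη0 N]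
    refine lt_of_lt_of_le ?_ (hg.logTail_sub hp0 hlt (h1.2.trans_lt ht))
    rw [hgap l]
    exact div_pos (mul_pos (hη0 N) (hg.pos _ ⟨(ha.trans_le h1.1).le, h1.2.trans_lt ht⟩))
      (hg.tail_pos ⟨hp0, h0.2.trans_lt ht⟩)
  have hloc : ∀ l < N + 1, f N * ((∑ j, (e j (p (l + 1)) - e j (p l)) ^ 2) / dL l)
      ≤ (2 - ρ) * dP l := fun l hl => by
    have h0 := hmono l (by omega)
    have h1 := hmono (l + 1) (by omega)
    have hlt : p l < p (l + 1) := by linarith [hgap l, hη0 N]
    have h2 := increment_slopeW hg h hρ0 hρ1 (ha.trans_le h0.1) hlt (h1.2.trans_lt ht)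
    have h3 := hg.step_le ha h0.1 hlt h1.2 ht (by rw [hgap l]; exact hN1) (by rw [hgap l]; exact hN2)
    rw [hgap l] at h2 h3
    rw [← mul_div_assoc, div_le_iff₀ (hpos l hl)]
    calc f N * ∑ j, (e j (p (l + 1)) - e j (p l)) ^ 2
        ≤ f N * ((2 - ρ) * η N * (slopeW g (p (l + 1)) - slopeW g (p l))) :=
          mul_le_mul_of_nonneg_left h2 hf0
      _ = (2 - ρ) * (f N * (η N * (slopeW g (p (l + 1)) - slopeW g (p l)))) := by ring
      _ ≤ (2 - ρ) * (dL l * dP l) := mul_le_mul_of_nonneg_left h3 (by linarith)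
      _ = _ := by ring
  have htL : ∑ l ∈ Finset.range (N + 1), dL l
      = -Real.log (tail g T t) - -Real.log (tail g T s) := by
    simp only [hdL]
    rw [Finset.sum_range_sub (fun l => -Real.log (tail g T (p l))), hend]
    simp [hp]
  have htP : ∑ l ∈ Finset.range (N + 1), dP l = psiTail g T a t - psiTail g T a s := by
    simp only [hdP]
    rw [Finset.sum_range_sub (fun l => psiTail g T a (p l)), hend]
    simp [hp]
  have hS : 0 < ∑ l ∈ Finset.range (N + 1), dL l :=
    Finset.sum_pos (fun l hl => hpos l (Finset.mem_range.1 hl)) ⟨0, by simp⟩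
  have hCS : ∀ j, (e j t - e j s) ^ 2 ≤ (∑ l ∈ Finset.range (N + 1), dL l) *
      ∑ l ∈ Finset.range (N + 1), (e j (p (l + 1)) - e j (p l)) ^ 2 / dL l := fun j => by
    have := Finset.sq_sum_div_le_sum_sq_div (Finset.range (N + 1))
      (fun l => e j (p (l + 1)) - e j (p l)) (g := dL) fun l hl => hpos l (Finset.mem_range.1 hl)
    rw [Finset.sum_range_sub (fun l => e j (p l)), hend] at this
    simp only [hp, Nat.cast_zero, zero_mul, add_zero] at this
    rwa [div_le_iff₀' hS] at this
  calc f N * ∑ j, (e j t - e j s) ^ 2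
      ≤ f N * ∑ j, (∑ l ∈ Finset.range (N + 1), dL l) *
          ∑ l ∈ Finset.range (N + 1), (e j (p (l + 1)) - e j (p l)) ^ 2 / dL l :=
        mul_le_mul_of_nonneg_left (Finset.sum_le_sum fun j _ => hCS j) hf0
    _ = (∑ l ∈ Finset.range (N + 1), dL l) * ∑ l ∈ Finset.range (N + 1),
          f N * ((∑ j, (e j (p (l + 1)) - e j (p l)) ^ 2) / dL l) := by
        rw [← Finset.mul_sum, Finset.sum_comm, mul_left_comm, Finset.mul_sum (a := f N)]
        simp only [Finset.sum_div]
    _ ≤ (∑ l ∈ Finset.range (N + 1), dL l) * ∑ l ∈ Finset.range (N + 1), (2 - ρ) * dP l :=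
        mul_le_mul_of_nonneg_left (Finset.sum_le_sum fun l hl => hloc l (Finset.mem_range.1 hl))
          hS.le
    _ = _ := by rw [← Finset.mul_sum, htL, htP]; ring

end

end Vale.P254.E
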