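import Mathlib
import Vale.Agent.P254.E.LossTail

/-!
Averaging `increment_tail` over pairs of heights and letting the interval exhaust `[0, T]`:
the total variance of the slice means is at most `tailLoss (2 - ρ) g T`.
-/

namespace Vale.P254.E

open MeasureTheory Set Filter Topology

variable {m : ℕ}

/-- The pair sum of two functions, as a covariance. -/
theorem pairs_identity {g u v : ℝ → ℝ} {a b : ℝ} (hg : IntervalIntegrable g volume a b)
    (hu : IntervalIntegrable (fun t => g t * u t) volume a b)
    (hv : IntervalIntegrable (fun t => g t * v t) volume a b)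
    (huv : IntervalIntegrable (fun t => g t * (u t * v t)) volume a b) :
    IntervalIntegrable (fun s => g s * ∫ t in a..b, g t * ((u t - u s) * (v t - v s))) volume a b ∧
    ∫ s in a..b, g s * ∫ t in a..b, g t * ((u t - u s) * (v t - v s))
      = 2 * ((∫ t in a..b, g t) * (∫ t in a..b, g t * (u t * v t))
          - (∫ t in a..b, g t * u t) * ∫ t in a..b, g t * v t) := by
  have e : (fun s => g s * ∫ t in a..b, g t * ((u t - u s) * (v t - v s)))
      = fun s => (∫ t in a..b, g t * (u t * v t)) * g s - (∫ t in a..b, g t * v t) * (g s * u s)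
          - (∫ t in a..b, g t * u t) * (g s * v s) + (∫ t in a..b, g t) * (g s * (u s * v s)) := by
    funext s
    have : (fun t => g t * ((u t - u s) * (v t - v s))) = fun t =>
        g t * (u t * v t) - u s * (g t * v t) - v s * (g t * u t) + u s * v s * g t := by
      funext t; ring
    rw [this, intervalIntegral.integral_add ((huv.sub (hv.const_mul _)).sub (hu.const_mul _))
        (hg.const_mul _), intervalIntegral.integral_sub (huv.sub (hv.const_mul _)) (hu.const_mul _),
      intervalIntegral.integral_sub huv (hv.const_mul _), intervalIntegral.integral_const_mul,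
      intervalIntegral.integral_const_mul, intervalIntegral.integral_const_mul]
    ring
  have h1 := hg.const_mul (∫ t in a..b, g t * (u t * v t))
  have h2 := hu.const_mul (∫ t in a..b, g t * v t)
  have h3 := hv.const_mul (∫ t in a..b, g t * u t)
  have h4 := huv.const_mul (∫ t in a..b, g t)
  refine ⟨by rw [e]; exact ((h1.sub h2).sub h3).add h4, ?_⟩
  rw [e, intervalIntegral.integral_add ((h1.sub h2).sub h3) h4,
    intervalIntegral.integral_sub (h1.sub h2) h3, intervalIntegral.integral_sub h1 h2,
    intervalIntegral.integral_const_mul, intervalIntegral.integral_const_mul,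
    intervalIntegral.integral_const_mul, intervalIntegral.integral_const_mul]
  ring

section
variable {g : ℝ → ℝ} {T ρ : ℝ} {e : Fin m → ℝ → ℝ}

theorem Marg.subset_Ioo {a b : ℝ} (ha : 0 < a) (hb : b < T) : Icc a b ⊆ Ioo 0 T :=
  fun _ hz => ⟨ha.trans_le hz.1, hz.2.trans_lt hb⟩

theorem Marg.continuousOn_logTail (hg : Marg g T) :
    ContinuousOn (fun x => -Real.log (tail g T x)) (Ioo 0 T) := by
  refine (ContinuousOn.log (fun x hx => ?_) fun x hx => (hg.tail_pos hx).ne').neg
  exact (hg.hasDeriv_tail hx).continuousAt.continuousWithinAt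

theorem Marg.intervalIntegrable_psi' (hg : Marg g T) {a b : ℝ} (ha : 0 < a) (hab : a ≤ b)
    (hb : b < T) : IntervalIntegrable
      (fun z => slopeW g z * (1 - tailQ g T z * slopeW g z)) volume a b := by
  have hs := hg.intervalIntegrable_slopeW ha hab hb
  have hm : AEStronglyMeasurable (slopeW g) (volume.restrict (uIoc a b)) :=
    hs.def'.aestronglyMeasurable
  refine hs.mono_fun (hm.mul (aestronglyMeasurable_const.sub (AEStronglyMeasurable.mul ?_ hm))) ?_
  · exact ((hg.continuousOn_tailQ.mono (Marg.subset_Ioo ha hb)).aestronglyMeasurable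
      measurableSet_Icc).mono_measure (Measure.restrict_mono
        (by rw [uIoc_of_le hab]; exact Ioc_subset_Icc_self) le_rfl)
  · rw [EventuallyLE, ae_restrict_iff' measurableSet_uIoc]
    refine Eventually.of_forall fun z hz => ?_
    rw [uIoc_of_le hab] at hz
    have h := hg.tailRatio_mem (Marg.subset_Ioo ha hb ⟨hz.1.le, hz.2⟩)
    rw [norm_mul]
    exact mul_le_of_le_one_right (norm_nonneg _)
      (by rw [Real.norm_eq_abs, abs_le]; constructor <;> linarith [h.1, h.2])

/-- The covariance of `L` and `psiTail` on an interval. -/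
theorem Marg.pair_bound (hg : Marg g T) {a b : ℝ} (ha : 0 < a) (hab : a < b) (hb : b < T) :
    (∫ t in a..b, g t) * (∫ t in a..b, g t * (-Real.log (tail g T t) * psiTail g T a t))
        - (∫ t in a..b, g t * -Real.log (tail g T t)) * ∫ t in a..b, g t * psiTail g T a t
      ≤ (∫ t in a..b, g t) *
          (∫ t in a..b, g t * (tailRatio g T t * (2 - tailRatio g T t) * -Real.log (tail g T t)
            - tailRatio g T t))
        + ((∫ t in a..b, g t) - ∫ t in a..b, g t * -Real.log (tail g T t))
          * ∫ t in a..b, g t * tailRatio g T t := by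
  have hsub := Marg.subset_Ioo (T := T) ha hb
  set L : ℝ → ℝ := fun t => -Real.log (tail g T t) with hL
  set M := ∫ t in a..b, g t with hM
  have hgc := hg.continuousOn.mono hsub
  have hLc := hg.continuousOn_logTail.mono hsub
  have hqc := hg.continuousOn_tailQ.mono hsub
  have hgi : IntervalIntegrable g volume a b := hgc.intervalIntegrable_of_Icc hab.le
  have hσi := hg.intervalIntegrable_slopeW ha hab.le hb
  have hMpos : 0 < M := intervalIntegral.intervalIntegral_pos_of_pos_on hgi
    (fun x hx => hg.pos x ⟨(ha.trans hx.1).le, hx.2.trans hb⟩) hab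
  set c := (∫ t in a..b, g t * L t) / M with hc
  set R : ℝ → ℝ := fun x => ∫ z in a..x, slopeW g z * (1 - tailQ g T z * slopeW g z) with hR
  set H : ℝ → ℝ := fun x => -(tail g T x * L x) + tail g T a * L a
      + (1 - c) * (tail g T a - tail g T x) with hH
  have hHd : ∀ x ∈ Icc a b, HasDerivAt H (g x * (L x - c)) x := fun x hx => by
    have hG := hg.hasDeriv_tail (hsub hx)
    have hLd : HasDerivAt L (g x / tail g T x) x :=
      (hG.log (hg.tail_pos (hsub hx)).ne').neg.congr_deriv (by ring)
    refine (((hG.mul hLd).neg.add_const _).add ((hG.const_sub (tail g T a)).const_mul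
      (1 - c))).congr_deriv ?_
    have := (hg.tail_pos (hsub hx)).ne'
    field_simp
    ring
  have hHc : ContinuousOn H (Icc a b) := fun x hx => (hHd x hx).continuousAt.continuousWithinAt
  have hH' : ContinuousOn (fun x => g x * (L x - c)) (Icc a b) := hgc.mul (hLc.sub continuousOn_const)
  have hHa : H a = 0 := by simp [hH]
  have hHb : H b = 0 := by
    have h1 := intervalIntegral.integral_eq_sub_of_hasDerivAt
      (fun x hx => hHd x (by rwa [uIcc_of_le hab.le] at hx)) (hH'.intervalIntegrable_of_Icc hab.le)
    have h2 : ∫ x in a..b, g x * (L x - c) = 0 := by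
      have : (fun x => g x * (L x - c)) = fun x => g x * L x - c * g x := by funext x; ring
      rw [this, intervalIntegral.integral_sub (by
          exact (hgc.mul hLc).intervalIntegrable_of_Icc hab.le)
        (hgi.const_mul _), intervalIntegral.integral_const_mul, ← hM, hc,
        div_mul_cancel₀ _ hMpos.ne', sub_self]
    linarith
  have hRi := hg.intervalIntegrable_psi' ha hab.le hb
  have hRc : ContinuousOn R (Icc a b) := by
    have := intervalIntegral.continuousOn_primitive_interval' hRi (left_mem_uIcc)
    rwa [uIcc_of_le hab.le] at this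
  set S := {x ∈ Ioo a b | ¬ ContinuousWithinAt (slopeW g) (Ioo a b) x} with hS
  have hScount : S.Countable :=
    (hg.slopeW_mono.mono (Ioo_subset_Icc_self.trans hsub)).countable_not_continuousWithinAt
  have hHR : ∫ x in a..b, (g x * (L x - c) * R x
      + H x * (slopeW g x * (1 - tailQ g T x * slopeW g x))) = 0 := by
    have i1 : IntervalIntegrable (fun x => g x * (L x - c) * R x) volume a b :=
      (hH'.mul hRc).intervalIntegrable_of_Icc hab.le
    have i2 : IntervalIntegrable
        (fun x => H x * (slopeW g x * (1 - tailQ g T x * slopeW g x))) volume a b :=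
      hRi.continuousOn_mul (by rwa [uIcc_of_le hab.le])
    rw [MeasureTheory.integral_eq_of_hasDerivAt_off_countable_of_le (fun x => H x * R x) _ hab.le
      hScount (hHc.mul hRc) (fun x hx => ?_) (i1.add i2), hHa, hHb]
    · simp
    have hxI : x ∈ Icc a b := ⟨hx.1.1.le, hx.1.2.le⟩
    have hσc : ContinuousAt (slopeW g) x := by
      by_contra hne
      exact hx.2 ⟨hx.1, fun hw => hne (hw.continuousAt (isOpen_Ioo.mem_nhds hx.1))⟩
    have hqa : ContinuousAt (tailQ g T) x :=
      hg.continuousOn_tailQ.continuousAt (isOpen_Ioo.mem_nhds (hsub hxI))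
    have hRd : HasDerivAt R (slopeW g x * (1 - tailQ g T x * slopeW g x)) x :=
      intervalIntegral.integral_hasDerivAt_right
        (hRi.mono_set (by rw [uIcc_of_le hx.1.1.le, uIcc_of_le hab.le]; exact Icc_subset_Icc_right hx.1.2.le))
        ⟨Ioc a b, mem_of_superset (isOpen_Ioo.mem_nhds hx.1) Ioo_subset_Ioc_self, by
          have := hRi.1.aestronglyMeasurable; exact this⟩
        (hσc.mul (continuousAt_const.sub (hqa.mul hσc)))
    exact (hHd x hxI).mul hRd
  have hqσ : IntervalIntegrable (fun t => g t * (L t - c) * (tailQ g T t * slopeW g t)) volume a b :=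
    (hσi.continuousOn_mul (by rw [uIcc_of_le hab.le]; exact hqc)).continuousOn_mul
      (by rw [uIcc_of_le hab.le]; exact hH')
  have hHR' : IntervalIntegrable
      (fun t => H t * (slopeW g t * (1 - tailQ g T t * slopeW g t))) volume a b :=
    hRi.continuousOn_mul (by rwa [uIcc_of_le hab.le])
  have hgLR : IntervalIntegrable (fun t => g t * (L t - c) * R t) volume a b :=
    (hH'.mul hRc).intervalIntegrable_of_Icc hab.le
  have hρi : IntervalIntegrable (fun t => g t * tailRatio g T t) volume a b := by
    refine ((hσi.continuousOn_mul (by rw [uIcc_of_le hab.le]; exact hqc)).continuousOn_mul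
      (by rw [uIcc_of_le hab.le]; exact hgc)).congr fun t _ => ?_
    simp only [tailRatio, tailQ]; ring
  have hgΨ : IntervalIntegrable (fun t => g t * psiTail g T a t) volume a b := by
    refine (((hσi.continuousOn_mul (by rw [uIcc_of_le hab.le]; exact hqc)).continuousOn_mul
      (by rw [uIcc_of_le hab.le]; exact hgc)).add
      ((hgc.mul hRc).intervalIntegrable_of_Icc hab.le)).congr fun t _ => ?_
    simp only [psiTail, hR, Pi.mul_apply]; ring
  have hgLΨ : IntervalIntegrable (fun t => g t * (L t * psiTail g T a t)) volume a b :=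
    (hgΨ.continuousOn_mul (by rw [uIcc_of_le hab.le]; exact hLc)).congr fun t _ => by ring
  have key : M * (∫ t in a..b, g t * (L t * psiTail g T a t))
      - (∫ t in a..b, g t * L t) * ∫ t in a..b, g t * psiTail g T a t
      = M * ∫ t in a..b, (g t * (L t - c) * (tailQ g T t * slopeW g t)
          - H t * (slopeW g t * (1 - tailQ g T t * slopeW g t))) := by
    rw [intervalIntegral.integral_add hgLR hHR'] at hHR
    have e1 : (fun t => g t * (L t * psiTail g T a t)) = fun t =>
        c * (g t * psiTail g T a t) + (g t * (L t - c) * (tailQ g T t * slopeW g t)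
          + g t * (L t - c) * R t) := by
      funext t; simp only [psiTail, hR]; ring
    rw [e1, intervalIntegral.integral_add (hgΨ.const_mul _) (hqσ.add hgLR),
      intervalIntegral.integral_add hqσ hgLR, intervalIntegral.integral_const_mul,
      intervalIntegral.integral_sub hqσ hHR',
      show (∫ t in a..b, g t * L t) = c * M from (div_mul_cancel₀ _ hMpos.ne').symm]
    linear_combination M * hHR
  have hHge : ∀ t ∈ Icc a b, -(tail g T t * L t) ≤ H t := fun t ht => by
    have hLnn : ∀ z ∈ Icc a b, 0 ≤ tail g T z * L z := fun z hz => mul_nonneg (hg.tail_pos (hsub hz)).le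
      (neg_nonneg.2 (Real.log_nonpos (hg.tail_pos (hsub hz)).le (hg.tail_le_one (hsub hz).1.le)))
    have hanti : ∀ u v, a ≤ u → u ≤ v → v ≤ b → tail g T v ≤ tail g T u := fun u v hu huv hv =>
      setIntegral_mono_set (hg.integrableOn.mono_set (Ioc_subset_Ioc_left (ha.trans_le hu).le))
        (Eventually.of_forall fun z => hg.nonneg z) (Ioc_subset_Ioc_left huv).eventuallyLE
    have h1 := hanti a t le_rfl ht.1 ht.2
    have h2 := hanti t b ht.1 ht.2 le_rfl
    have h3 := hLnn a ⟨le_rfl, hab.le⟩
    have h4 := hLnn b ⟨hab.le, le_rfl⟩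
    simp only [hH] at hHb ⊢
    rcases le_total 0 (1 - c) with h | h
    · nlinarith
    · nlinarith
  have hgLρ : IntervalIntegrable (fun t => g t * (tailRatio g T t * (2 - tailRatio g T t) * L t
      - tailRatio g T t)) volume a b := by
    have i1 := hqσ
    have i2 : IntervalIntegrable
        (fun t => tail g T t * L t * (slopeW g t * (1 - tailQ g T t * slopeW g t))) volume a b :=
      hRi.continuousOn_mul (by
        rw [uIcc_of_le hab.le]
        exact ContinuousOn.mul (fun z hz => (hg.hasDeriv_tail (hsub hz)).continuousAt.continuousWithinAt) hLc)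
    refine ((i1.add i2).sub (hρi.const_mul (1 - c))).congr fun t ht => ?_
    rw [uIoc_of_le hab.le] at ht
    have := (hg.pos t ⟨(hsub ⟨ht.1.le, ht.2⟩).1.le, (hsub ⟨ht.1.le, ht.2⟩).2⟩).ne'
    simp only [tailRatio, tailQ]
    field_simp
    ring
  calc _ = M * ∫ t in a..b, (g t * (L t - c) * (tailQ g T t * slopeW g t)
          - H t * (slopeW g t * (1 - tailQ g T t * slopeW g t))) := key
    _ ≤ M * ∫ t in a..b, (g t * (tailRatio g T t * (2 - tailRatio g T t) * L t - tailRatio g T t)
          + (1 - c) * (g t * tailRatio g T t)) := by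
        refine mul_le_mul_of_nonneg_left (intervalIntegral.integral_mono_on hab.le
          (hqσ.sub hHR') (hgLρ.add (hρi.const_mul _)) fun t ht => ?_) hMpos.le
        have hρ := hg.tailRatio_mem (hsub ht)
        have hgt := (hg.pos t ⟨(hsub ht).1.le, (hsub ht).2⟩)
        have h5 : 0 ≤ slopeW g t * (1 - tailQ g T t * slopeW g t) :=
          mul_nonneg (hg.slopeW_nonneg (hsub ht)) (by linarith [hρ.2])
        have h6 := mul_le_mul_of_nonneg_right (hHge t ht) h5
        have e2 : g t * (tailRatio g T t * (2 - tailRatio g T t) * L t - tailRatio g T t)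
            + (1 - c) * (g t * tailRatio g T t) = g t * (L t - c) * (tailQ g T t * slopeW g t)
            + tail g T t * L t * (slopeW g t * (1 - tailQ g T t * slopeW g t)) := by
          simp only [tailRatio, tailQ]; field_simp; ring
        rw [e2]
        linarith
    _ = _ := by
        rw [intervalIntegral.integral_add hgLρ (hρi.const_mul _), intervalIntegral.integral_const_mul]
        simp only [hc, hL]
        field_simp

end

end Vale.P254.E
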