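import Mathlib
import Vale.Agent.P254.E.LossPairs

/-!
The total variance of the slice means is at most `tailLoss (2 - ρ) g T`.
-/

namespace Vale.P254.E

open MeasureTheory Set Filter Topology

variable {m : ℕ} {g : ℝ → ℝ} {T ρ : ℝ} {e : Fin m → ℝ → ℝ}

theorem GainLoc.continuousOn_path (hg : Marg g T) (h : GainLoc g T e ρ) (hρ0 : 0 ≤ ρ)
    (hρ1 : ρ ≤ 1) {a b : ℝ} (ha : 0 < a) (hb : b < T) (j : Fin m) :
    ContinuousOn (e j) (Icc a b) := by
  intro x hx
  set C := (2 - ρ) * (slopeW g b - slopeW g a) with hC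
  have hbd : ∀ s ∈ Icc a b, ∀ t ∈ Icc a b, s ≤ t → |e j t - e j s| ≤ Real.sqrt (C * (t - s)) := by
    intro s hs t ht hst
    rcases hst.eq_or_lt with rfl | hlt
    · simp
    rw [← Real.sqrt_sq_eq_abs]
    refine Real.sqrt_le_sqrt ((Finset.single_le_sum (f := fun l => (e l t - e l s) ^ 2)
      (fun l _ => sq_nonneg _) (Finset.mem_univ j)).trans
      ((increment_slopeW hg h hρ0 hρ1 (ha.trans_le hs.1) hlt (ht.2.trans_lt hb)).trans ?_))
    have h1 := hg.slopeW_mono (Marg.subset_Ioo ha hb ⟨le_rfl, hs.1.trans hs.2⟩)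
      (Marg.subset_Ioo ha hb hs) hs.1
    have h2 := hg.slopeW_mono (Marg.subset_Ioo ha hb ht)
      (Marg.subset_Ioo ha hb ⟨hs.1.trans hs.2, le_rfl⟩) ht.2
    rw [hC, mul_right_comm (2 - ρ) (slopeW g b - slopeW g a)]
    exact mul_le_mul_of_nonneg_left (by linarith) (mul_nonneg (by linarith) (by linarith))
  refine tendsto_sub_nhds_zero_iff.1 (squeeze_zero_norm'
    (a := fun t => Real.sqrt (C * |t - x|)) ?_ ?_)
  · filter_upwards [self_mem_nhdsWithin] with t ht
    rw [Real.norm_eq_abs]
    rcases le_total x t with h1 | h1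
    · rw [abs_of_nonneg (sub_nonneg.2 h1)]; exact hbd x hx t ht h1
    · rw [abs_sub_comm, abs_sub_comm t x, abs_of_nonneg (sub_nonneg.2 h1)]
      exact hbd t ht x hx h1
  · have hc : Continuous fun t => Real.sqrt (C * |t - x|) := by fun_prop
    simpa using (hc.tendsto x).mono_left (nhdsWithin_le_nhds (s := Icc a b))

/-- The variance on a compact interval of heights. -/
theorem interval_var_le (hg : Marg g T) (h : GainLoc g T e ρ) (hρ0 : 0 ≤ ρ) (hρ1 : ρ ≤ 1)
    {a b : ℝ} (ha : 0 < a) (hab : a < b) (hb : b < T) :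
    ∑ j, ((∫ t in a..b, g t) * (∫ t in a..b, g t * e j t ^ 2) - (∫ t in a..b, g t * e j t) ^ 2)
      ≤ (2 - ρ) * ((∫ t in a..b, g t) *
          (∫ t in a..b, g t * (tailRatio g T t * (2 - tailRatio g T t) * -Real.log (tail g T t)
            - tailRatio g T t))
        + ((∫ t in a..b, g t) - ∫ t in a..b, g t * -Real.log (tail g T t))
          * ∫ t in a..b, g t * tailRatio g T t) := by
  have hsub := Marg.subset_Ioo (T := T) ha hb
  have hu : uIcc a b = Icc a b := uIcc_of_le hab.le
  have hgc := hg.continuousOn.mono hsub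
  have hgi : IntervalIntegrable g volume a b := hgc.intervalIntegrable_of_Icc hab.le
  have hec := fun j => h.continuousOn_path hg hρ0 hρ1 ha hb j
  set L : ℝ → ℝ := fun t => -Real.log (tail g T t) with hL
  set P := psiTail g T a with hP
  have hLc : ContinuousOn L (Icc a b) := hg.continuousOn_logTail.mono hsub
  have hPi : IntervalIntegrable P volume a b := MonotoneOn.intervalIntegrable
    ((hg.psiTail_mono ha).mono (by rw [hu]; exact fun z hz => ⟨hz.1, hz.2.trans_lt hb⟩))
  have iu : IntervalIntegrable (fun t => g t * L t) volume a b :=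
    (hgc.mul hLc).intervalIntegrable_of_Icc hab.le
  have iv : IntervalIntegrable (fun t => g t * P t) volume a b :=
    hPi.continuousOn_mul (by rwa [hu])
  have iuv : IntervalIntegrable (fun t => g t * (L t * P t)) volume a b :=
    (hPi.continuousOn_mul (f := P) (g := fun t => g t * L t) (by rw [hu]; exact hgc.mul hLc)).congr
      fun t _ => by ring
  have ie : ∀ j, IntervalIntegrable (fun t => g t * e j t) volume a b :=
    fun j => (hgc.mul (hec j)).intervalIntegrable_of_Icc hab.le
  have iee : ∀ j, IntervalIntegrable (fun t => g t * (e j t * e j t)) volume a b :=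
    fun j => (hgc.mul ((hec j).mul (hec j))).intervalIntegrable_of_Icc hab.le
  obtain ⟨hRi, hR⟩ := pairs_identity hgi iu iv iuv
  have hLi : IntervalIntegrable
      (fun s => ∑ j, g s * ∫ t in a..b, g t * ((e j t - e j s) * (e j t - e j s))) volume a b := by
    rw [show (fun s => ∑ j, g s * ∫ t in a..b, g t * ((e j t - e j s) * (e j t - e j s)))
      = ∑ j, (fun s => g s * ∫ t in a..b, g t * ((e j t - e j s) * (e j t - e j s))) from
        (Finset.sum_fn _ _).symm]
    exact IntervalIntegrable.sum _ fun j _ => (pairs_identity hgi (ie j) (ie j) (iee j)).1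
  have hsym : ∀ s ∈ Icc a b, ∀ t ∈ Icc a b, ∑ j, (e j t - e j s) * (e j t - e j s)
      ≤ (2 - ρ) * ((L t - L s) * (P t - P s)) := by
    intro s hs t ht
    simp only [← sq]
    rcases lt_trichotomy s t with h1 | h1 | h1
    · exact increment_tail hg h hρ0 hρ1 ha hs.1 h1 (ht.2.trans_lt hb)
    · simp [h1]
    · have h2 := increment_tail hg h hρ0 hρ1 ha ht.1 h1 (hs.2.trans_lt hb)
      have e1 : ∀ j, (e j t - e j s) ^ 2 = (e j s - e j t) ^ 2 := fun j => by ring
      simp only [e1, hL, hP]
      linarith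
  have main : ∫ s in a..b, ∑ j, g s * ∫ t in a..b, g t * ((e j t - e j s) * (e j t - e j s))
      ≤ (2 - ρ) * ∫ s in a..b, g s * ∫ t in a..b, g t * ((L t - L s) * (P t - P s)) := by
    rw [← intervalIntegral.integral_const_mul]
    refine intervalIntegral.integral_mono_on hab.le hLi (hRi.const_mul _) fun s hs => ?_
    rw [← Finset.mul_sum, mul_left_comm]
    refine mul_le_mul_of_nonneg_left ?_ (hg.nonneg s)
    have i1 : ∀ j, IntervalIntegrable
        (fun t => g t * ((e j t - e j s) * (e j t - e j s))) volume a b := fun j =>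
      (hgc.mul (((hec j).sub continuousOn_const).mul
        ((hec j).sub continuousOn_const))).intervalIntegrable_of_Icc hab.le
    have i2 : IntervalIntegrable (fun t => g t * ((L t - L s) * (P t - P s))) volume a b :=
      (((hPi.sub (intervalIntegrable_const (c := P s))).continuousOn_mul
        (g := fun t => g t * (L t - L s))
        (by rw [hu]; exact hgc.mul (hLc.sub continuousOn_const)))).congr fun t _ => by ring
    have i3 : IntervalIntegrable
        (fun t => ∑ j, g t * ((e j t - e j s) * (e j t - e j s))) volume a b := by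
      rw [show (fun t => ∑ j, g t * ((e j t - e j s) * (e j t - e j s)))
        = ∑ j, (fun t => g t * ((e j t - e j s) * (e j t - e j s))) from (Finset.sum_fn _ _).symm]
      exact IntervalIntegrable.sum _ fun j _ => i1 j
    rw [← intervalIntegral.integral_finsetSum fun j _ => i1 j, ← intervalIntegral.integral_const_mul]
    refine intervalIntegral.integral_mono_on hab.le i3 (i2.const_mul _) fun t ht => ?_
    rw [← Finset.mul_sum, mul_left_comm]
    exact mul_le_mul_of_nonneg_left (hsym s hs t ht) (hg.nonneg t)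
  rw [intervalIntegral.integral_finsetSum fun j _ => (pairs_identity hgi (ie j) (ie j) (iee j)).1,
    Finset.sum_congr rfl fun j _ => (pairs_identity hgi (ie j) (ie j) (iee j)).2, hR,
    ← Finset.mul_sum] at main
  have hpb := mul_le_mul_of_nonneg_left (hg.pair_bound ha hab hb) (show (0 : ℝ) ≤ 2 - ρ by linarith)
  simp only [sq]
  simp only [hL, hP] at main ⊢
  linarith

/-- Integrals over an exhausting sequence of intervals. -/
theorem tendsto_interval {f : ℝ → ℝ} (hT : 0 ≤ T) (hf : IntegrableOn f (Ioc 0 T)) {α β : ℕ → ℝ}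
    (hα : Tendsto α atTop (𝓝 0)) (hβ : Tendsto β atTop (𝓝 T)) (hα' : ∀ k, α k ∈ Icc 0 T)
    (hβ' : ∀ k, β k ∈ Icc 0 T) :
    Tendsto (fun k => ∫ t in (α k)..(β k), f t) atTop (𝓝 (∫ t in Ioc 0 T, f t)) := by
  have hi : IntervalIntegrable f volume 0 T :=
    (intervalIntegrable_iff_integrableOn_Ioc_of_le hT).2 hf
  have hc := intervalIntegral.continuousOn_primitive_interval' hi left_mem_uIcc
  rw [uIcc_of_le hT] at hc
  have h1 := (hc 0 ⟨le_rfl, hT⟩).tendsto.comp (tendsto_nhdsWithin_iff.2
    ⟨hα, Eventually.of_forall hα'⟩)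
  have h2 := (hc T ⟨hT, le_rfl⟩).tendsto.comp (tendsto_nhdsWithin_iff.2
    ⟨hβ, Eventually.of_forall hβ'⟩)
  have h3 := h2.sub h1
  rw [intervalIntegral.integral_same, sub_zero, intervalIntegral.integral_of_le hT] at h3
  refine h3.congr fun k => ?_
  simp only [Function.comp_def]
  exact intervalIntegral.integral_interval_sub_left
    (hi.mono_set (by rw [uIcc_of_le hT, uIcc_of_le (hβ' k).1]; exact Icc_subset_Icc_right (hβ' k).2))
    (hi.mono_set (by rw [uIcc_of_le hT, uIcc_of_le (hα' k).1]; exact Icc_subset_Icc_right (hα' k).2))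

theorem Marg.integral_mul_logTail (hg : Marg g T) {a b : ℝ} (ha : 0 < a) (hab : a ≤ b)
    (hb : b < T) :
    ∫ t in a..b, g t * -Real.log (tail g T t)
      = Real.negMulLog (tail g T a) + tail g T a - (Real.negMulLog (tail g T b) + tail g T b) := by
  have hsub := Marg.subset_Ioo (T := T) ha hb
  have hd : ∀ x ∈ uIcc a b, HasDerivAt (fun y => -(Real.negMulLog (tail g T y) + tail g T y))
      (g x * -Real.log (tail g T x)) x := fun x hx => by
    rw [uIcc_of_le hab] at hx
    have hG := hg.hasDeriv_tail (hsub hx)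
    exact ((((Real.hasDerivAt_negMulLog (hg.tail_pos (hsub hx)).ne').comp x hG).add hG).neg).congr_deriv
      (by ring)
  rw [intervalIntegral.integral_eq_sub_of_hasDerivAt hd
    (((hg.continuousOn.mono hsub).mul
      (hg.continuousOn_logTail.mono hsub)).intervalIntegrable_of_Icc hab)]
  ring

/-- The total variance of the slice means is at most `tailLoss (2 - ρ)`. -/
theorem var_le_tailLoss_loc (hg : Marg g T) (h : GainLoc g T e ρ) (hρ0 : 0 ≤ ρ) (hρ1 : ρ ≤ 1)
    (hi1 : ∀ j, IntegrableOn (fun t => g t * e j t) (Ioc 0 T))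
    (hi2 : ∀ j, IntegrableOn (fun t => g t * e j t ^ 2) (Ioc 0 T)) :
    ∑ j, ∫ t in Ioc 0 T, g t * (e j t - ∫ s in Ioc 0 T, g s * e j s) ^ 2
      ≤ tailLoss (2 - ρ) g T := by
  have hT := hg.top_pos
  set α : ℕ → ℝ := fun k => T / ((k : ℝ) + 3) with hα
  set β : ℕ → ℝ := fun k => T - α k with hβ
  have hα0 : ∀ k, 0 < α k := fun k => div_pos hT (by positivity)
  have hα2 : ∀ k, α k < T / 2 := fun k => div_lt_div_of_pos_left hT two_pos
    (by linarith [(Nat.cast_nonneg k : (0 : ℝ) ≤ k)])
  have hαlim : Tendsto α atTop (𝓝 0) :=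
    tendsto_const_nhds.div_atTop (tendsto_natCast_atTop_atTop.atTop_add tendsto_const_nhds)
  have hβlim : Tendsto β atTop (𝓝 T) := by simpa using hαlim.const_sub T
  have hαm : ∀ k, α k ∈ Icc 0 T := fun k => ⟨(hα0 k).le, by linarith [hα2 k]⟩
  have hβm : ∀ k, β k ∈ Icc 0 T := fun k => ⟨by linarith [hα2 k], by linarith [hα0 k]⟩
  have hab : ∀ k, α k < β k := fun k => by linarith [hα2 k]
  have hbT : ∀ k, β k < T := fun k => by linarith [hα0 k]
  have lim : ∀ {f : ℝ → ℝ}, IntegrableOn f (Ioc 0 T) →
      Tendsto (fun k => ∫ t in (α k)..(β k), f t) atTop (𝓝 (∫ t in Ioc 0 T, f t)) :=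
    fun hf => tendsto_interval hT.le hf hαlim hβlim hαm hβm
  -- tails at the ends
  have hGa : Tendsto (fun k => tail g T (α k)) atTop (𝓝 1) := by
    have := tendsto_interval hT.le hg.integrableOn hαlim tendsto_const_nhds hαm
      (fun _ => ⟨hT.le, le_rfl⟩)
    rw [hg.mass] at this
    exact this.congr fun k => intervalIntegral.integral_of_le (hαm k).2
  have hGb : Tendsto (fun k => tail g T (β k)) atTop (𝓝 0) := by
    have hi : IntervalIntegrable g volume 0 T := hg.intervalIntegrable le_rfl hT.le le_rfl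
    have hc := intervalIntegral.continuousOn_primitive_interval' hi left_mem_uIcc
    rw [uIcc_of_le hT.le] at hc
    have h2 := ((hc T ⟨hT.le, le_rfl⟩).tendsto.comp (tendsto_nhdsWithin_iff.2
      ⟨hβlim, Eventually.of_forall hβm⟩)).const_sub (∫ t in (0 : ℝ)..T, g t)
    rw [sub_self] at h2
    refine h2.congr fun k => ?_
    simp only [Function.comp_def]
    rw [intervalIntegral.integral_interval_sub_left hi
      (hg.intervalIntegrable le_rfl (hβm k).1 (hβm k).2), tail,
      intervalIntegral.integral_of_le (hβm k).2]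
  -- measurability
  have hres : volume.restrict (Ioc (0 : ℝ) T) = volume.restrict (Ioo 0 T) :=
    Measure.restrict_congr_set Ioo_ae_eq_Ioc.symm
  have mG : AEStronglyMeasurable (tail g T) (volume.restrict (Ioc 0 T)) := by
    rw [hres]
    exact ContinuousOn.aestronglyMeasurable
      (fun x hx => (hg.hasDeriv_tail hx).continuousAt.continuousWithinAt) measurableSet_Ioo
  have mσ : AEStronglyMeasurable (slopeW g) (volume.restrict (Ioc 0 T)) := by
    rw [hres]
    exact (aemeasurable_restrict_of_monotoneOn measurableSet_Ioo hg.slopeW_mono).aestronglyMeasurable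
  have mg : AEStronglyMeasurable g (volume.restrict (Ioc 0 T)) := hg.integrableOn.aestronglyMeasurable
  have mρ : AEStronglyMeasurable (tailRatio g T) (volume.restrict (Ioc 0 T)) :=
    ((mG.aemeasurable.mul mσ.aemeasurable).div mg.aemeasurable).aestronglyMeasurable
  have mL : AEStronglyMeasurable (fun t => -Real.log (tail g T t)) (volume.restrict (Ioc 0 T)) :=
    (Real.measurable_log.comp_aemeasurable mG.aemeasurable).neg.aestronglyMeasurable
  have hmem : ∀ᵐ t ∂volume.restrict (Ioc (0 : ℝ) T), t ∈ Ioo 0 T := by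
    rw [hres]; exact ae_restrict_mem measurableSet_Ioo
  -- integrability
  have iL : IntegrableOn (fun t => g t * -Real.log (tail g T t)) (Ioc 0 T) := by
    refine integrableOn_Ioc_of_intervalIntegral_norm_bounded (I := 2) (fun k => ?_) hαlim hβlim
      (Eventually.of_forall fun k => ?_)
    · exact ((hg.continuousOn.mono (Marg.subset_Ioo (hα0 k) (hbT k))).mul
        (hg.continuousOn_logTail.mono (Marg.subset_Ioo (hα0 k) (hbT k)))).integrableOn_Icc.mono_set
          Ioc_subset_Icc_self
    · have e1 : ∫ t in Ioc (α k) (β k), ‖g t * -Real.log (tail g T t)‖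
          = ∫ t in (α k)..(β k), g t * -Real.log (tail g T t) := by
        rw [intervalIntegral.integral_of_le (hab k).le]
        refine setIntegral_congr_fun measurableSet_Ioc fun t ht => ?_
        have hm : t ∈ Ioo 0 T := ⟨(hα0 k).trans ht.1, ht.2.trans_lt (hbT k)⟩
        exact Real.norm_of_nonneg (mul_nonneg (hg.nonneg t)
          (neg_nonneg.2 (Real.log_nonpos (hg.tail_pos hm).le (hg.tail_le_one hm.1.le))))
      rw [e1, hg.integral_mul_logTail (hα0 k) (hab k).le (hbT k)]
      have ha' : α k ∈ Ioo 0 T := ⟨hα0 k, by linarith [hα2 k]⟩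
      have hb' : β k ∈ Ioo 0 T := ⟨(hα0 k).trans (hab k), hbT k⟩
      have h1 := hg.tail_le_one ha'.1.le
      have h2 := hg.tail_pos hb'
      have h3 := Real.negMulLog_nonneg h2.le (hg.tail_le_one hb'.1.le)
      have h4 := Real.one_sub_inv_le_log_of_pos (hg.tail_pos ha')
      have h5 := mul_le_mul_of_nonneg_left h4 (hg.tail_pos ha').le
      rw [mul_sub, mul_inv_cancel₀ (hg.tail_pos ha').ne'] at h5
      have h6 : Real.negMulLog (tail g T (α k)) = -(tail g T (α k) * Real.log (tail g T (α k))) := by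
        simp [Real.negMulLog]
      linarith
  have iρ : IntegrableOn (fun t => g t * tailRatio g T t) (Ioc 0 T) := by
    refine hg.integrableOn.mono' (mg.mul mρ) ?_
    filter_upwards [hmem] with t ht
    have := hg.tailRatio_mem ht
    rw [show tailQ g T t * slopeW g t = tailRatio g T t by simp [tailQ, tailRatio]; ring] at this
    rw [Real.norm_of_nonneg (mul_nonneg (hg.nonneg t) this.1)]
    exact mul_le_of_le_one_right (hg.nonneg t) this.2
  have iK : IntegrableOn (fun t => g t * (tailRatio g T t * (2 - tailRatio g T t)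
      * -Real.log (tail g T t) - tailRatio g T t)) (Ioc 0 T) := by
    refine (iL.add hg.integrableOn).mono'
      (mg.mul (((mρ.mul (aestronglyMeasurable_const.sub mρ)).mul mL).sub mρ)) ?_
    filter_upwards [hmem] with t ht
    have h1 := hg.tailRatio_mem ht
    rw [show tailQ g T t * slopeW g t = tailRatio g T t by simp [tailQ, tailRatio]; ring] at h1
    have h2 : 0 ≤ -Real.log (tail g T t) :=
      neg_nonneg.2 (Real.log_nonpos (hg.tail_pos ht).le (hg.tail_le_one ht.1.le))
    simp only [Pi.add_apply]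
    rw [norm_mul, Real.norm_of_nonneg (hg.nonneg t),
      show g t * -Real.log (tail g T t) + g t = g t * (-Real.log (tail g T t) + 1) by ring]
    refine mul_le_mul_of_nonneg_left ?_ (hg.nonneg t)
    have h3 : 0 ≤ tailRatio g T t * (2 - tailRatio g T t) := mul_nonneg h1.1 (by linarith [h1.2])
    have h4 : tailRatio g T t * (2 - tailRatio g T t) ≤ 1 := by
      nlinarith [sq_nonneg (tailRatio g T t - 1)]
    rw [Real.norm_eq_abs, abs_le]
    constructor <;> nlinarith [mul_nonneg h3 h2, mul_le_mul_of_nonneg_right h4 h2, h1.1, h1.2]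
  -- limits
  have hL1 : Tendsto (fun k => (∫ t in (α k)..(β k), g t)
      - ∫ t in (α k)..(β k), g t * -Real.log (tail g T t)) atTop (𝓝 0) := by
    have h1 := (Real.continuous_negMulLog.tendsto 1).comp hGa
    have h2 := (Real.continuous_negMulLog.tendsto 0).comp hGb
    have := ((lim hg.integrableOn).sub ((h1.add hGa).sub (h2.add hGb)))
    simp only [hg.mass, Real.negMulLog_one, Real.negMulLog_zero, add_zero, zero_add, sub_zero,
      sub_self] at this
    refine this.congr fun k => ?_
    rw [hg.integral_mul_logTail (hα0 k) (hab k).le (hbT k)]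
    simp
  have hR := (((lim hg.integrableOn).mul (lim iK)).add (hL1.mul (lim iρ))).const_mul (2 - ρ)
  have hLHS := tendsto_finsetSum Finset.univ fun j (_ : j ∈ Finset.univ) =>
    ((lim hg.integrableOn).mul (lim (hi2 j))).sub ((lim (hi1 j)).pow 2)
  have main := le_of_tendsto_of_tendsto' hLHS hR fun k =>
    interval_var_le hg h hρ0 hρ1 (hα0 k) (hab k) (hbT k)
  simp only [hg.mass, one_mul, zero_mul, add_zero] at main
  refine le_trans (le_of_eq (Finset.sum_congr rfl fun j _ => ?_)) main
  set μ := ∫ s in Ioc 0 T, g s * e j s with hμ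
  have e1 : (fun t => g t * (e j t - μ) ^ 2)
      = fun t => g t * e j t ^ 2 - 2 * μ * (g t * e j t) + μ ^ 2 * g t := by funext t; ring
  have a1 : Integrable (fun t => g t * e j t ^ 2 - 2 * μ * (g t * e j t))
      (volume.restrict (Ioc 0 T)) := (hi2 j).sub ((hi1 j).const_mul _)
  rw [e1, integral_add a1 (hg.integrableOn.const_mul _),
    integral_sub (hi2 j) ((hi1 j).const_mul _), integral_const_mul, integral_const_mul, hg.mass]
  ring

theorem var_le_tailLoss (hg : Marg g T) (h : GainQuad g T e ρ) (hρ0 : 0 ≤ ρ) (hρ1 : ρ ≤ 1)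
    (hi1 : ∀ j, IntegrableOn (fun t => g t * e j t) (Ioc 0 T))
    (hi2 : ∀ j, IntegrableOn (fun t => g t * e j t ^ 2) (Ioc 0 T)) :
    ∑ j, ∫ t in Ioc 0 T, g t * (e j t - ∫ s in Ioc 0 T, g s * e j s) ^ 2
      ≤ tailLoss (2 - ρ) g T :=
  var_le_tailLoss_loc hg h.loc hρ0 hρ1 hi1 hi2

theorem lossBound_tailLoss : LossBound (tailLoss 2) := fun g T hg m e he _ h1 h2 => by
  simpa using var_le_tailLoss hg (gainQuad_zero he) le_rfl zero_le_one h1 h2

end Vale.P254.E
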