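import Mathlib
import Vale.Agent.P254.E.LossVar
import Vale.Agent.P254.E.Induction
import Vale.Agent.P254.E.LambdaGain

/-!
The fibre term, or for small `u` the lower bound on the covariance of the logarithms, turns
`tailLoss 2` into `tailLoss (2 - ρ)` for bodies of bounded dimension.
-/

namespace Vale.P254.E

open MeasureTheory Set Filter Topology

theorem gainQuad_slices {m : ℕ} {K : Set (Fin (m + 2) → ℝ)} (h : U.OrthBody K) (i : Fin (m + 2))
    {ρ : ℝ} (hρ : 0 ≤ ρ) (hρm : ρ * (m + 1) ≤ 1) :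
    GainQuad (margin K i) (top K i) (slMean K i) ρ := by
  intro s hs t ht u hu
  obtain ⟨l, -, hl⟩ := Finset.exists_max_image Finset.univ (fun j => u j ^ 2) Finset.univ_nonempty
  refine le_trans ?_ (log_mid_fibre h i hs ht hu l)
  have h0 : 0 ≤ ρ / 2 := by linarith
  have h1 : ∑ j, u j ^ 2 ≤ (m + 1 : ℝ) * u l ^ 2 := by
    refine (Finset.sum_le_card_nsmul _ _ _ fun j hj => hl j hj).trans_eq ?_
    simp
  have h2 : u l ^ 2 ≤ -Real.log (1 - u l ^ 2) := by
    have : u l ^ 2 < 1 := (sq_lt_one_iff_abs_lt_one _).2 (hu l)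
    linarith [Real.log_le_sub_one_of_pos (show (0 : ℝ) < 1 - u l ^ 2 by linarith)]
  nlinarith [mul_le_mul_of_nonneg_left h1 h0, mul_le_mul_of_nonneg_right hρm (sq_nonneg (u l))]

/-- The loss for bodies of dimension at most `N`, with `r = 2 - ρ`, `ρ (N - 1) ≤ 1`. -/
theorem bodyLoss_tailLoss {ρ : ℝ} (hρ0 : 0 ≤ ρ) (hρ1 : ρ ≤ 1) (N : ℕ)
    (hN : ρ * ((N : ℝ) - 1) ≤ 1) : BodyLoss N (tailLoss (2 - ρ)) := by
  intro m hm K h i
  refine var_le_tailLoss (marg_margin h i) ?_ hρ0 hρ1 (integrableOn_margin_mul_slMean h i)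
    (integrableOn_margin_mul_slMean_sq h i)
  cases m with
  | zero =>
    intro s hs t ht u hu
    simpa using gainPath h i s hs t ht u hu
  | succ k =>
    refine gainQuad_slices h i hρ0 (le_trans (mul_le_mul_of_nonneg_left ?_ hρ0) hN)
    have : (k : ℝ) + 2 ≤ N := by exact_mod_cast hm
    linarith

/-- The quadratic gain `ρ < 2 / (m + 1)` for small `u` along the slices of a body of dimension
`m + 1`. -/
theorem gainLoc_slices {m : ℕ} {K : Set (Fin (m + 1) → ℝ)} (h : U.OrthBody K) (i : Fin (m + 1))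
    {ρ : ℝ} (hρ : ρ < 2 / ((m : ℝ) + 1)) : GainLoc (margin K i) (top K i) (slMean K i) ρ :=
  fun _ h₀ h₁ => log_mid_lambda h i ⟨h₀.le, h₁⟩ hρ

/-- The loss for bodies of dimension at most `N`, with `r = 2 - 2 / N`. -/
theorem bodyLoss_tailLoss_cov {N : ℕ} (hN : 2 ≤ N) : BodyLoss N (tailLoss (2 - 2 / (N : ℝ))) := by
  intro m hm K h i
  have hN' : (2 : ℝ) ≤ N := by exact_mod_cast hN
  have hρ1 : 2 / (N : ℝ) ≤ 1 := by rw [div_le_one (by linarith)]; exact hN'
  have hmN : 2 / (N : ℝ) ≤ 2 / ((m : ℝ) + 1) :=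
    div_le_div_of_nonneg_left zero_le_two (by positivity) (by exact_mod_cast hm)
  have hc : Continuous fun ρ : ℝ => tailLoss (2 - ρ) (margin K i) (top K i) := by
    unfold tailLoss; fun_prop
  refine ge_of_tendsto ((hc.tendsto _).mono_left nhdsWithin_le_nhds :
    Tendsto _ (𝓝[<] (2 / (N : ℝ))) _) ?_
  filter_upwards [Ioo_mem_nhdsLT (show (0 : ℝ) < 2 / N by positivity)] with ρ hρ
  exact var_le_tailLoss_loc (marg_margin h i) (gainLoc_slices h i (hρ.2.trans_le hmN))
    hρ.1.le (hρ.2.le.trans hρ1) (integrableOn_margin_mul_slMean h i)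
    (integrableOn_margin_mul_slMean_sq h i)

end Vale.P254.E
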