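import Mathlib
import Vale.Agent.P254.E.LossVar
import Vale.Agent.P254.E.Slices

/-!
The variance of `log t` under a decreasing log-concave density is at most
`∫ g * kap(L) * (tail / (g t)) ^ 2` (a weighted Poincaré inequality for the exponential law of
`L = -log tail`, proved by Picone's identity in the original variable).
-/

namespace Vale.P254.E

open MeasureTheory Set Filter Topology

/-- A Picone weight `φ = (log A)'`. -/
structure KapData (φ φ₁ : ℝ → ℝ) : Prop where
  deriv : ∀ l, 0 < l → HasDerivAt φ (φ₁ l) l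
  cont : ContinuousOn φ₁ (Ioi 0)
  pos : ∀ l, 0 < l → 0 < φ l - φ l ^ 2 - φ₁ l
  bound : ∃ C, ∀ l, 0 < l → |φ l| ≤ C * (1 + 1 / l)

/-- The weight. -/
noncomputable def kapOf (φ φ₁ : ℝ → ℝ) (l : ℝ) : ℝ := 1 / (φ l - φ l ^ 2 - φ₁ l)

/-- The right side of the Poincaré inequality. -/
noncomputable def kapW (φ φ₁ g : ℝ → ℝ) (T t : ℝ) : ℝ :=
  g t * (kapOf φ φ₁ (-Real.log (tail g T t)) * (tailQ g T t / t) ^ 2)

/-- The tail integral of `g (log - mean)`. -/
noncomputable def devTail (g : ℝ → ℝ) (T t : ℝ) : ℝ :=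
  ∫ s in Ioc t T, g s * (Real.log s - mLog g T)

variable {g : ℝ → ℝ} {T : ℝ} {φ φ₁ : ℝ → ℝ}

theorem Marg.le_zero_val (hg : Marg g T) {t : ℝ} (ht : 0 ≤ t) : g t ≤ g 0 :=
  hg.anti (mem_Ici.2 le_rfl) ht ht

theorem Marg.integrableOn_mul (hg : Marg g T) {f : ℝ → ℝ} (hf : IntegrableOn f (Ioc 0 T)) :
    IntegrableOn (fun t => g t * f t) (Ioc 0 T) := by
  refine hf.bdd_mul (c := g 0) hg.meas.aestronglyMeasurable ?_
  rw [ae_restrict_iff' measurableSet_Ioc]
  refine Eventually.of_forall fun t ht => ?_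
  rw [Real.norm_of_nonneg (hg.nonneg t)]
  exact hg.le_zero_val ht.1.le

theorem Marg.integrableOn_log (hg : Marg g T) :
    IntegrableOn (fun t => g t * Real.log t) (Ioc 0 T) :=
  hg.integrableOn_mul ((integrableOn_log_Icc T).mono_set Ioc_subset_Icc_self)

theorem Marg.integrableOn_dev (hg : Marg g T) :
    IntegrableOn (fun t => g t * (Real.log t - mLog g T)) (Ioc 0 T) :=
  hg.integrableOn_mul (((integrableOn_log_Icc T).mono_set Ioc_subset_Icc_self).sub
    (integrableOn_const measure_Ioc_lt_top.ne))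

theorem Marg.integrableOn_dev_sq (hg : Marg g T) :
    IntegrableOn (fun t => g t * (Real.log t - mLog g T) ^ 2) (Ioc 0 T) := by
  refine hg.integrableOn_mul ?_
  have h1 : IntegrableOn (fun t => Real.log t ^ 2 - 2 * mLog g T * Real.log t + mLog g T ^ 2)
      (Ioc 0 T) :=
    (((integrableOn_log_sq_Icc T).mono_set Ioc_subset_Icc_self).sub
      (((integrableOn_log_Icc T).mono_set Ioc_subset_Icc_self).const_mul _)).add
      (integrableOn_const measure_Ioc_lt_top.ne)
  exact h1.congr_fun (fun t _ => by ring) measurableSet_Ioc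

theorem Marg.mS_add_one (_hg : Marg g T) :
    mS g T + 1 = ∫ t in Ioc 0 T, g t * (Real.log t - mLog g T) ^ 2 := by simp [mS]

theorem Marg.integral_dev (hg : Marg g T) :
    ∫ t in Ioc 0 T, g t * (Real.log t - mLog g T) = 0 := by
  simp only [mul_sub]
  rw [integral_sub hg.integrableOn_log (hg.integrableOn.mul_const _), integral_mul_const, hg.mass,
    one_mul]
  simp [mLog]

theorem Marg.hasDeriv_devTail (hg : Marg g T) {x : ℝ} (hx : x ∈ Ioo 0 T) :
    HasDerivAt (devTail g T) (-(g x * (Real.log x - mLog g T))) x := by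
  set f : ℝ → ℝ := fun s => g s * (Real.log s - mLog g T) with hf
  have hi : ∀ a b, 0 ≤ a → a ≤ b → b ≤ T → IntervalIntegrable f volume a b := fun a b ha hab hb =>
    (intervalIntegrable_iff_integrableOn_Ioc_of_le hab).2
      (hg.integrableOn_dev.mono_set (Ioc_subset_Ioc ha hb))
  have hc : ContinuousOn f (Ioo 0 T) :=
    hg.continuousOn.mul ((Real.continuousOn_log.mono fun t ht => ne_of_gt ht.1).sub continuousOn_const)
  refine (((intervalIntegral.integral_hasDerivAt_right (hi 0 x le_rfl hx.1.le hx.2.le)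
    (hc.stronglyMeasurableAtFilter isOpen_Ioo x hx)
    (hc.continuousAt (isOpen_Ioo.mem_nhds hx))).const_sub
      (∫ t in (0 : ℝ)..T, f t))).congr_of_eventuallyEq ?_
  filter_upwards [isOpen_Ioo.mem_nhds hx] with y hy
  rw [intervalIntegral.integral_interval_sub_left (hi 0 T le_rfl hg.top_pos.le le_rfl)
    (hi 0 y le_rfl hy.1.le hy.2.le), devTail, intervalIntegral.integral_of_le hy.2.le]

/-- The boundary term of Picone's identity. -/
noncomputable def piconeEnd (φ g : ℝ → ℝ) (T t : ℝ) : ℝ :=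
  2 * ((Real.log t - mLog g T) * devTail g T t)
    + devTail g T t ^ 2 * (φ (-Real.log (tail g T t)) - 1) / tail g T t

theorem Marg.logTail_pos (hg : Marg g T) {t : ℝ} (ht : t ∈ Ioo 0 T) :
    t * g t ≤ -Real.log (tail g T t) := by
  have hint : tail g T t = 1 - ∫ s in Ioc 0 t, g s := by
    rw [← hg.mass, tail, ← Ioc_union_Ioc_eq_Ioc ht.1.le ht.2.le,
      setIntegral_union (Ioc_disjoint_Ioc_of_le le_rfl) measurableSet_Ioc
        (hg.integrableOn.mono_set (Ioc_subset_Ioc_right ht.2.le))
        (hg.integrableOn.mono_set (Ioc_subset_Ioc_left ht.1.le))]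
    ring
  have h1 : t * g t ≤ ∫ s in Ioc 0 t, g s := by
    refine le_trans (le_of_eq ?_) (setIntegral_mono_on (f := fun _ => g t)
      (integrableOn_const measure_Ioc_lt_top.ne)
      (hg.integrableOn.mono_set (Ioc_subset_Ioc_right ht.2.le)) measurableSet_Ioc fun s hs =>
        hg.anti hs.1.le ht.1.le hs.2)
    rw [setIntegral_const, measureReal_def, Real.volume_Ioc, sub_zero,
      ENNReal.toReal_ofReal ht.1.le, smul_eq_mul]
  linarith [Real.log_le_sub_one_of_pos (hg.tail_pos ht)]

theorem Marg.logTail_pos' (hg : Marg g T) {t : ℝ} (ht : t ∈ Ioo 0 T) :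
    0 < -Real.log (tail g T t) :=
  lt_of_lt_of_le (mul_pos ht.1 (hg.pos t ⟨ht.1.le, ht.2⟩)) (hg.logTail_pos ht)

theorem KapData.continuousOn_kapW (hk : KapData φ φ₁) (hg : Marg g T) :
    ContinuousOn (kapW φ φ₁ g T) (Ioo 0 T) := by
  have hφ : ContinuousOn φ (Ioi 0) := fun l hl => (hk.deriv l hl).continuousAt.continuousWithinAt
  have hκ : ContinuousOn (kapOf φ φ₁) (Ioi 0) :=
    continuousOn_const.div ((hφ.sub (hφ.pow 2)).sub hk.cont) fun l hl => (hk.pos l hl).ne'
  exact hg.continuousOn.mul ((hκ.comp hg.continuousOn_logTail fun t ht => hg.logTail_pos' ht).mul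
    ((hg.continuousOn_tailQ.div continuousOn_id fun t ht => ne_of_gt ht.1).pow 2))

theorem KapData.picone_interval (hk : KapData φ φ₁) (hg : Marg g T) {a b : ℝ} (ha : 0 < a)
    (hab : a ≤ b) (hb : b < T) :
    (∫ t in a..b, g t * (Real.log t - mLog g T) ^ 2) + piconeEnd φ g T b - piconeEnd φ g T a
      ≤ ∫ t in a..b, kapW φ φ₁ g T t := by
  have hsub := Marg.subset_Ioo (T := T) ha hb
  set K := devTail g T with hK
  set L : ℝ → ℝ := fun t => -Real.log (tail g T t) with hL
  set f : ℝ → ℝ := fun t => Real.log t - mLog g T with hf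
  have hd : ∀ t ∈ Icc a b, HasDerivAt (piconeEnd φ g T)
      (2 * (K t / t - g t * f t ^ 2)
        + (2 * K t * (-(g t * f t)) * (φ (L t) - 1) / tail g T t
          + K t ^ 2 * g t / tail g T t ^ 2 * (φ₁ (L t) + φ (L t) - 1))) t := by
    intro t ht
    have hm := hsub ht
    have hG := hg.hasDeriv_tail hm
    have hG0 := (hg.tail_pos hm).ne'
    have hKd := hg.hasDeriv_devTail hm
    have hfd : HasDerivAt f (t⁻¹) t := (Real.hasDerivAt_log (ne_of_gt hm.1)).sub_const _
    have hLd : HasDerivAt L (g t / tail g T t) t := (hG.log hG0).neg.congr_deriv (by ring)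
    have hφd := ((hk.deriv (L t) (hg.logTail_pos' hm)).comp t hLd).sub_const 1
    refine (((hfd.mul hKd).const_mul 2).add (((hKd.pow 2).mul hφd).div hG hG0)).congr_deriv ?_
    simp only [Function.comp_def, hL, hf, hK, Nat.cast_ofNat, Pi.pow_apply, Pi.mul_apply]
    field_simp
    ring
  have hsubL : ∀ t ∈ Icc a b, L t ∈ Ioi 0 := fun t ht => hg.logTail_pos' (hsub ht)
  have hφc : ContinuousOn φ (Ioi 0) := fun l hl => (hk.deriv l hl).continuousAt.continuousWithinAt
  have hgc := hg.continuousOn.mono hsub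
  have hGc : ContinuousOn (tail g T) (Icc a b) :=
    fun t ht => (hg.hasDeriv_tail (hsub ht)).continuousAt.continuousWithinAt
  have hKc : ContinuousOn K (Icc a b) :=
    fun t ht => (hg.hasDeriv_devTail (hsub ht)).continuousAt.continuousWithinAt
  have hLc : ContinuousOn L (Icc a b) := hg.continuousOn_logTail.mono hsub
  have hfc : ContinuousOn f (Icc a b) :=
    (Real.continuousOn_log.mono fun t ht => ne_of_gt (hsub ht).1).sub continuousOn_const
  have hφL := hφc.comp hLc hsubL
  have hφ1L := hk.cont.comp hLc hsubL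
  have hdc : ContinuousOn (fun t => 2 * (K t / t - g t * f t ^ 2)
      + (2 * K t * (-(g t * f t)) * (φ (L t) - 1) / tail g T t
        + K t ^ 2 * g t / tail g T t ^ 2 * (φ₁ (L t) + φ (L t) - 1))) (Icc a b) :=
    (continuousOn_const.mul ((hKc.div continuousOn_id fun t ht => ne_of_gt (hsub ht).1).sub
      (hgc.mul (hfc.pow 2)))).add
      (((((continuousOn_const.mul hKc).mul (hgc.mul hfc).neg).mul (hφL.sub continuousOn_const)).div
        hGc fun t ht => (hg.tail_pos (hsub ht)).ne').add
      ((((hKc.pow 2).mul hgc).div (hGc.pow 2) fun t ht => pow_ne_zero 2 (hg.tail_pos (hsub ht)).ne').mul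
        ((hφ1L.add hφL).sub continuousOn_const)))
  rw [add_sub_assoc, ← intervalIntegral.integral_eq_sub_of_hasDerivAt
    (fun t ht => hd t (by rwa [uIcc_of_le hab] at ht)) (hdc.intervalIntegrable_of_Icc hab)]
  have hc1 : ContinuousOn (fun t => g t * f t ^ 2) (Icc a b) := hgc.mul (hfc.pow 2)
  rw [← intervalIntegral.integral_add (hc1.intervalIntegrable_of_Icc hab)
    (hdc.intervalIntegrable_of_Icc hab)]
  refine intervalIntegral.integral_mono_on hab
    ((hc1.intervalIntegrable_of_Icc hab).add (hdc.intervalIntegrable_of_Icc hab))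
    (((hk.continuousOn_kapW hg).mono hsub).intervalIntegrable_of_Icc hab) fun t ht => ?_
  have hm := hsub ht
  have hG0 := hg.tail_pos hm
  have hg0 := hg.pos t ⟨hm.1.le, hm.2⟩
  have hD := hk.pos (L t) (hsubL t ht)
  simp only [kapW, kapOf, tailQ]
  rw [← sub_nonneg]
  -- the difference is a sum of two squares
  have key : g t * (1 / (φ (L t) - φ (L t) ^ 2 - φ₁ (L t)) * (tail g T t / g t / t) ^ 2)
      - (g t * f t ^ 2 + (2 * (K t / t - g t * f t ^ 2)
        + (2 * K t * (-(g t * f t)) * (φ (L t) - 1) / tail g T t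
          + K t ^ 2 * g t / tail g T t ^ 2 * (φ₁ (L t) + φ (L t) - 1))))
      = (φ (L t) - φ (L t) ^ 2 - φ₁ (L t)) * g t *
          (tail g T t / g t / t / (φ (L t) - φ (L t) ^ 2 - φ₁ (L t)) - K t / tail g T t) ^ 2
        + g t * (f t + K t * (φ (L t) - 1) / tail g T t) ^ 2 := by
    have := hG0.ne'
    have := hg0.ne'
    have := ne_of_gt hm.1
    obtain ⟨D, hDD⟩ : ∃ D, D = φ (L t) - φ (L t) ^ 2 - φ₁ (L t) := ⟨_, rfl⟩
    have : D ≠ 0 := hDD ▸ hD.ne'
    rw [← hDD, show φ₁ (L t) = φ (L t) - φ (L t) ^ 2 - D by linarith]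
    field_simp
    ring
  simp only [hL] at key ⊢
  rw [key]
  positivity

theorem Marg.devTail_sq_le (hg : Marg g T) {t : ℝ} (ht : t ∈ Ioo 0 T) :
    devTail g T t ^ 2 / tail g T t ≤ ∫ s in Ioc t T, g s * (Real.log s - mLog g T) ^ 2 := by
  have hG := hg.tail_pos ht
  set c := devTail g T t / tail g T t with hc
  have hs : Ioc t T ⊆ Ioc 0 T := Ioc_subset_Ioc_left ht.1.le
  have h1 := hg.integrableOn_dev_sq.mono_set hs
  have h2 := (hg.integrableOn_dev.mono_set hs).const_mul (2 * c)
  have h3 := (hg.integrableOn.mono_set hs).const_mul (c ^ 2)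
  have h0 : 0 ≤ ∫ s in Ioc t T, g s * ((Real.log s - mLog g T) - c) ^ 2 :=
    setIntegral_nonneg measurableSet_Ioc fun s _ => mul_nonneg (hg.nonneg s) (sq_nonneg _)
  have e : (fun s => g s * ((Real.log s - mLog g T) - c) ^ 2) = fun s =>
      g s * (Real.log s - mLog g T) ^ 2 - 2 * c * (g s * (Real.log s - mLog g T)) + c ^ 2 * g s := by
    funext s; ring
  have a1 : IntegrableOn (fun s => g s * (Real.log s - mLog g T) ^ 2
      - 2 * c * (g s * (Real.log s - mLog g T))) (Ioc t T) := h1.sub h2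
  rw [e, integral_add a1 h3, integral_sub h1 h2, integral_const_mul, integral_const_mul] at h0
  have e2 : 2 * c * devTail g T t - c ^ 2 * tail g T t = devTail g T t ^ 2 / tail g T t := by
    rw [hc]; field_simp; ring
  simp only [devTail, tail] at e2 h0 ⊢
  linarith

theorem Marg.devTail_small (hg : Marg g T) {t : ℝ} (ht : t ∈ Ioo 0 T) :
    |devTail g T t| ≤ g 0 * (t * (|Real.log t| + |mLog g T| + 2)) + g 0 * (t * (2 * t)) := by
  have h0 : devTail g T t = -∫ s in Ioc 0 t, g s * (Real.log s - mLog g T) := by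
    have := hg.integral_dev
    rw [← Ioc_union_Ioc_eq_Ioc ht.1.le ht.2.le,
      setIntegral_union (Ioc_disjoint_Ioc_of_le le_rfl) measurableSet_Ioc
        (hg.integrableOn_dev.mono_set (Ioc_subset_Ioc_right ht.2.le))
        (hg.integrableOn_dev.mono_set (Ioc_subset_Ioc_left ht.1.le))] at this
    simp only [devTail]
    linarith
  rw [h0, abs_neg]
  have hlog : IntervalIntegrable Real.log volume 0 t := intervalIntegral.intervalIntegrable_log'
  have hb : IntervalIntegrable (fun s => g 0 * (|mLog g T| + 2 * t - Real.log s)) volume 0 t :=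
    (intervalIntegrable_const.sub hlog).const_mul _
  rw [← intervalIntegral.integral_of_le ht.1.le]
  refine (intervalIntegral.abs_integral_le_integral_abs ht.1.le).trans ?_
  refine (intervalIntegral.integral_mono_on_of_le_Ioo ht.1.le ?_ hb fun s hs => ?_).trans ?_
  · exact ((intervalIntegrable_iff_integrableOn_Ioc_of_le ht.1.le).2
      (hg.integrableOn_dev.mono_set (Ioc_subset_Ioc_right ht.2.le))).abs
  · rw [abs_mul, abs_of_nonneg (hg.nonneg s)]
    refine mul_le_mul (hg.le_zero_val hs.1.le) ?_ (abs_nonneg _) (hg.nonneg 0)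
    have a := abs_sub (Real.log s) (mLog g T)
    rcases le_total (Real.log s) 0 with h | h
    · rw [abs_of_nonpos h] at a; linarith [hs.1, hs.2]
    · rw [abs_of_nonneg h] at a
      linarith [Real.log_le_sub_one_of_pos hs.1, hs.1, hs.2]
  · rw [intervalIntegral.integral_const_mul, intervalIntegral.integral_sub intervalIntegrable_const hlog,
      intervalIntegral.integral_const, integral_log, smul_eq_mul]
    have h1 := neg_abs_le (Real.log t)
    have h2 := hg.nonneg 0
    have h3 : (t - 0) * (|mLog g T| + 2 * t) - (t * Real.log t - 0 * Real.log 0 - t + 0)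
        ≤ t * (|Real.log t| + |mLog g T| + 2) + t * (2 * t) := by
      nlinarith [mul_le_mul_of_nonneg_left h1 ht.1.le, ht.1]
    linarith [mul_le_mul_of_nonneg_left h3 h2, mul_add (g 0) (t * (|Real.log t| + |mLog g T| + 2))
      (t * (2 * t))]

/-- The boundary terms vanish in the limit. -/
theorem KapData.tendsto_end (hk : KapData φ φ₁) (hg : Marg g T) {α β : ℕ → ℝ}
    (hα : Tendsto α atTop (𝓝 0)) (hβ : Tendsto β atTop (𝓝 T))
    (hαm : ∀ k, α k ∈ Ioo 0 (T / 2)) (hβm : ∀ k, β k ∈ Ioo (T / 2) T) :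
    Tendsto (fun k => piconeEnd φ g T (β k) - piconeEnd φ g T (α k)) atTop (𝓝 0) := by
  obtain ⟨C, hC⟩ := hk.bound
  have hT := hg.top_pos
  set c := g (T / 2) with hc
  have hc0 : 0 < c := hg.pos _ ⟨by linarith, by linarith⟩
  have hC0 : 0 ≤ C := by
    have := (abs_nonneg _).trans (hC 1 one_pos); norm_num at this; linarith
  have hLb : ∀ t, t ∈ Ioo 0 T → |φ (-Real.log (tail g T t)) - 1|
      ≤ C * (1 + 1 / (t * g t)) + 1 := fun t ht => by
    refine (abs_sub _ _).trans ?_
    rw [abs_one]
    refine add_le_add ((hC _ (hg.logTail_pos' ht)).trans (mul_le_mul_of_nonneg_left ?_ hC0)) le_rfl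
    have := one_div_le_one_div_of_le (mul_pos ht.1 (hg.pos t ⟨ht.1.le, ht.2⟩)) (hg.logTail_pos ht)
    linarith
  have hbot : Tendsto (fun k => piconeEnd φ g T (α k)) atTop (𝓝 0) := by
    set G2 := fun t => |Real.log t| + |mLog g T| + 2 + 2 * t with hG2
    have hup : ∀ t ∈ Ioo 0 (T / 2), |piconeEnd φ g T t|
        ≤ 2 * (g 0 * (t * G2 t ^ 2)) + (g 0 * (t * G2 t)) ^ 2 * (C + 1) / tail g T (T / 2)
          + g 0 ^ 2 * (t * G2 t ^ 2) * C / c / tail g T (T / 2) := by
      intro t ht
      have hm : t ∈ Ioo 0 T := ⟨ht.1, by linarith [ht.2]⟩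
      have hK := hg.devTail_small hm
      have hK' : |devTail g T t| ≤ g 0 * (t * G2 t) := by simp only [hG2]; linarith
      have hGm : tail g T (T / 2) ≤ tail g T t :=
        setIntegral_mono_set (hg.integrableOn.mono_set (Ioc_subset_Ioc_left ht.1.le))
          (Eventually.of_forall fun z => hg.nonneg z) (Ioc_subset_Ioc_left ht.2.le).eventuallyLE
      have hG0 : 0 < tail g T (T / 2) := hg.tail_pos ⟨by linarith, by linarith⟩
      have hgc : c ≤ g t := hg.anti ht.1.le (show (0 : ℝ) ≤ T / 2 by linarith) ht.2.le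
      have hφ : |φ (-Real.log (tail g T t)) - 1| ≤ (C + 1) + C / c / t := by
        refine (hLb t hm).trans ?_
        have e : C / c / t = C * (1 / (t * c)) := by field_simp
        have := one_div_le_one_div_of_le (mul_pos ht.1 hc0) (mul_le_mul_of_nonneg_left hgc ht.1.le)
        rw [e]; nlinarith [mul_le_mul_of_nonneg_left this hC0]
      have hf : |Real.log t - mLog g T| ≤ G2 t := by
        refine (abs_sub _ _).trans ?_; simp only [hG2]; linarith [ht.1]
      simp only [piconeEnd]
      refine (abs_add_le _ _).trans ?_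
      rw [add_assoc]
      refine add_le_add ?_ ?_
      · rw [abs_mul, abs_two, abs_mul, show g 0 * (t * G2 t ^ 2) = G2 t * (g 0 * (t * G2 t)) by ring]
        exact mul_le_mul_of_nonneg_left (mul_le_mul hf hK' (abs_nonneg _) ((abs_nonneg _).trans hf))
          zero_le_two
      · rw [abs_div, abs_mul, abs_pow, abs_of_pos (hg.tail_pos hm)]
        have e : (g 0 * (t * G2 t)) ^ 2 * (C + 1) / tail g T (T / 2)
            + g 0 ^ 2 * (t * G2 t ^ 2) * C / c / tail g T (T / 2)
            = (g 0 * (t * G2 t)) ^ 2 * ((C + 1) + C / c / t) / tail g T (T / 2) := by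
          have := ne_of_gt ht.1
          field_simp
        rw [e]
        exact div_le_div₀ (mul_nonneg (sq_nonneg _) ((abs_nonneg _).trans hφ))
          (mul_le_mul (pow_le_pow_left₀ (abs_nonneg _) hK' 2) hφ (abs_nonneg _) (sq_nonneg _))
          hG0 hGm
    have hlogsq : Tendsto (fun k => α k * G2 (α k) ^ 2) atTop (𝓝 0) := by
      have h2 := (tendsto_log_mul_rpow_nhdsGT_zero (show (0 : ℝ) < 1 / 2 by norm_num)).comp
        (tendsto_nhdsWithin_iff.2 ⟨hα, Eventually.of_forall fun k => (hαm k).1⟩)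
      have h3 : Tendsto (fun k => α k ^ (1 / 2 : ℝ)) atTop (𝓝 0) := by
        simpa using hα.rpow_const (p := (1 / 2 : ℝ)) (Or.inr (by norm_num))
      have h4 := ((h2.abs).add (h3.mul ((hα.const_mul 2).const_add (|mLog g T| + 2)))).pow 2
      simp only [abs_zero, zero_mul, add_zero, ne_eq, OfNat.ofNat_ne_zero, not_false_eq_true,
        zero_pow] at h4
      refine h4.congr fun k => ?_
      simp only [Function.comp_def, hG2, abs_mul]
      have hp := (hαm k).1
      have e : α k = α k ^ (1 / 2 : ℝ) * α k ^ (1 / 2 : ℝ) := by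
        rw [← Real.rpow_add hp]; norm_num
      rw [abs_of_pos (Real.rpow_pos_of_pos hp _)]
      set s := α k ^ (1 / 2 : ℝ) with hs
      rw [e]
      ring_nf
    have hlog1 : Tendsto (fun k => α k * G2 (α k)) atTop (𝓝 0) := by
      refine squeeze_zero (fun k => mul_nonneg (hαm k).1.le ?_) (fun k => ?_) hlogsq
      · simp only [hG2]; linarith [(hαm k).1, abs_nonneg (Real.log (α k)), abs_nonneg (mLog g T)]
      · refine mul_le_mul_of_nonneg_left ?_ (hαm k).1.le
        have : 1 ≤ G2 (α k) := by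
          simp only [hG2]; linarith [(hαm k).1, abs_nonneg (Real.log (α k)), abs_nonneg (mLog g T)]
        nlinarith
    refine squeeze_zero_norm (a := fun k => 2 * (g 0 * (α k * G2 (α k) ^ 2))
      + (g 0 * (α k * G2 (α k))) ^ 2 * (C + 1) / tail g T (T / 2)
      + g 0 ^ 2 * (α k * G2 (α k) ^ 2) * C / c / tail g T (T / 2))
      (fun k => by rw [Real.norm_eq_abs]; exact hup _ (hαm k)) ?_
    have := (((hlogsq.const_mul (g 0)).const_mul 2).add
      ((((hlog1.const_mul (g 0)).pow 2).mul_const (C + 1)).div_const (tail g T (T / 2)))).add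
      ((((hlogsq.const_mul (g 0 ^ 2)).mul_const C).div_const c).div_const (tail g T (T / 2)))
    simpa using this
  have htop : Tendsto (fun k => piconeEnd φ g T (β k)) atTop (𝓝 0) := by
    have hV : Tendsto (fun k => ∫ s in Ioc (β k) T, g s * (Real.log s - mLog g T) ^ 2) atTop
        (𝓝 0) := by
      have hi := (intervalIntegrable_iff_integrableOn_Ioc_of_le hT.le).2 hg.integrableOn_dev_sq
      have hcont := intervalIntegral.continuousOn_primitive_interval' hi left_mem_uIcc
      rw [uIcc_of_le hT.le] at hcont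
      have h2 := ((hcont T ⟨hT.le, le_rfl⟩).tendsto.comp (tendsto_nhdsWithin_iff.2 ⟨hβ,
        Eventually.of_forall fun k => ⟨by linarith [(hβm k).1], (hβm k).2.le⟩⟩)).const_sub
          (∫ t in (0 : ℝ)..T, g t * (Real.log t - mLog g T) ^ 2)
      rw [sub_self] at h2
      refine h2.congr fun k => ?_
      simp only [Function.comp_def]
      rw [intervalIntegral.integral_interval_sub_left hi (hi.mono_set (by
        rw [uIcc_of_le hT.le, uIcc_of_le (show 0 ≤ β k by linarith [(hβm k).1])]
        exact Icc_subset_Icc_right (hβm k).2.le)), intervalIntegral.integral_of_le (hβm k).2.le]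
    set M := max |Real.log (T / 2)| |Real.log T| + |mLog g T| with hM
    set P := C * (1 + 1 / (tail g T (T / 2) * 0 + -Real.log (tail g T (T / 2)))) + 1 with hP
    refine squeeze_zero_norm (a := fun k => 2 * (M * Real.sqrt
      (∫ s in Ioc (β k) T, g s * (Real.log s - mLog g T) ^ 2))
        + (∫ s in Ioc (β k) T, g s * (Real.log s - mLog g T) ^ 2) * P) (fun k => ?_)
      (by simpa using ((hV.sqrt.const_mul M).const_mul 2).add (hV.mul_const P))
    have hm : β k ∈ Ioo 0 T := ⟨by linarith [(hβm k).1], (hβm k).2⟩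
    have hsq := hg.devTail_sq_le hm
    have hG := hg.tail_pos hm
    have hφ : |φ (-Real.log (tail g T (β k))) - 1| ≤ P := by
      refine (abs_sub _ _).trans ?_
      rw [abs_one, hP]
      refine add_le_add ((hC _ (hg.logTail_pos' hm)).trans (mul_le_mul_of_nonneg_left ?_ hC0)) le_rfl
      rw [mul_zero, zero_add]
      have h1 : tail g T (β k) ≤ tail g T (T / 2) :=
        setIntegral_mono_set (hg.integrableOn.mono_set (Ioc_subset_Ioc_left (by linarith)))
          (Eventually.of_forall fun z => hg.nonneg z)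
          (Ioc_subset_Ioc_left (hβm k).1.le).eventuallyLE
      have h2 := hg.logTail_pos' (show T / 2 ∈ Ioo 0 T from ⟨by linarith, by linarith⟩)
      have := one_div_le_one_div_of_le h2 (neg_le_neg (Real.log_le_log hG h1))
      linarith
    have hf : |Real.log (β k) - mLog g T| ≤ M := by
      refine (abs_sub _ _).trans (add_le_add ?_ le_rfl)
      exact abs_le_max_abs_abs (Real.log_le_log (by linarith) (hβm k).1.le)
        (Real.log_le_log hm.1 hm.2.le)
    have hKb : |devTail g T (β k)| ≤
        Real.sqrt (∫ s in Ioc (β k) T, g s * (Real.log s - mLog g T) ^ 2) := by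
      refine Real.abs_le_sqrt (le_trans ?_ hsq)
      rw [le_div_iff₀ hG]
      exact mul_le_of_le_one_right (sq_nonneg _) (hg.tail_le_one hm.1.le)
    rw [Real.norm_eq_abs]
    simp only [piconeEnd]
    refine (abs_add_le _ _).trans (add_le_add ?_ ?_)
    · rw [abs_mul, abs_two, abs_mul]
      exact mul_le_mul_of_nonneg_left (mul_le_mul hf hKb (abs_nonneg _) ((abs_nonneg _).trans hf))
        zero_le_two
    · rw [mul_div_right_comm, abs_mul, abs_div, abs_pow, sq_abs, abs_of_pos hG]
      exact mul_le_mul hsq hφ (abs_nonneg _) (le_trans (div_nonneg (sq_nonneg _) hG.le) hsq)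
  simpa using htop.sub hbot

end Vale.P254.E
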