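import Mathlib

/-! The integral `∫ exp (-x) log x` over the half line is minus the Euler–Mascheroni constant. -/

namespace Vale.P254.E

open MeasureTheory Set Filter Topology

theorem integral_exp_neg_mul_log :
    IntegrableOn (fun x : ℝ => Real.exp (-x) * Real.log x) (Ioi 0) ∧
      ∫ x in Ioi (0 : ℝ), Real.exp (-x) * Real.log x = -Real.eulerMascheroniConstant := by
  have hint : IntegrableOn (fun x : ℝ => Real.exp (-x) * Real.log x) (Ioi 0) := by
    have h1 : IntegrableOn (fun x : ℝ => Real.exp (-x) * x ^ (-(1 / 2) : ℝ)) (Ioi 0) := by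
      have := Real.GammaIntegral_convergent (show (0 : ℝ) < 1 / 2 by norm_num)
      rwa [show (1 : ℝ) / 2 - 1 = -(1 / 2) by norm_num] at this
    have h2 : IntegrableOn (fun x : ℝ => Real.exp (-x) * x ^ (1 / 2 : ℝ)) (Ioi 0) := by
      have := Real.GammaIntegral_convergent (show (0 : ℝ) < 3 / 2 by norm_num)
      rwa [show (3 : ℝ) / 2 - 1 = 1 / 2 by norm_num] at this
    refine ((h1.const_mul 2).add (h2.const_mul 2)).mono'
      (by fun_prop : Measurable fun x : ℝ => Real.exp (-x) * Real.log x).aestronglyMeasurable ?_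
    rw [ae_restrict_iff' measurableSet_Ioi]
    refine Eventually.of_forall fun x hx => ?_
    have hx0 : (0 : ℝ) < x := hx
    have a := Real.log_le_sub_one_of_pos (Real.rpow_pos_of_pos hx0 (1 / 2 : ℝ))
    have b := Real.log_le_sub_one_of_pos (Real.rpow_pos_of_pos hx0 (-(1 / 2) : ℝ))
    rw [Real.log_rpow hx0] at a b
    have := Real.rpow_pos_of_pos hx0 (1 / 2 : ℝ)
    have := Real.rpow_pos_of_pos hx0 (-(1 / 2) : ℝ)
    simp only [Pi.add_apply]
    rw [norm_mul, Real.norm_of_nonneg (Real.exp_pos _).le, Real.norm_eq_abs]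
    calc Real.exp (-x) * |Real.log x|
        ≤ Real.exp (-x) * (2 * x ^ (-(1 / 2) : ℝ) + 2 * x ^ (1 / 2 : ℝ)) :=
          mul_le_mul_of_nonneg_left (abs_le.2 ⟨by linarith, by linarith⟩) (Real.exp_pos _).le
      _ = _ := by ring
  refine ⟨hint, ?_⟩
  have h := Complex.hasDerivAt_GammaIntegral (s := 1) (by simp)
  have h2 : HasDerivAt Complex.Gamma
      (∫ t : ℝ in Ioi 0, (t : ℂ) ^ ((1 : ℂ) - 1) * (Real.log t * Real.exp (-t))) 1 := by
    refine h.congr_of_eventuallyEq ?_
    filter_upwards [(Complex.continuous_re.isOpen_preimage _ isOpen_Ioi).mem_nhds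
      (show (1 : ℂ) ∈ Complex.re ⁻¹' Ioi 0 by simp)] with s hs using Complex.Gamma_eq_integral hs
  have h3 := h2.unique Complex.hasDerivAt_Gamma_one
  simp only [sub_self, Complex.cpow_zero, one_mul, ← Complex.ofReal_mul] at h3
  rw [integral_complex_ofReal, ← Complex.ofReal_neg, Complex.ofReal_inj] at h3
  simpa [mul_comm] using h3

end Vale.P254.E
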