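import Mathlib
import Vale.Agent.P254.E.CertVar
import Vale.Agent.P254.E.Euler

/-!
The tail coordinates `L = -log tail` and `w = L * tail / (t g)` of a decreasing log-concave
density: ranges, end values and the integrals entering the one-variable inequality.
-/

namespace Vale.P254.E

open MeasureTheory Set Filter Topology

/-- The logarithm of the tail. -/
noncomputable def tailL (g : ℝ → ℝ) (T t : ℝ) : ℝ := -Real.log (tail g T t)

/-- The state `w = L / z`. -/
noncomputable def tailW (g : ℝ → ℝ) (T t : ℝ) : ℝ := tailL g T t * tailQ g T t / t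

variable {g : ℝ → ℝ} {T : ℝ}

theorem Marg.hasDeriv_tailL (hg : Marg g T) {t : ℝ} (ht : t ∈ Ioo 0 T) :
    HasDerivAt (tailL g T) (g t / tail g T t) t :=
  ((hg.hasDeriv_tail ht).log (hg.tail_pos ht).ne').neg.congr_deriv (by ring)

theorem Marg.tailQ_pos (hg : Marg g T) {t : ℝ} (ht : t ∈ Ioo 0 T) : 0 < tailQ g T t :=
  div_pos (hg.tail_pos ht) (hg.pos t ⟨ht.1.le, ht.2⟩)

theorem Marg.tailW_pos (hg : Marg g T) {t : ℝ} (ht : t ∈ Ioo 0 T) : 0 < tailW g T t :=
  div_pos (mul_pos (hg.logTail_pos' ht) (hg.tailQ_pos ht)) ht.1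

theorem Marg.mul_le_one_sub_tail (hg : Marg g T) {t : ℝ} (ht : t ∈ Ioo 0 T) :
    t * g t ≤ 1 - tail g T t := by
  have hint : tail g T t = 1 - ∫ s in Ioc 0 t, g s := by
    rw [← hg.mass, tail, ← Ioc_union_Ioc_eq_Ioc ht.1.le ht.2.le,
      setIntegral_union (Ioc_disjoint_Ioc_of_le le_rfl) measurableSet_Ioc
        (hg.integrableOn.mono_set (Ioc_subset_Ioc_right ht.2.le))
        (hg.integrableOn.mono_set (Ioc_subset_Ioc_left ht.1.le))]
    ring
  have h1 : t * g t ≤ ∫ s in Ioc 0 t, g s := by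
    refine le_trans (le_of_eq ?_) (setIntegral_mono_on (f := fun _ => g t)
      (integrableOn_const measure_Ioc_lt_top.ne)
      (hg.integrableOn.mono_set (Ioc_subset_Ioc_right ht.2.le)) measurableSet_Ioc fun s hs =>
        hg.anti hs.1.le ht.1.le hs.2)
    rw [setIntegral_const, measureReal_def, Real.volume_Ioc, sub_zero,
      ENNReal.toReal_ofReal ht.1.le, smul_eq_mul]
  linarith

theorem Marg.tendsto_tail_bot (hg : Marg g T) {α : ℕ → ℝ} (hα : Tendsto α atTop (𝓝 0))
    (hαm : ∀ k, α k ∈ Ioo 0 T) : Tendsto (fun k => tail g T (α k)) atTop (𝓝 1) := by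
  have := tendsto_interval hg.top_pos.le hg.integrableOn hα tendsto_const_nhds
    (fun k => Ioo_subset_Icc_self (hαm k)) (fun _ => ⟨hg.top_pos.le, le_rfl⟩)
  rw [hg.mass] at this
  exact this.congr fun k => intervalIntegral.integral_of_le (hαm k).2.le

theorem Marg.tendsto_tail_top (hg : Marg g T) {β : ℕ → ℝ} (hβ : Tendsto β atTop (𝓝 T))
    (hβm : ∀ k, β k ∈ Ioo 0 T) : Tendsto (fun k => tail g T (β k)) atTop (𝓝 0) := by
  have hT := hg.top_pos
  have hi : IntervalIntegrable g volume 0 T := hg.intervalIntegrable le_rfl hT.le le_rfl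
  have hc := intervalIntegral.continuousOn_primitive_interval' hi left_mem_uIcc
  rw [uIcc_of_le hT.le] at hc
  have h2 := ((hc T ⟨hT.le, le_rfl⟩).tendsto.comp (tendsto_nhdsWithin_iff.2
    ⟨hβ, Eventually.of_forall fun k => Ioo_subset_Icc_self (hβm k)⟩)).const_sub
      (∫ t in (0 : ℝ)..T, g t)
  rw [sub_self] at h2
  refine h2.congr fun k => ?_
  simp only [Function.comp_def]
  rw [intervalIntegral.integral_interval_sub_left hi
    (hg.intervalIntegrable le_rfl (hβm k).1.le (hβm k).2.le), tail,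
    intervalIntegral.integral_of_le (hβm k).2.le]

theorem Marg.tendsto_tailL_bot (hg : Marg g T) {α : ℕ → ℝ} (hα : Tendsto α atTop (𝓝 0))
    (hαm : ∀ k, α k ∈ Ioo 0 T) : Tendsto (fun k => tailL g T (α k)) atTop (𝓝 0) := by
  have := ((hg.tendsto_tail_bot hα hαm).log one_ne_zero).neg
  simpa [tailL] using this

theorem Marg.tendsto_tailL_top (hg : Marg g T) {β : ℕ → ℝ} (hβ : Tendsto β atTop (𝓝 T))
    (hβm : ∀ k, β k ∈ Ioo 0 T) : Tendsto (fun k => tailL g T (β k)) atTop atTop :=
  tendsto_neg_atBot_atTop.comp (Real.tendsto_log_nhdsGT_zero.comp (tendsto_nhdsWithin_iff.2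
    ⟨hg.tendsto_tail_top hβ hβm, Eventually.of_forall fun k => hg.tail_pos (hβm k)⟩))

theorem Marg.tailW_le_one (hg : Marg g T) {t : ℝ} (ht : t ∈ Ioo 0 T) : tailW g T t ≤ 1 := by
  set α : ℕ → ℝ := fun k => t / ((k : ℝ) + 2) with hα
  have hαlim : Tendsto α atTop (𝓝 0) :=
    tendsto_const_nhds.div_atTop (tendsto_natCast_atTop_atTop.atTop_add tendsto_const_nhds)
  have hα0 : ∀ k, 0 < α k := fun k => div_pos ht.1 (by positivity)
  have hαt : ∀ k, α k ≤ t := fun k =>
    div_le_self ht.1.le (by linarith [(Nat.cast_nonneg k : (0 : ℝ) ≤ k)])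
  have hαm : ∀ k, α k ∈ Ioo 0 T := fun k => ⟨hα0 k, (hαt k).trans_lt ht.2⟩
  have hq := hg.tailQ_pos ht
  have hb : ∀ k, tailL g T t ≤ tailL g T (α k) + (t - α k) / tailQ g T t := fun k => by
    have hsub := Marg.subset_Ioo (T := T) (hα0 k) ht.2
    have hc : ContinuousOn (fun s => g s / tail g T s) (Icc (α k) t) :=
      (hg.continuousOn.mono hsub).div
        (fun s hs => (hg.hasDeriv_tail (hsub hs)).continuousAt.continuousWithinAt)
        fun s hs => (hg.tail_pos (hsub hs)).ne'
    have e := intervalIntegral.integral_eq_sub_of_hasDerivAt (a := α k) (b := t)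
      (fun s hs => hg.hasDeriv_tailL (hsub (by rwa [uIcc_of_le (hαt k)] at hs)))
      (hc.intervalIntegrable_of_Icc (hαt k))
    have h2 := intervalIntegral.integral_mono_on (μ := volume) (hαt k) (hc.intervalIntegrable_of_Icc (hαt k))
      ((continuousOn_const (c := 1 / tailQ g T t)).intervalIntegrable_of_Icc (hαt k)) fun s hs => by
        have hm := hsub hs
        have := one_div_le_one_div_of_le hq (hg.tailQ_anti hm.1 hs.2 ht.2)
        simpa [tailQ] using this
    rw [intervalIntegral.integral_const, smul_eq_mul, e, mul_one_div] at h2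
    linarith
  have hlim : Tendsto (fun k => tailL g T (α k) + (t - α k) / tailQ g T t) atTop
      (𝓝 (t / tailQ g T t)) := by
    simpa using (hg.tendsto_tailL_bot hαlim hαm).add ((hαlim.const_sub t).div_const (tailQ g T t))
  have := ge_of_tendsto hlim (Eventually.of_forall hb)
  rw [le_div_iff₀ hq] at this
  rw [tailW, div_le_one ht.1]
  exact this

theorem Marg.tailW_ge (hg : Marg g T) {t : ℝ} (ht : t ∈ Ioo 0 T) :
    tail g T t * tailL g T t / (1 - tail g T t) ≤ tailW g T t ∧
      1 - tailL g T t / 2 ≤ tailW g T t := by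
  have hG := hg.tail_pos ht
  have hg0 := hg.pos t ⟨ht.1.le, ht.2⟩
  have hL := hg.logTail_pos' ht
  have h1 := hg.mul_le_one_sub_tail ht
  have htg : 0 < t * g t := mul_pos ht.1 hg0
  have e : tailW g T t = tail g T t * tailL g T t / (t * g t) := by
    simp only [tailW, tailQ]; field_simp
  rw [e]
  refine ⟨div_le_div_of_nonneg_left (mul_nonneg hG.le hL.le) htg h1, ?_⟩
  rcases le_total 2 (tailL g T t) with h2 | h2
  · have : 0 ≤ tail g T t * tailL g T t / (t * g t) := div_nonneg (mul_nonneg hG.le hL.le) htg.le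
    linarith
  rw [le_div_iff₀ htg]
  set y := 1 / tail g T t - 1 with hy
  have hy0 : 0 ≤ y := by
    rw [hy, sub_nonneg, le_div_iff₀ hG]; linarith
  have h3 := Real.le_log_one_add_of_nonneg hy0
  rw [div_le_iff₀ (by linarith), hy, show 1 + (1 / tail g T t - 1) = (tail g T t)⁻¹ by ring,
    Real.log_inv, ← hy] at h3
  change 2 * y ≤ tailL g T t * (y + 2) at h3
  calc (1 - tailL g T t / 2) * (t * g t) ≤ (1 - tailL g T t / 2) * (1 - tail g T t) :=
        mul_le_mul_of_nonneg_left h1 (by linarith)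
    _ = tail g T t * (y * (1 - tailL g T t / 2)) := by rw [hy]; field_simp
    _ ≤ tail g T t * tailL g T t := mul_le_mul_of_nonneg_left (by linarith) hG.le

theorem Marg.integral_g_log_tailL (hg : Marg g T) {a b : ℝ} (ha : 0 < a) (hab : a ≤ b)
    (hb : b < T) : ∫ t in a..b, g t * Real.log (tailL g T t)
      = ∫ x in (tailL g T a)..(tailL g T b), Real.exp (-x) * Real.log x := by
  have hsub := Marg.subset_Ioo (T := T) ha hb
  rw [← intervalIntegral.integral_comp_mul_deriv' (f := tailL g T)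
    (f' := fun t => g t / tail g T t) (g := fun x => Real.exp (-x) * Real.log x)
    (fun t ht => hg.hasDeriv_tailL (hsub (by rwa [uIcc_of_le hab] at ht))) ?_ ?_]
  · refine intervalIntegral.integral_congr fun t ht => ?_
    rw [uIcc_of_le hab] at ht
    have hG := hg.tail_pos (hsub ht)
    simp only [Function.comp_def, tailL, neg_neg, Real.exp_log hG]
    field_simp
  · rw [uIcc_of_le hab]
    exact (hg.continuousOn.mono hsub).div
      (fun s hs => (hg.hasDeriv_tail (hsub hs)).continuousAt.continuousWithinAt)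
      fun s hs => (hg.tail_pos (hsub hs)).ne'
  · rw [uIcc_of_le hab]
    refine (Continuous.continuousOn (by fun_prop)).mul (Real.continuousOn_log.mono ?_)
    rintro _ ⟨t, ht, rfl⟩
    exact (hg.logTail_pos' (hsub ht)).ne'

theorem Marg.tendsto_integral_log_tailL (hg : Marg g T) {α β : ℕ → ℝ}
    (hα : Tendsto α atTop (𝓝 0)) (hβ : Tendsto β atTop (𝓝 T))
    (hαm : ∀ k, α k ∈ Ioo 0 T) (hβm : ∀ k, β k ∈ Ioo 0 T) (hab : ∀ k, α k ≤ β k) :
    Tendsto (fun k => ∫ t in (α k)..(β k), g t * Real.log (tailL g T t)) atTop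
      (𝓝 (-Real.eulerMascheroniConstant)) := by
  obtain ⟨hint, hval⟩ := integral_exp_neg_mul_log
  set f : ℝ → ℝ := fun x => Real.exp (-x) * Real.log x with hf
  have hi : ∀ b, 0 ≤ b → IntervalIntegrable f volume 0 b := fun b hb =>
    (intervalIntegrable_iff_integrableOn_Ioc_of_le hb).2 (hint.mono_set Ioc_subset_Ioi_self)
  have h1 := (intervalIntegral_tendsto_integral_Ioi 0 hint (hg.tendsto_tailL_top hβ hβm))
  rw [hval] at h1
  have hLa := hg.tendsto_tailL_bot hα hαm
  have h2 : Tendsto (fun k => ∫ x in (0 : ℝ)..(tailL g T (α k)), f x) atTop (𝓝 0) := by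
    have hc := intervalIntegral.continuousOn_primitive_interval' (hi 1 zero_le_one) left_mem_uIcc
    rw [uIcc_of_le zero_le_one] at hc
    have := (hc 0 ⟨le_rfl, zero_le_one⟩).tendsto.comp (tendsto_nhdsWithin_iff.2 ⟨hLa, by
      filter_upwards [hLa.eventually (eventually_le_nhds (zero_lt_one' ℝ))] with k hk
      exact ⟨(hg.logTail_pos' (hαm k)).le, hk⟩⟩)
    simpa [Function.comp_def] using this
  have h3 := h1.sub h2
  rw [sub_zero] at h3
  refine h3.congr fun k => ?_
  rw [hg.integral_g_log_tailL (hαm k).1 (hab k) (hβm k).2]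
  exact intervalIntegral.integral_interval_sub_left (hi _ (hg.logTail_pos' (hβm k)).le)
    (hi _ (hg.logTail_pos' (hαm k)).le)

theorem Marg.integrableOn_mul_log_self (hg : Marg g T) :
    IntegrableOn (fun t => g t * Real.log (g t)) (Ioc 0 T) := by
  obtain ⟨C, hC⟩ := (isCompact_Icc (a := (0 : ℝ)) (b := g 0)).exists_bound_of_continuousOn
    Real.continuous_mul_log.continuousOn
  refine Integrable.mono' (integrableOn_const (C := C) measure_Ioc_lt_top.ne)
    (hg.meas.mul (Real.measurable_log.comp hg.meas)).aestronglyMeasurable ?_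
  rw [ae_restrict_iff' measurableSet_Ioc]
  exact Eventually.of_forall fun t ht => hC _ ⟨hg.nonneg t, hg.le_zero_val ht.1.le⟩

theorem Marg.integrableOn_logTail (hg : Marg g T) :
    IntegrableOn (fun t => g t * tailL g T t) (Ioc 0 T) := by
  have hT := hg.top_pos
  set α : ℕ → ℝ := fun k => T / ((k : ℝ) + 3) with hα
  have hα0 : ∀ k, 0 < α k := fun k => div_pos hT (by positivity)
  have hα2 : ∀ k, α k < T / 2 := fun k => div_lt_div_of_pos_left hT two_pos
    (by linarith [(Nat.cast_nonneg k : (0 : ℝ) ≤ k)])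
  have hαlim : Tendsto α atTop (𝓝 0) :=
    tendsto_const_nhds.div_atTop (tendsto_natCast_atTop_atTop.atTop_add tendsto_const_nhds)
  have hβlim : Tendsto (fun k => T - α k) atTop (𝓝 T) := by simpa using hαlim.const_sub T
  refine integrableOn_Ioc_of_intervalIntegral_norm_bounded (I := 2) (fun k => ?_) hαlim hβlim
    (Eventually.of_forall fun k => ?_)
  · have hsub := Marg.subset_Ioo (hα0 k) (show T - α k < T by linarith [hα0 k])
    exact ((hg.continuousOn.mono hsub).mul
      (hg.continuousOn_logTail.mono hsub)).integrableOn_Icc.mono_set Ioc_subset_Icc_self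
  · have hb : T - α k < T := by linarith [hα0 k]
    have hab : α k ≤ T - α k := by linarith [hα2 k]
    have e1 : ∫ t in Ioc (α k) (T - α k), ‖g t * tailL g T t‖
        = ∫ t in (α k)..(T - α k), g t * -Real.log (tail g T t) := by
      rw [intervalIntegral.integral_of_le hab]
      refine setIntegral_congr_fun measurableSet_Ioc fun t ht => ?_
      exact Real.norm_of_nonneg (mul_nonneg (hg.nonneg t)
        (hg.logTail_pos' ⟨(hα0 k).trans ht.1, ht.2.trans_lt hb⟩).le)
    rw [e1, hg.integral_mul_logTail (hα0 k) hab hb]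
    have ha' : α k ∈ Ioo 0 T := ⟨hα0 k, by linarith [hα2 k]⟩
    have hb' : T - α k ∈ Ioo 0 T := ⟨by linarith [hα2 k], hb⟩
    have h1 := hg.tail_le_one ha'.1.le
    have h3 := Real.negMulLog_nonneg (hg.tail_pos hb').le (hg.tail_le_one hb'.1.le)
    have h4 := hg.tail_pos hb'
    have h5 := Real.negMulLog_le_one_sub_self (hg.tail_pos ha').le
    linarith

theorem Marg.tendsto_integral_logTail (hg : Marg g T) {α β : ℕ → ℝ}
    (hα : Tendsto α atTop (𝓝 0)) (hβ : Tendsto β atTop (𝓝 T))
    (hαm : ∀ k, α k ∈ Ioo 0 T) (hβm : ∀ k, β k ∈ Ioo 0 T) (hab : ∀ k, α k ≤ β k) :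
    Tendsto (fun k => ∫ t in (α k)..(β k), g t * tailL g T t) atTop (𝓝 1) := by
  have ha := hg.tendsto_tail_bot hα hαm
  have hb := hg.tendsto_tail_top hβ hβm
  have := ((Real.continuous_negMulLog.tendsto 1).comp ha |>.add ha).sub
    (((Real.continuous_negMulLog.tendsto 0).comp hb).add hb)
  simp only [Real.negMulLog_one, Real.negMulLog_zero, zero_add, add_zero, sub_zero] at this
  refine this.congr fun k => ?_
  simpa [Function.comp_def, tailL] using
    (hg.integral_mul_logTail (hαm k).1 (hab k) (hβm k).2).symm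

theorem Marg.integral_logTail (hg : Marg g T) : ∫ t in Ioc 0 T, g t * tailL g T t = 1 := by
  have hT := hg.top_pos
  set α : ℕ → ℝ := fun k => T / ((k : ℝ) + 3) with hα
  have hα0 : ∀ k, 0 < α k := fun k => div_pos hT (by positivity)
  have hα2 : ∀ k, α k < T / 2 := fun k => div_lt_div_of_pos_left hT two_pos
    (by linarith [(Nat.cast_nonneg k : (0 : ℝ) ≤ k)])
  have hαlim : Tendsto α atTop (𝓝 0) :=
    tendsto_const_nhds.div_atTop (tendsto_natCast_atTop_atTop.atTop_add tendsto_const_nhds)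
  have hβlim : Tendsto (fun k => T - α k) atTop (𝓝 T) := by simpa using hαlim.const_sub T
  have hαm : ∀ k, α k ∈ Ioo 0 T := fun k => ⟨hα0 k, by linarith [hα2 k]⟩
  have hβm : ∀ k, T - α k ∈ Ioo 0 T := fun k => ⟨by linarith [hα2 k], by linarith [hα0 k]⟩
  exact tendsto_nhds_unique (tendsto_interval hT.le hg.integrableOn_logTail hαlim hβlim
    (fun k => Ioo_subset_Icc_self (hαm k)) fun k => Ioo_subset_Icc_self (hβm k))
    (hg.tendsto_integral_logTail hαlim hβlim hαm hβm fun k => by linarith [hα2 k])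

end Vale.P254.E
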