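import Mathlib
import Vale.Agent.P254.U.Orth
import Vale.Agent.P254.Defs

/-!
Bodies invariant under all coordinate sign changes: their part in the orthant is an orthant body,
and their covariance matrix is diagonal.
-/

namespace Vale.P254.E

open MeasureTheory Set Filter Matrix

variable {n : ℕ}

/-- A compact convex set invariant under coordinate sign changes. -/
structure UncBody (K : Set (Fin n → ℝ)) : Prop where
  compact : IsCompact K
  convex : Convex ℝ K
  flip : ∀ i, ∀ x ∈ K, Function.update x i (-x i) ∈ K

namespace UncBody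

theorem scale_mem {K : Set (Fin n → ℝ)} (h : UncBody K) {x : Fin n → ℝ} (hx : x ∈ K)
    (c : Fin n → ℝ) (hc : ∀ i, |c i| ≤ 1) : (fun i => c i * x i) ∈ K := by
  suffices H : ∀ s : Finset (Fin n), (fun i => if i ∈ s then c i * x i else x i) ∈ K by
    simpa using H Finset.univ
  intro s
  induction s using Finset.induction_on with
  | empty => simpa using hx
  | insert a s ha ih =>
    set y : Fin n → ℝ := fun i => if i ∈ s then c i * x i else x i with hy
    obtain ⟨h1, h2⟩ := abs_le.1 (hc a)
    have := h.convex ih (h.flip a y ih) (show 0 ≤ (1 + c a) / 2 by linarith)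
      (show 0 ≤ (1 - c a) / 2 by linarith) (by ring)
    convert this using 1
    funext i
    rcases eq_or_ne i a with rfl | hia
    · simp [hy, ha]; ring
    · simp [hia, hy]
      split_ifs <;> ring

theorem down_abs {K : Set (Fin n → ℝ)} (h : UncBody K) {x : Fin n → ℝ} (hx : x ∈ K)
    {y : Fin n → ℝ} (hy : ∀ i, |y i| ≤ |x i|) : y ∈ K := by
  have := h.scale_mem hx (fun i => y i / x i) fun i => by
    rw [abs_div]; exact div_le_one_of_le₀ (hy i) (abs_nonneg _)
  convert this using 1
  funext i
  rcases eq_or_ne (x i) 0 with h0 | h0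
  · have := hy i; rw [h0, abs_zero, abs_nonpos_iff] at this; simp [h0, this]
  · rw [div_mul_cancel₀ _ h0]

/-- Reflection into the orthant. -/
theorem integral_orth {K : Set (Fin n → ℝ)} (h : UncBody K) {g : (Fin n → ℝ) → ℝ}
    (hg : Continuous g) (hinv : ∀ i x, g (Function.update x i (-x i)) = g x) :
    ∫ x in K, g x = 2 ^ n * ∫ x in K ∩ Ici 0, g x := by
  suffices H : ∀ s : Finset (Fin n),
      ∫ x in K, g x = 2 ^ s.card * ∫ x in K ∩ {x | ∀ i ∈ s, 0 ≤ x i}, g x by
    have := H Finset.univ
    simpa [Set.Ici, Pi.le_def] using this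
  intro s
  induction s using Finset.induction_on with
  | empty => simp
  | insert a s ha ih =>
    set P := K ∩ {x : Fin n → ℝ | ∀ i ∈ s, 0 ≤ x i} with hP
    set H := {x : Fin n → ℝ | 0 ≤ x a} with hH
    have hHm : MeasurableSet H := measurableSet_le measurable_const (measurable_pi_apply a)
    have hgi : IntegrableOn g P :=
      (hg.continuousOn.integrableOn_compact h.compact).mono_set inter_subset_left
    set T := fun (x : Fin n → ℝ) (j : Fin n) => if j = a then -x j else x j with hT
    have hTm : MeasurePreserving T volume volume := by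
      refine volume_preserving_pi (f := fun j t => if j = a then -t else t) fun j => ?_
      by_cases hj : j = a
      · simp only [hj, if_true]; exact Measure.measurePreserving_neg volume
      · simp only [hj, if_false]; exact MeasurePreserving.id volume
    have hTu : ∀ x, T x = Function.update x a (-x a) := fun x => by
      funext j; by_cases hj : j = a <;> simp [hT, hj]
    have hinv' : Function.Involutive T := fun x => by
      funext j; by_cases hj : j = a <;> simp [hT, hj]
    let Te : (Fin n → ℝ) ≃ᵐ (Fin n → ℝ) :=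
      ⟨hinv'.toPerm T, hTm.measurable, hTm.measurable⟩
    have hPT : ∀ x, T x ∈ P ↔ x ∈ P := by
      have h1 : ∀ x, x ∈ P → T x ∈ P := fun x hx => ⟨by rw [hTu]; exact h.flip a x hx.1,
        fun i hi => by
          have : i ≠ a := fun e => ha (e ▸ hi)
          simp [hT, this]; exact hx.2 i hi⟩
      exact fun x => ⟨fun hx => hinv' x ▸ h1 _ hx, h1 x⟩
    have hflip : ∫ x in P \ H, g x = ∫ x in P ∩ H, g x := by
      rw [← hTm.setIntegral_preimage_emb Te.measurableEmbedding g (P \ H)]
      simp only [hTu, hinv]
      refine setIntegral_congr_set ?_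
      have hnull : ∀ᵐ x : Fin n → ℝ, x a ≠ 0 := by
        rw [ae_iff, show {x : Fin n → ℝ | ¬x a ≠ 0} = {x | x a = 0} by ext; simp, volume_pi]
        exact Measure.pi_hyperplane _ a 0
      filter_upwards [hnull] with x hx
      refine propext ?_
      show T x ∈ P \ H ↔ x ∈ P ∩ H
      rw [Set.mem_sdiff, hPT, mem_inter_iff]
      simp only [hH, mem_ofPred_eq, hT, if_true, not_le]
      exact and_congr_right fun _ => ⟨fun h => show 0 ≤ x a by linarith,
        fun h => neg_lt_zero.2 (lt_of_le_of_ne (show 0 ≤ x a from h) (Ne.symm hx))⟩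
    rw [ih, Finset.card_insert_of_notMem ha, pow_succ, mul_assoc,
      ← integral_inter_add_sdiff hHm hgi, hflip, ← two_mul]
    have e : K ∩ {x | ∀ i ∈ insert a s, 0 ≤ x i} = P ∩ H := by
      ext x; simp [hP, hH]; tauto
    rw [e]

theorem orthBody {K : Set (Fin n → ℝ)} (h : UncBody K) (hint : (interior K).Nonempty) :
    U.OrthBody (K ∩ Ici 0) := by
  refine ⟨h.compact.inter_right isClosed_Ici, h.convex.inter (convex_Ici 0), fun x hx => hx.2,
    fun x hx y hy hyx => ⟨h.down_abs hx.1 fun i => ?_, hy⟩, ?_⟩
  · rw [abs_of_nonneg (hy i), abs_of_nonneg (hx.2 i)]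
    exact hyx i
  obtain ⟨x₀, hx₀⟩ := hint
  obtain ⟨r, hr, hball⟩ := Metric.mem_nhds_iff.1 (mem_interior_iff_mem_nhds.1 hx₀)
  set y : Fin n → ℝ := fun i => if 0 ≤ x₀ i then x₀ i + r / 2 else x₀ i - r / 2 with hy
  have hyK : y ∈ K := hball <| by
    rw [Metric.mem_ball, dist_eq_norm]
    refine ((pi_norm_le_iff_of_nonneg (by linarith)).2 fun i => ?_).trans_lt (half_lt_self hr)
    simp only [hy, Pi.sub_apply, Real.norm_eq_abs]
    split_ifs <;> simp [abs_le] <;> linarith
  have hy0 : ∀ i, r / 2 ≤ |y i| := fun i => by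
    simp only [hy]
    split_ifs with h0
    · exact (by linarith : r / 2 ≤ x₀ i + r / 2).trans (le_abs_self _)
    · exact (by linarith : r / 2 ≤ -(x₀ i - r / 2)).trans (neg_le_abs _)
  have hsub : Icc (0 : Fin n → ℝ) (fun _ => r / 2) ⊆ K ∩ Ici 0 := fun z hz =>
    ⟨h.down_abs hyK fun i => by rw [abs_of_nonneg (hz.1 i)]; exact (hz.2 i).trans (hy0 i), hz.1⟩
  refine Set.Nonempty.mono (interior_mono hsub) ?_
  rw [← pi_univ_Icc, interior_pi_set finite_univ]
  refine univ_pi_nonempty_iff.2 fun i => ?_
  rw [interior_Icc]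
  exact nonempty_Ioo.2 (by simpa using hr)

/-- An odd function has integral zero. -/
theorem integral_odd {K : Set (Fin n → ℝ)} (h : UncBody K) (i : Fin n)
    (g : (Fin n → ℝ) → ℝ) (hg : ∀ x, g (Function.update x i (-x i)) = -g x) :
    ∫ x in K, g x = 0 := by
  set T := fun (x : Fin n → ℝ) (j : Fin n) => if j = i then -x j else x j with hT
  have hTm : MeasurePreserving T volume volume := by
    refine volume_preserving_pi (f := fun j t => if j = i then -t else t) fun j => ?_
    by_cases hj : j = i
    · simp only [hj, if_true]; exact Measure.measurePreserving_neg volume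
    · simp only [hj, if_false]; exact MeasurePreserving.id volume
  have hTu : ∀ x, T x = Function.update x i (-x i) := fun x => by
    funext j; by_cases hj : j = i <;> simp [hT, hj]
  have hinv : Function.Involutive T := fun x => by
    funext j; by_cases hj : j = i <;> simp [hT, hj]
  let Te : (Fin n → ℝ) ≃ᵐ (Fin n → ℝ) :=
    ⟨hinv.toPerm T, hTm.measurable, hTm.measurable⟩
  have hTK : T ⁻¹' K = K := by
    ext x
    rw [mem_preimage]
    refine ⟨fun hx => ?_, fun hx => by rw [hTu]; exact h.flip i x hx⟩
    have := h.flip i _ hx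
    rwa [← hTu, hinv x] at this
  have h' := hTm.setIntegral_preimage_emb Te.measurableEmbedding g K
  rw [hTK] at h'
  simp only [hTu, hg, integral_neg] at h'
  linarith

/-- The covariance matrix is diagonal, with entries the second moments in the orthant. -/
theorem det_covMat {K : Set (Fin n → ℝ)} (h : UncBody K) :
    (covMat K).det / volume.real K ^ 2
      = (∏ i, (∫ x in K ∩ Ici 0, x i ^ 2) / volume.real (K ∩ Ici 0))
        / (4 ^ n * volume.real (K ∩ Ici 0) ^ 2) := by
  have hcen : ∀ i, centroid K i = 0 := fun i => by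
    rw [centroid, h.integral_odd i _ fun x => by simp, zero_div]
  have hcov : covMat K = Matrix.diagonal fun i => (∫ x in K, x i ^ 2) / volume.real K := by
    ext i j
    simp only [covMat, Matrix.of_apply, hcen, sub_zero]
    rcases eq_or_ne i j with rfl | hij
    · simp [sq]
    · rw [Matrix.diagonal_apply_ne _ hij, h.integral_odd i _ fun x => by simp [hij.symm], zero_div]
  have hV : volume.real K = 2 ^ n * volume.real (K ∩ Ici 0) := by
    have := h.integral_orth (g := fun _ => 1) continuous_const fun _ _ => rfl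
    simpa using this
  have hM : ∀ i, ∫ x in K, x i ^ 2 = 2 ^ n * ∫ x in K ∩ Ici 0, x i ^ 2 := fun i =>
    h.integral_orth (by fun_prop) fun j x => by rcases eq_or_ne i j with rfl | hij <;> simp [*]
  rw [hcov, Matrix.det_diagonal]
  simp only [hM, hV]
  have : ∀ i, (2 : ℝ) ^ n * (∫ x in K ∩ Ici 0, x i ^ 2) / (2 ^ n * volume.real (K ∩ Ici 0))
      = (∫ x in K ∩ Ici 0, x i ^ 2) / volume.real (K ∩ Ici 0) := fun i =>
    mul_div_mul_left _ _ (by positivity)
  simp only [this]
  rw [mul_pow, ← pow_mul, mul_comm n 2, pow_mul]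
  norm_num

end UncBody

end Vale.P254.E
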