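import Mathlib
import Vale.Agent.P254.Simplex
import Vale.Agent.P254.E.Unc
import Vale.Agent.P254.E.Brunn
import Vale.Agent.P254.E.Induction

/-!
The entropy bound and the goal inequality for one variable give the strong isotropic constant
conjecture for all bodies invariant under coordinate sign changes, and their affine images.
-/

namespace Vale.P254.E

open MeasureTheory Set Filter

variable {n : ℕ}

theorem simplexLsq_pos (n : ℕ) : 0 < simplexLsq n := by
  unfold simplexLsq; positivity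

theorem simplexLsq_pow {n : ℕ} (hn : n ≠ 0) :
    simplexLsq n ^ n
      = (n.factorial : ℝ) ^ 2 / (((n + 1) * (n + 2) : ℝ) ^ n * (n + 1)) := by
  have hn' : (n : ℝ) ≠ 0 := Nat.cast_ne_zero.2 hn
  rw [simplexLsq, div_pow, mul_pow, mul_pow, ← Real.rpow_natCast (_ ^ (2 / (n : ℝ))) n,
    ← Real.rpow_natCast (_ ^ (((n : ℝ) + 1) / n)) n, ← Real.rpow_mul (by positivity),
    ← Real.rpow_mul (by positivity), div_mul_cancel₀ _ hn', div_mul_cancel₀ _ hn',
    show (2 : ℝ) = ((2 : ℕ) : ℝ) by norm_num, Real.rpow_natCast,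
    show (n : ℝ) + 1 = ((n + 1 : ℕ) : ℝ) by push_cast; ring, Real.rpow_natCast, pow_succ]
  push_cast
  ring

theorem mSq_margin {K : Set (Fin (n + 1) → ℝ)} (h : U.OrthBody K) (i : Fin (n + 1)) :
    mSq (margin K i) (top K i) = (∫ x in K, x i ^ 2) / volume.real K :=
  integral_margin_mul h i (f := fun t => t ^ 2) (h.integrableOn (by fun_prop))

/-- The normalised second moments of an orthant body. -/
theorem prod_moment_lt {ψ : ℝ → ℝ} (hn : n ≠ 0) (hS : Spine n ψ) (hA : OneDimA n ψ)
    {K : Set (Fin n → ℝ)} (h : U.OrthBody K) :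
    (∏ i, (∫ x in K, x i ^ 2) / volume.real K) / (4 ^ n * volume.real K ^ 2)
      < simplexLsq n ^ n := by
  obtain ⟨k, rfl⟩ := Nat.exists_eq_succ_of_ne_zero hn
  have hV := h.volume_pos
  set q : Fin (k + 1) → ℝ := fun i => (∫ x in K, x i ^ 2) / volume.real K with hq
  have hq0 : ∀ i, 0 ≤ q i := fun i => div_nonneg (integral_nonneg fun x => sq_nonneg _) hV.le
  have hL := pow_pos (simplexLsq_pos (k + 1)) (k + 1)
  by_cases hz : ∃ i, q i = 0
  · obtain ⟨i, hi⟩ := hz
    rw [Finset.prod_eq_zero (Finset.mem_univ i) hi, zero_div]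
    exact hL
  push Not at hz
  have hpos : ∀ i, 0 < q i := fun i => lt_of_le_of_ne (hq0 i) (Ne.symm (hz i))
  have hlt : ∀ i, 1 / 2 * Real.log (q i) + cConst (k + 1)
      < 1 + logMean K i + ψ (logVar K i) := fun i => by
    have := hA _ _ (marg_margin h i) (inClass_margin h i)
    rwa [mSq_margin h i, mLog_margin h i, mS_margin h i] at this
  have hsum := (Finset.sum_lt_sum_of_nonempty Finset.univ_nonempty fun i _ => hlt i).trans_le
    (hS K h)
  rw [Finset.sum_add_distrib, Finset.sum_const, Finset.card_univ, Fintype.card_fin, nsmul_eq_mul,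
    ← Finset.mul_sum, ← Real.log_prod fun i _ => (hpos i).ne'] at hsum
  have hp : 0 < ∏ i, q i := Finset.prod_pos fun i _ => hpos i
  rw [← Real.log_lt_log_iff (by positivity) hL, Real.log_pow,
    Real.log_div hp.ne' (by positivity), Real.log_mul (by positivity) (by positivity),
    Real.log_pow, Real.log_pow, show (4 : ℝ) = 2 ^ 2 by norm_num, Real.log_pow]
  rw [cConst, one_div (simplexLsq _), Real.log_inv] at hsum
  push_cast at hsum ⊢
  linarith

/-- The strong isotropic constant conjecture for affine images of unconditional bodies. -/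
theorem unconditional_lt_simplex {ψ : ℝ → ℝ} (hn : 2 ≤ n) (hS : Spine n ψ)
    (hA : OneDimA n ψ) {K : Set (Fin n → ℝ)} (hKc : IsCompact K) (hKv : Convex ℝ K)
    (hflip : ∀ i, ∀ x ∈ K, Function.update x i (-x i) ∈ K) (hint : (interior K).Nonempty)
    (A : (Fin n → ℝ) ≃ᵃ[ℝ] (Fin n → ℝ)) (p : Fin (n + 1) → Fin n → ℝ)
    (hp : AffineIndependent ℝ p) :
    isoConst (A '' K) < isoConst (convexHull ℝ (Set.range p)) := by
  have h : UncBody K := ⟨hKc, hKv, hflip⟩
  have hV : 0 < volume.real K :=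
    ENNReal.toReal_pos (Measure.measure_pos_of_nonempty_interior _ hint).ne' hKc.measure_lt_top.ne
  have hb := h.orthBody hint
  have hlt := prod_moment_lt (by omega) hS hA hb
  rw [simplexLsq_pow (by omega)] at hlt
  rw [affine_isoConst A hKc hV, simplex_isoConst p hp, isoConst, h.det_covMat]
  refine Real.rpow_lt_rpow ?_ hlt (by positivity)
  exact div_nonneg (Finset.prod_nonneg fun i _ =>
    div_nonneg (integral_nonneg fun x => sq_nonneg _) measureReal_nonneg) (by positivity)

/-- The conjecture for unconditional bodies from the loss bound and the two inequalities. -/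
theorem unconditional_of_oneDim {F : (ℝ → ℝ) → ℝ → ℝ} {ψ dψ : ℝ → ℝ} (hn : 2 ≤ n)
    (hF : LossBound F) (hB : OneDimB ψ dψ F) (hψ : Potential ψ dψ) (hA : OneDimA n ψ)
    {K : Set (Fin n → ℝ)} (hKc : IsCompact K) (hKv : Convex ℝ K)
    (hflip : ∀ i, ∀ x ∈ K, Function.update x i (-x i) ∈ K) (hint : (interior K).Nonempty)
    (A : (Fin n → ℝ) ≃ᵃ[ℝ] (Fin n → ℝ)) (p : Fin (n + 1) → Fin n → ℝ)
    (hp : AffineIndependent ℝ p) :
    isoConst (A '' K) < isoConst (convexHull ℝ (Set.range p)) :=
  unconditional_lt_simplex hn (spine hF hB hψ n) hA hKc hKv hflip hint A p hp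

/-- The same with bounds that may depend on the dimension. -/
theorem unconditional_of_upTo {F : (ℝ → ℝ) → ℝ → ℝ} {ψ dψ : ℝ → ℝ} (hn : 2 ≤ n)
    (hF : BodyLoss n F) (hB : OneDimBUpTo n ψ dψ F) (hψ : Potential ψ dψ) (hA : OneDimA n ψ)
    {K : Set (Fin n → ℝ)} (hKc : IsCompact K) (hKv : Convex ℝ K)
    (hflip : ∀ i, ∀ x ∈ K, Function.update x i (-x i) ∈ K) (hint : (interior K).Nonempty)
    (A : (Fin n → ℝ) ≃ᵃ[ℝ] (Fin n → ℝ)) (p : Fin (n + 1) → Fin n → ℝ)
    (hp : AffineIndependent ℝ p) :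
    isoConst (A '' K) < isoConst (convexHull ℝ (Set.range p)) :=
  unconditional_lt_simplex hn (spine_upTo hF hB hψ n le_rfl) hA hKc hKv hflip hint A p hp

end Vale.P254.E
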