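import Mathlib
import Vale.Agent.P254.E.Glue
import Vale.Agent.P254.E.CertW

/-!
Potentials given by finitely many affine pieces, and the sign of the gap `mEnt - 1 - mLog`.
-/

namespace Vale.P254.E

open MeasureTheory Set Filter Topology

variable {g : ℝ → ℝ} {T : ℝ}

/-- The gap is nonnegative: `t g t` is at most the mass of `[0, t]`. -/
theorem Marg.gap_nonneg (hg : Marg g T) : 0 ≤ mEnt g T - 1 - mLog g T := by
  set F : ℝ → ℝ := fun t => 1 - tail g T t with hF
  have hFle : ∀ t ∈ Ioo 0 T, g t * t ≤ F t := by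
    intro t ht
    have hsp : (∫ x in Ioc 0 t, g x) + tail g T t = 1 := by
      rw [tail, ← setIntegral_union (Ioc_disjoint_Ioc_of_le le_rfl) measurableSet_Ioc
        (hg.integrableOn.mono_set (Ioc_subset_Ioc_right ht.2.le))
        (hg.integrableOn.mono_set (Ioc_subset_Ioc_left ht.1.le)),
        Ioc_union_Ioc_eq_Ioc ht.1.le ht.2.le, hg.mass]
    have hlow : g t * t ≤ ∫ x in Ioc 0 t, g x := by
      refine le_trans (le_of_eq ?_) (setIntegral_mono_on (f := fun _ => g t)
        (integrableOn_const measure_Ioc_lt_top.ne)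
        (hg.integrableOn.mono_set (Ioc_subset_Ioc_right ht.2.le)) measurableSet_Ioc fun x hx =>
          hg.anti (show (0 : ℝ) ≤ x from hx.1.le) (show (0 : ℝ) ≤ t from ht.1.le) hx.2)
      rw [setIntegral_const, measureReal_def, Real.volume_Ioc,
        ENNReal.toReal_ofReal (by linarith [ht.1]), smul_eq_mul]
      ring
    simp only [hF]; linarith
  have hFpos : ∀ t ∈ Ioo 0 T, 0 < F t := fun t ht =>
    (mul_pos (hg.pos t ⟨ht.1.le, ht.2⟩) ht.1).trans_le (hFle t ht)
  have hd : ∀ t ∈ Ioo 0 T,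
      HasDerivAt (fun x => Real.negMulLog (F x) + F x) (g t * -Real.log (F t)) t := by
    intro t ht
    have h1 : HasDerivAt F (g t) t := ((hg.hasDeriv_tail ht).const_sub 1).congr_deriv (neg_neg _)
    exact (((Real.hasDerivAt_negMulLog (hFpos t ht).ne').comp t h1).add h1).congr_deriv (by ring)
  set f : ℝ → ℝ := fun t => -(g t * Real.log (g t)) - g t * Real.log t with hf
  have iF : IntegrableOn f (Ioc 0 T) := hg.integrableOn_mul_log_self.neg.sub hg.integrableOn_log
  have hI : ∫ t in Ioc 0 T, f t = mEnt g T - mLog g T := by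
    have i1 : Integrable (fun t => -(g t * Real.log (g t))) (volume.restrict (Ioc 0 T)) :=
      hg.integrableOn_mul_log_self.neg
    rw [hf, integral_sub i1 hg.integrableOn_log.integrable, integral_neg, mEnt, mLog]
  have hT := hg.top_pos
  set α : ℕ → ℝ := fun k => T / ((k : ℝ) + 3) with hαdef
  set β : ℕ → ℝ := fun k => T - α k with hβdef
  have hα0 : ∀ k, 0 < α k := fun k => div_pos hT (by positivity)
  have hα2 : ∀ k, α k < T / 2 := fun k => div_lt_div_of_pos_left hT two_pos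
    (by linarith [(Nat.cast_nonneg k : (0 : ℝ) ≤ k)])
  have hα' : Tendsto α atTop (𝓝 0) :=
    tendsto_const_nhds.div_atTop (tendsto_natCast_atTop_atTop.atTop_add tendsto_const_nhds)
  have hβ' : Tendsto β atTop (𝓝 T) := by simpa using hα'.const_sub T
  have hαβ : ∀ k, 0 < α k ∧ α k < β k ∧ β k < T := fun k =>
    ⟨hα0 k, by simp only [hβdef]; linarith [hα2 k], by simp only [hβdef]; linarith [hα0 k]⟩
  have hlow : ∀ k, Real.negMulLog (F (β k)) + F (β k) - (Real.negMulLog (F (α k)) + F (α k))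
      ≤ ∫ t in (α k)..(β k), f t := by
    intro k
    obtain ⟨h0, h1, h2⟩ := hαβ k
    have hsub := Marg.subset_Ioo (T := T) h0 h2
    have hc : ContinuousOn (fun t => g t * -Real.log (F t)) (Icc (α k) (β k)) := by
      refine (hg.continuousOn.mono hsub).mul (ContinuousOn.log ?_ fun t ht => ?_).neg
      · exact continuousOn_const.sub fun t ht =>
          (hg.hasDeriv_tail (hsub ht)).continuousAt.continuousWithinAt
      · exact (hFpos t (hsub ht)).ne'
    rw [← intervalIntegral.integral_eq_sub_of_hasDerivAt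
      (fun t ht => hd t (hsub (by rwa [uIcc_of_le h1.le] at ht)))
      (hc.intervalIntegrable_of_Icc h1.le)]
    refine intervalIntegral.integral_mono_on h1.le (hc.intervalIntegrable_of_Icc h1.le)
      ((intervalIntegrable_iff_integrableOn_Ioc_of_le h1.le).2
        (iF.mono_set (Ioc_subset_Ioc h0.le h2.le))) fun t ht => ?_
    have htm := hsub ht
    have hgt := hg.pos t ⟨htm.1.le, htm.2⟩
    have := Real.log_le_log (mul_pos hgt htm.1) (hFle t htm)
    rw [Real.log_mul hgt.ne' htm.1.ne'] at this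
    simp only [hf]
    nlinarith
  have ha : Tendsto (fun k => F (α k)) atTop (𝓝 0) := by
    simpa [hF] using (hg.tendsto_tail_bot hα' fun k =>
      ⟨(hαβ k).1, by linarith [(hαβ k).2.1, (hαβ k).2.2]⟩).const_sub 1
  have hb : Tendsto (fun k => F (β k)) atTop (𝓝 1) := by
    simpa [hF] using (hg.tendsto_tail_top hβ' fun k =>
      ⟨by linarith [(hαβ k).1, (hαβ k).2.1], (hαβ k).2.2⟩).const_sub 1
  have hlim : Tendsto
      (fun k => Real.negMulLog (F (β k)) + F (β k) - (Real.negMulLog (F (α k)) + F (α k)))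
      atTop (𝓝 1) := by
    have := (((Real.continuous_negMulLog.tendsto 1).comp hb).add hb).sub
      (((Real.continuous_negMulLog.tendsto 0).comp ha).add ha)
    simpa using this
  have := le_of_tendsto_of_tendsto' hlim (tendsto_interval hg.top_pos.le iF hα' hβ'
    (fun k => ⟨(hαβ k).1.le, by linarith [(hαβ k).2.1, (hαβ k).2.2]⟩)
    (fun k => ⟨by linarith [(hαβ k).1, (hαβ k).2.1], (hαβ k).2.2.le⟩)) hlow
  rw [hI] at this
  linarith

/-- The maximum of `0` and the affine pieces, on the rationals. -/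
def pieceQ : List (ℚ × ℚ) → ℚ → ℚ
  | [], _ => 0
  | p :: P, x => max (p.1 * x + p.2) (pieceQ P x)

/-- The maximum of `0` and the affine pieces. -/
noncomputable def piecePsi : List (ℚ × ℚ) → ℝ → ℝ
  | [], _ => 0
  | p :: P, x => max ((p.1 : ℝ) * x + p.2) (piecePsi P x)

/-- The slope of a piece attaining the maximum. -/
noncomputable def pieceSlope : List (ℚ × ℚ) → ℝ → ℝ
  | [], _ => 0
  | p :: P, x => if piecePsi P x ≤ (p.1 : ℝ) * x + p.2 then p.1 else pieceSlope P x

theorem pieceQ_cast : ∀ (P : List (ℚ × ℚ)) (x : ℚ), (pieceQ P x : ℝ) = piecePsi P x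
  | [], x => by simp [pieceQ, piecePsi]
  | p :: P, x => by simp [pieceQ, piecePsi, Rat.cast_max, pieceQ_cast P x]

theorem piecePsi_nonneg : ∀ (P : List (ℚ × ℚ)) (x : ℝ), 0 ≤ piecePsi P x
  | [], _ => le_rfl
  | _ :: P, x => le_max_of_le_right (piecePsi_nonneg P x)

theorem le_piecePsi : ∀ {P : List (ℚ × ℚ)} {p : ℚ × ℚ}, p ∈ P → ∀ x : ℝ,
    (p.1 : ℝ) * x + p.2 ≤ piecePsi P x
  | q :: P, p, hp, x => by
    rcases List.mem_cons.1 hp with rfl | h
    · exact le_max_left _ _
    · exact le_max_of_le_right (le_piecePsi h x)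

theorem piecePsi_attained : ∀ (P : List (ℚ × ℚ)) (x : ℝ),
    (piecePsi P x = 0 ∧ pieceSlope P x = 0) ∨
      ∃ p ∈ P, piecePsi P x = (p.1 : ℝ) * x + p.2 ∧ pieceSlope P x = p.1
  | [], x => Or.inl ⟨rfl, rfl⟩
  | q :: P, x => by
    by_cases h : piecePsi P x ≤ (q.1 : ℝ) * x + q.2
    · exact Or.inr ⟨q, List.mem_cons_self .., max_eq_left h, if_pos h⟩
    · have e1 : piecePsi (q :: P) x = piecePsi P x := max_eq_right (not_le.1 h).le
      have e2 : pieceSlope (q :: P) x = pieceSlope P x := if_neg h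
      rcases piecePsi_attained P x with ⟨h1, h2⟩ | ⟨p, hp, h1, h2⟩
      · exact Or.inl ⟨e1.trans h1, e2.trans h2⟩
      · exact Or.inr ⟨p, List.mem_cons_of_mem _ hp, e1.trans h1, e2.trans h2⟩

theorem potential_pieces {P : List (ℚ × ℚ)} (hP : ∀ p ∈ P, 0 ≤ p.1) :
    Potential (piecePsi P) (pieceSlope P) := by
  have hsub : ∀ x y, piecePsi P x + pieceSlope P x * (y - x) ≤ piecePsi P y := by
    intro x y
    rcases piecePsi_attained P x with ⟨h1, h2⟩ | ⟨p, hp, h1, h2⟩
    · rw [h1, h2]; simpa using piecePsi_nonneg P y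
    · rw [h1, h2]; linarith [le_piecePsi hp y]
  refine ⟨hsub, fun x y hxy => ?_, fun x => ?_⟩
  · rcases hxy.eq_or_lt with rfl | h
    · exact le_rfl
    · nlinarith [hsub x y, hsub y x]
  · rcases piecePsi_attained P x with ⟨-, h2⟩ | ⟨p, hp, -, h2⟩
    · rw [h2]
    · rw [h2]; exact_mod_cast hP p hp

theorem Potential.monotone {ψ dψ : ℝ → ℝ} (h : Potential ψ dψ) : Monotone ψ := fun x y hxy => by
  nlinarith [h.subgrad x y, mul_nonneg (h.nonneg x) (sub_nonneg.2 hxy)]

/-- The step inequality from one bound per piece, needed only where the piece is the maximum. -/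
theorem oneDimB_pieces {P : List (ℚ × ℚ)} {F : (ℝ → ℝ) → ℝ → ℝ}
    (h : ∀ p ∈ P, ∀ (g : ℝ → ℝ) (T : ℝ), Marg g T →
      (∀ q ∈ ((0, 0) : ℚ × ℚ) :: P, (q.1 : ℝ) * mS g T + q.2 ≤ p.1 * mS g T + p.2) →
      (p.1 : ℝ) * mS g T + p.2 + p.1 * F g T ≤ mEnt g T - 1 - mLog g T) :
    OneDimB (piecePsi P) (pieceSlope P) F := by
  intro g T hg
  rcases piecePsi_attained P (mS g T) with ⟨h1, h2⟩ | ⟨p, hp, h1, h2⟩
  · rw [h1, h2]; simpa using hg.gap_nonneg
  · rw [h1, h2]
    refine h p hp g T hg fun q hq => ?_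
    rcases List.mem_cons.1 hq with rfl | hq
    · rw [← h1]; simpa using piecePsi_nonneg P (mS g T)
    · rw [← h1]; exact le_piecePsi hq _

/-- A calibration bound of slope `lam` gives a piece of slope `p.1 ≤ lam` to the right of the place
where it overtakes a flatter piece `q`, once it does so there. -/
theorem piece_of_bound {p q : ℚ × ℚ} {lam m : ℚ} (hq : q.1 < p.1) (hlam : p.1 ≤ lam)
    (hL : p.1 * ((q.2 - p.2) / (p.1 - q.1)) + p.2 ≤ m + lam * ((q.2 - p.2) / (p.1 - q.1)))
    {S F G : ℝ} (hact : (q.1 : ℝ) * S + q.2 ≤ p.1 * S + p.2)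
    (hcert : (m : ℝ) + lam * S + p.1 * F ≤ G) : (p.1 : ℝ) * S + p.2 + p.1 * F ≤ G := by
  set L : ℚ := (q.2 - p.2) / (p.1 - q.1) with hLdef
  have hd : (0 : ℝ) < (p.1 : ℝ) - q.1 := by exact_mod_cast sub_pos.2 hq
  have hLS : (L : ℝ) ≤ S := by
    rw [hLdef]; push_cast
    rw [div_le_iff₀ hd]; linarith
  have h1 : (p.1 : ℝ) * L + p.2 ≤ m + lam * L := by exact_mod_cast hL
  have h2 : (0 : ℝ) ≤ (lam : ℝ) - p.1 := by exact_mod_cast sub_nonneg.2 hlam
  nlinarith [mul_nonneg h2 (sub_nonneg.2 hLS)]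

end Vale.P254.E
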