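import Mathlib
import Vale.Agent.P254.E.Pieces

/-!
Pieces whose slopes interpolate a few calibrated nodes, with a decidable validity test.
-/

namespace Vale.P254.E

open MeasureTheory Set

/-- A calibrated node: `m + lam S + a F ≤ G`. -/
structure Node where
  a : ℚ
  lam : ℚ
  m : ℚ

/-- Every node is a valid bound for `F`. -/
def NodesValid (ns : List Node) (F : (ℝ → ℝ) → ℝ → ℝ) : Prop :=
  ∀ nd ∈ ns, ∀ (g : ℝ → ℝ) (T : ℝ), Marg g T →
    (nd.m : ℝ) + nd.lam * mS g T + nd.a * F g T ≤ mEnt g T - 1 - mLog g T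

/-- A piece `p` with the flatter piece `q` and the convex weights of two nodes. -/
structure Entry where
  p : ℚ × ℚ
  q : ℚ × ℚ
  i : ℕ
  j : ℕ
  w : ℚ

/-- The checks for one entry. -/
def entryOK (ns : List Node) (P : List (ℚ × ℚ)) (e : Entry) : Bool :=
  match ns[e.i]?, ns[e.j]? with
  | some x, some y =>
    let lam := e.w * x.lam + (1 - e.w) * y.lam
    let m := e.w * x.m + (1 - e.w) * y.m
    let L := (e.q.2 - e.p.2) / (e.p.1 - e.q.1)
    decide (e.q ∈ ((0, 0) : ℚ × ℚ) :: P) && decide (0 ≤ e.w) && decide (e.w ≤ 1) &&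
      decide (e.p.1 = e.w * x.a + (1 - e.w) * y.a) && decide (e.q.1 < e.p.1) &&
      decide (e.p.1 ≤ lam) && decide (e.p.1 * L + e.p.2 ≤ m + lam * L)
  | _, _ => false

/-- The potential of a list of entries. -/
def entryPieces (es : List Entry) : List (ℚ × ℚ) := es.map Entry.p

/-- The checks for a group. -/
def nodesOK (ns : List Node) (es : List Entry) : Bool :=
  es.all fun e => decide (0 ≤ e.p.1) && entryOK ns (entryPieces es) e

theorem entryPieces_nonneg {ns : List Node} {es : List Entry} (h : nodesOK ns es = true) :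
    ∀ p ∈ entryPieces es, 0 ≤ p.1 := fun p hp => by
  obtain ⟨e, he, rfl⟩ := List.mem_map.1 hp
  have := List.all_eq_true.1 h e he
  simp only [Bool.and_eq_true, decide_eq_true_eq] at this
  exact this.1

/-- The bounds wanted by the step inequality. -/
theorem pieces_of_nodes {ns : List Node} {es : List Entry} {F : (ℝ → ℝ) → ℝ → ℝ}
    (hv : NodesValid ns F) (h : nodesOK ns es = true) :
    ∀ p ∈ entryPieces es, ∀ (g : ℝ → ℝ) (T : ℝ), Marg g T →
      (∀ q ∈ ((0, 0) : ℚ × ℚ) :: entryPieces es,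
        (q.1 : ℝ) * mS g T + q.2 ≤ p.1 * mS g T + p.2) →
      (p.1 : ℝ) * mS g T + p.2 + p.1 * F g T ≤ mEnt g T - 1 - mLog g T := by
  intro p hp g T hg hact
  obtain ⟨e, he, rfl⟩ := List.mem_map.1 hp
  have h' := List.all_eq_true.1 h e he
  simp only [Bool.and_eq_true] at h'
  have hE := h'.2
  unfold entryOK at hE
  split at hE
  · rename_i x y hx hy
    simp only [Bool.and_eq_true, decide_eq_true_eq] at hE
    obtain ⟨⟨⟨⟨⟨⟨hq, hw0⟩, hw1⟩, ha⟩, hlt⟩, hlam⟩, hL⟩ := hE
    have bx := hv x (List.mem_of_getElem? hx) g T hg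
    have by' := hv y (List.mem_of_getElem? hy) g T hg
    refine piece_of_bound hlt hlam hL (hact _ hq) ?_
    have w0 : (0 : ℝ) ≤ e.w := by exact_mod_cast hw0
    have w1 : (0 : ℝ) ≤ 1 - (e.w : ℝ) := by
      have : (e.w : ℝ) ≤ 1 := by exact_mod_cast hw1
      linarith
    rw [ha]
    push_cast
    nlinarith [mul_le_mul_of_nonneg_left bx w0, mul_le_mul_of_nonneg_left by' w1]
  · simp at hE

/-- A group from its nodes. -/
theorem oneDimB_nodes {ns : List Node} {es : List Entry} {F : (ℝ → ℝ) → ℝ → ℝ}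
    (hv : NodesValid ns F) (h : nodesOK ns es = true) :
    OneDimB (piecePsi (entryPieces es)) (pieceSlope (entryPieces es)) F :=
  oneDimB_pieces (pieces_of_nodes hv h)

end Vale.P254.E
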