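import Mathlib
import Vale.Agent.P254.E.Pieces
import Vale.Agent.P254.E.LossBody
import Vale.Agent.P254.E.CurveStep
import Vale.Agent.P254.E.CurveData
import Vale.Agent.P254.E.CurveLink
import Vale.Agent.P254.E.LiftConst
import Vale.Agent.P254.E.Lift
import Vale.Agent.P254.E.PieceNodes

/-!
Groups of dimensions: the two one-variable certificates give the strict simplex bound for
unconditional bodies and their affine images.
-/

namespace Vale.P254.E

open MeasureTheory Set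

/-- Affine images of unconditional bodies in dimension `n` are strictly below the simplex. -/
def UncLt (n : ℕ) : Prop :=
  ∀ K : Set (Fin n → ℝ), IsCompact K → Convex ℝ K →
    (∀ i, ∀ x ∈ K, Function.update x i (-x i) ∈ K) → (interior K).Nonempty →
    ∀ (A : (Fin n → ℝ) ≃ᵃ[ℝ] (Fin n → ℝ)) (p : Fin (n + 1) → Fin n → ℝ),
      AffineIndependent ℝ p →
      isoConst (A '' K) < isoConst (convexHull ℝ (Set.range p))

/-- One certificate for the dimensions `n ≤ N`. -/
theorem uncLt_of_group {n N : ℕ} (hn : 2 ≤ n) (hN : n ≤ N) {P : List (ℚ × ℚ)}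
    (hP : ∀ p ∈ P, 0 ≤ p.1)
    (hB : ∀ p ∈ P, ∀ (g : ℝ → ℝ) (T : ℝ), Marg g T →
      (∀ q ∈ ((0, 0) : ℚ × ℚ) :: P, (q.1 : ℝ) * mS g T + q.2 ≤ p.1 * mS g T + p.2) →
      (p.1 : ℝ) * mS g T + p.2 + p.1 * tailLoss (2 - 2 / (N : ℝ)) g T ≤ mEnt g T - 1 - mLog g T)
    (hA : OneDimA n (piecePsi P)) : UncLt n := fun _ hKc hKv hflip hint A p hp =>
  unconditional_of_upTo hn (fun m hm => bodyLoss_tailLoss_cov (hn.trans hN) m (hm.trans_le hN))
    (oneDimBUpTo_of_oneDimB (oneDimB_pieces hB) n) (potential_pieces hP) hA hKc hKv hflip hint A p hp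

/-- One certificate for all large dimensions. -/
theorem uncLt_of_last {n : ℕ} (hn : 2 ≤ n) {P : List (ℚ × ℚ)} (hP : ∀ p ∈ P, 0 ≤ p.1)
    (hB : ∀ p ∈ P, ∀ (g : ℝ → ℝ) (T : ℝ), Marg g T →
      (∀ q ∈ ((0, 0) : ℚ × ℚ) :: P, (q.1 : ℝ) * mS g T + q.2 ≤ p.1 * mS g T + p.2) →
      (p.1 : ℝ) * mS g T + p.2 + p.1 * tailLoss 2 g T ≤ mEnt g T - 1 - mLog g T)
    (hA : OneDimA n (piecePsi P)) : UncLt n := fun _ hKc hKv hflip hint A p hp =>
  unconditional_of_oneDim hn lossBound_tailLoss (oneDimB_pieces hB) (potential_pieces hP) hA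
    hKc hKv hflip hint A p hp

/-- The goal inequality for a potential of pieces, from the table. -/
theorem oneDimA_pieces {P : List (ℚ × ℚ)} (hP : ∀ p ∈ P, 0 ≤ p.1) {c : ℚ}
    (hT : tableOK (pieceQ P) c curvePre curveMain = true) {n : ℕ} (hc : cConst n ≤ (c : ℝ)) :
    OneDimA n (piecePsi P) :=
  oneDimA_of_table curveLink endLink (potential_pieces hP).monotone (piecePsi_nonneg P)
    (fun x => (pieceQ_cast P x).le) hT hc

/-- The pieces moved to the right by `q`, for the lifted table. -/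
def pieceShift (q : ℚ) (P : List (ℚ × ℚ)) : List (ℚ × ℚ) :=
  P.map fun p => (p.1, p.2 - p.1 * q)

theorem piecePsi_shift (q : ℚ) : ∀ (P : List (ℚ × ℚ)) (x : ℝ),
    piecePsi (pieceShift q P) x = piecePsi P (x - q)
  | [], _ => rfl
  | p :: P, x => by
    have h := piecePsi_shift q P x
    simp only [pieceShift, List.map_cons, piecePsi, Rat.cast_sub, Rat.cast_mul] at h ⊢
    rw [h]
    congr 1
    ring

theorem pieceShift_nonneg (q : ℚ) {P : List (ℚ × ℚ)} (hP : ∀ p ∈ P, 0 ≤ p.1) :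
    ∀ p ∈ pieceShift q P, 0 ≤ p.1 := fun p hp => by
  obtain ⟨r, hr, rfl⟩ := List.mem_map.1 hp
  exact hP r hr

/-- A group from a loss bound `F`, its calibrated nodes and one lifted table. -/
theorem uncLt_of_nodes {n : ℕ} (hn : 2 ≤ n) {F : (ℝ → ℝ) → ℝ → ℝ} (hF : BodyLoss n F)
    {ns : List Node} (hv : NodesValid ns F) {es : List Entry} (hok : nodesOK ns es = true)
    {u c : ℚ} (hT : tableOK (fun x => pieceQ (entryPieces es) (x - u)) c curvePre curveMain = true)
    (hu : liftU n ≤ (u : ℝ)) (hc : cConst n - liftD n + 1 / 10 ^ 6 ≤ (c : ℝ)) : UncLt n :=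
  fun _ hKc hKv hflip hint A p hp =>
  unconditional_of_upTo hn hF (oneDimBUpTo_of_oneDimB (oneDimB_nodes hv hok) n)
    (potential_pieces (entryPieces_nonneg hok))
    (oneDimA_lift_table (potential_pieces (entryPieces_nonneg hok)).monotone (piecePsi_nonneg _)
      (fun x => (pieceQ_cast _ x).le) hT hn hu hc) hKc hKv hflip hint A p hp

/-- `tailLoss (2 - 2 / N)` for every `n ≤ N`. -/
theorem bodyLoss_group {n N : ℕ} (hn : 2 ≤ n) (hN : n ≤ N) :
    BodyLoss n (tailLoss (2 - 2 / (N : ℝ))) := fun m hm =>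
  bodyLoss_tailLoss_cov (hn.trans hN) m (hm.trans_le hN)

/-- The two lift hypotheses on a range of dimensions, by evaluation. -/
theorem lift_hyps_range {lo hi : ℕ} {u c : ℚ}
    (h : ((List.range' lo (hi + 1 - lo)).all fun n =>
      liftOK n (Nat.log2 (constNum n / constDen n)) u c) = true)
    {n : ℕ} (h1 : lo ≤ n) (h2 : n ≤ hi) :
    liftU n ≤ (u : ℝ) ∧ cConst n - liftD n + 1 / 10 ^ 6 ≤ (c : ℝ) :=
  lift_hyps (List.all_eq_true.1 h n (List.mem_range'_1.2 ⟨h1, by omega⟩))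

/-- Dimensions `lo ≤ n ≤ hi` from calibrated nodes for `tailLoss (2 - 2 / hi)`. -/
theorem uncLt_of_range {lo hi : ℕ} (hlo : 2 ≤ lo) {ns : List Node}
    (hv : NodesValid ns (tailLoss (2 - 2 / (hi : ℝ)))) {es : List Entry}
    (hok : nodesOK ns es = true) {u c : ℚ}
    (hT : tableOK (fun x => pieceQ (entryPieces es) (x - u)) c curvePre curveMain = true)
    (hL : ((List.range' lo (hi + 1 - lo)).all fun n =>
      liftOK n (Nat.log2 (constNum n / constDen n)) u c) = true)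
    {n : ℕ} (h1 : lo ≤ n) (h2 : n ≤ hi) : UncLt n :=
  uncLt_of_nodes (hlo.trans h1) (bodyLoss_group (hlo.trans h1) h2) hv hok hT
    (lift_hyps_range hL h1 h2).1 (lift_hyps_range hL h1 h2).2

/-- All dimensions `n ≥ lo` from calibrated nodes for `tailLoss 2`. -/
theorem uncLt_of_tail {lo : ℕ} (hlo : 4 ≤ lo) {ns : List Node}
    (hv : NodesValid ns (tailLoss 2)) {es : List Entry} (hok : nodesOK ns es = true) {u c : ℚ}
    (hT : tableOK (fun x => pieceQ (entryPieces es) (x - u)) c curvePre curveMain = true)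
    (hu : liftUQ lo ≤ u) (hc : (30686 / 100000 : ℚ) ≤ c) {n : ℕ} (h1 : lo ≤ n) : UncLt n :=
  uncLt_of_nodes (by omega) (bodyLoss_of_lossBound lossBound_tailLoss n) hv hok hT
    (lift_hyps_tail hlo h1 hu hc).1 (lift_hyps_tail hlo h1 hu hc).2

end Vale.P254.E
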