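import Mathlib
import Vale.Agent.P254.E.CertW

/-!
The calibration theorem for the one-variable inequality: a `C¹` function `U (l, w)` with a
pointwise inequality bounds the entropy excess minus the loss minus a multiple of the variance.
-/

namespace Vale.P254.E

open MeasureTheory Set Filter Topology

/-- The range of the state `(L, w)`. -/
def certRegion : Set (ℝ × ℝ) := {p | 0 < p.1 ∧ 0 < p.2 ∧ p.2 ≤ 1}

/-- A calibration `U` for the slope `a` and the multiplier `lam`. -/
structure Calib (φ φ₁ : ℝ → ℝ) (r a lam U₀ : ℝ) (U Ul Uw : ℝ → ℝ → ℝ) : Prop where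
  kap : KapData φ φ₁
  lam_nonneg : 0 ≤ lam
  deriv : ∀ l w, 0 < l → 0 < w → w ≤ 1 → HasFDerivAt (fun p : ℝ × ℝ => U p.1 p.2)
    (Ul l w • ContinuousLinearMap.fst ℝ ℝ ℝ + Uw l w • ContinuousLinearMap.snd ℝ ℝ ℝ) (l, w)
  start : Tendsto (fun p : ℝ × ℝ => U p.1 p.2) (𝓝[certRegion] (0, 1)) (𝓝 U₀)
  growth : ∃ (C : ℝ) (k : ℕ), ∀ l w, 1 ≤ l → 0 < w → w ≤ 1 → |U l w| ≤ C * (1 + l ^ k)
  pointwise : ∀ l w q, 0 < l → 0 < w → w ≤ 1 → 1 - l / 2 ≤ w → 0 ≤ q → q ≤ 1 →
    0 ≤ (1 - w) / l - q + r * a * (l * q ^ 2 - q) - lam * kapOf φ φ₁ l * (w / l) ^ 2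
      - U l w + Ul l w + Uw l w * (w * ((1 - w) / l - q))

variable {g φ φ₁ : ℝ → ℝ} {T r a lam U₀ : ℝ} {U Ul Uw : ℝ → ℝ → ℝ}

/-- One minus the tail ratio. -/
noncomputable def tailC (g : ℝ → ℝ) (T t : ℝ) : ℝ := 1 - tailQ g T t * slopeW g t

theorem Marg.tailC_eq (g : ℝ → ℝ) (T t : ℝ) : tailC g T t = 1 - tailRatio g T t := by
  simp only [tailC, tailQ, tailRatio]; ring

theorem Marg.tailC_mem (hg : Marg g T) {t : ℝ} (ht : t ∈ Ioo 0 T) : tailC g T t ∈ Icc (0 : ℝ) 1 := by
  have := hg.tailRatio_mem ht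
  simp only [tailC, mem_Icc] at this ⊢
  constructor <;> linarith [this.1, this.2]

theorem Marg.hasDeriv_tailW (hg : Marg g T) {t : ℝ} (ht : t ∈ Ioo 0 T) :
    HasDerivWithinAt (tailW g T)
      (g t / tail g T t * (tailW g T t * ((1 - tailW g T t) / tailL g T t - tailC g T t)))
      (Ioi t) t := by
  refine (((hg.hasDeriv_tailL ht).hasDerivWithinAt.mul (hg.hasDeriv_tailQ ht)).div
    (hasDerivWithinAt_id t _) (ne_of_gt ht.1)).congr_deriv ?_
  have h1 := (hg.pos t ⟨ht.1.le, ht.2⟩).ne'
  have h2 := (hg.tail_pos ht).ne'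
  have h3 : tailL g T t ≠ 0 := (hg.logTail_pos' ht).ne'
  have h4 := ne_of_gt ht.1
  simp only [Pi.mul_apply, id_eq, tailW, tailC, tailQ]
  field_simp
  ring

theorem Marg.continuousOn_tailW (hg : Marg g T) : ContinuousOn (tailW g T) (Ioo 0 T) :=
  (hg.continuousOn_logTail.mul hg.continuousOn_tailQ).div continuousOn_id fun _ ht => ne_of_gt ht.1

theorem Marg.intervalIntegrable_tailC (hg : Marg g T) {a b : ℝ} (ha : 0 < a) (hab : a ≤ b)
    (hb : b < T) : IntervalIntegrable (tailC g T) volume a b :=
  intervalIntegrable_const.sub ((hg.intervalIntegrable_slopeW ha hab hb).continuousOn_mul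
    (by rw [uIcc_of_le hab]; exact hg.continuousOn_tailQ.mono (Marg.subset_Ioo ha hb)))

theorem Marg.intervalIntegrable_tailC_sq (hg : Marg g T) {a b : ℝ} (ha : 0 < a) (hab : a ≤ b)
    (hb : b < T) : IntervalIntegrable (fun t => tailC g T t ^ 2) volume a b := by
  have h := hg.intervalIntegrable_tailC ha hab hb
  refine (intervalIntegrable_const (c := (1 : ℝ))).mono_fun (h.def'.aestronglyMeasurable.pow 2) ?_
  rw [EventuallyLE, ae_restrict_iff' measurableSet_uIoc]
  refine Eventually.of_forall fun t ht => ?_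
  rw [uIoc_of_le hab] at ht
  have hm := hg.tailC_mem (Marg.subset_Ioo ha hb ⟨ht.1.le, ht.2⟩)
  rw [norm_pow, norm_one]
  exact pow_le_one₀ (norm_nonneg _) (by rw [Real.norm_of_nonneg hm.1]; exact hm.2)

/-- The endpoint term. -/
noncomputable def calibEnd (g : ℝ → ℝ) (T : ℝ) (U : ℝ → ℝ → ℝ) (t : ℝ) : ℝ :=
  tail g T t * U (tailL g T t) (tailW g T t)

theorem Calib.interval (hc : Calib φ φ₁ r a lam U₀ U Ul Uw) (hg : Marg g T) {α β : ℝ} (hα : 0 < α)
    (hab : α ≤ β) (hβ : β < T) :
    calibEnd g T U α - calibEnd g T U β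
      ≤ (∫ t in α..β, g t * Real.log (tailW g T t))
        + (tail g T β * Real.log (tailW g T β) - tail g T α * Real.log (tailW g T α))
        + r * a * (∫ t in α..β, g t * (tailL g T t * tailC g T t ^ 2 - tailC g T t))
        - lam * ((∫ t in α..β, g t * (Real.log t - mLog g T) ^ 2)
            + piconeEnd φ g T β - piconeEnd φ g T α) := by
  have hsub := Marg.subset_Ioo (T := T) hα hβ
  have hu : uIcc α β = Icc α β := uIcc_of_le hab
  have hgc := hg.continuousOn.mono hsub
  have hLc : ContinuousOn (tailL g T) (Icc α β) := hg.continuousOn_logTail.mono hsub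
  have hwc := hg.continuousOn_tailW.mono hsub
  have hGc : ContinuousOn (tail g T) (Icc α β) :=
    fun t ht => (hg.hasDeriv_tail (hsub ht)).continuousAt.continuousWithinAt
  have hlw : ContinuousOn (fun t => Real.log (tailW g T t)) (Icc α β) :=
    hwc.log fun t ht => (hg.tailW_pos (hsub ht)).ne'
  set A : ℝ → ℝ := fun t => g t * ((1 - tailW g T t) / tailL g T t - tailC g T t) with hA
  have hq := hg.intervalIntegrable_tailC hα hab hβ
  have hA' : IntervalIntegrable A volume α β :=
    ((((continuousOn_const.sub hwc).div hLc fun t ht => (hg.logTail_pos' (hsub ht)).ne').intervalIntegrable_of_Icc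
      hab).sub hq).continuousOn_mul (by rwa [hu])
  have hwl : IntervalIntegrable (fun t => g t * Real.log (tailW g T t)) volume α β :=
    (hgc.mul hlw).intervalIntegrable_of_Icc hab
  have e1 : ∫ t in α..β, A t = (∫ t in α..β, g t * Real.log (tailW g T t))
      + (tail g T β * Real.log (tailW g T β) - tail g T α * Real.log (tailW g T α)) := by
    have := intervalIntegral.integral_eq_sub_of_hasDeriv_right_of_le hab
      (f := fun t => tail g T t * Real.log (tailW g T t))
      (f' := fun t => A t - g t * Real.log (tailW g T t)) (hGc.mul hlw) (fun t ht => ?_)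
      (hA'.sub hwl)
    · rw [intervalIntegral.integral_sub hA' hwl] at this
      linarith
    have hm := hsub (Ioo_subset_Icc_self ht)
    refine ((hg.hasDeriv_tail hm).hasDerivWithinAt.mul
      ((hg.hasDeriv_tailW hm).log (hg.tailW_pos hm).ne')).congr_deriv ?_
    have := (hg.tail_pos hm).ne'
    have := (hg.tailW_pos hm).ne'
    simp only [hA]
    field_simp
    ring
  set B : ℝ → ℝ := fun t => g t * (tailL g T t * tailC g T t ^ 2 - tailC g T t) with hB
  have hB' : IntervalIntegrable B volume α β :=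
    (((hg.intervalIntegrable_tailC_sq hα hab hβ).continuousOn_mul (by rwa [hu])).sub
      hq).continuousOn_mul (by rwa [hu])
  have hk' : IntervalIntegrable (kapW φ φ₁ g T) volume α β :=
    ((hc.kap.continuousOn_kapW hg).mono hsub).intervalIntegrable_of_Icc hab
  have hint := (hA'.add (hB'.const_mul (r * a))).sub (hk'.const_mul lam)
  have main : calibEnd g T U α - calibEnd g T U β
      ≤ ∫ t in α..β, (A t + r * a * B t - lam * kapW φ φ₁ g T t) := by
    have hcont : ContinuousOn (fun t => -calibEnd g T U t) (Icc α β) := by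
      refine (hGc.mul fun t ht => ?_).neg
      exact ((hc.deriv _ _ (hg.logTail_pos' (hsub ht)) (hg.tailW_pos (hsub ht))
        (hg.tailW_le_one (hsub ht))).continuousAt).comp_continuousWithinAt
          (f := fun t => (tailL g T t, tailW g T t)) ((hLc t ht).prodMk (hwc t ht))
    refine le_trans (le_of_eq ?_) (intervalIntegral.sub_le_integral_of_hasDeriv_right_of_le hab
      hcont (g' := fun t => g t * (U (tailL g T t) (tailW g T t) - Ul (tailL g T t) (tailW g T t)
        - Uw (tailL g T t) (tailW g T t) * (tailW g T t * ((1 - tailW g T t) / tailL g T t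
          - tailC g T t)))) (fun t ht => ?_)
      ((intervalIntegrable_iff_integrableOn_Icc_of_le hab).1 hint) fun t ht => ?_)
    · ring
    · have hm := hsub (Ioo_subset_Icc_self ht)
      have hU := (hc.deriv (tailL g T t) (tailW g T t) (hg.logTail_pos' hm) (hg.tailW_pos hm)
        (hg.tailW_le_one hm)).comp_hasDerivWithinAt t
          ((hg.hasDeriv_tailL hm).hasDerivWithinAt.prodMk (hg.hasDeriv_tailW hm))
      refine ((hg.hasDeriv_tail hm).hasDerivWithinAt.mul hU).neg.congr_deriv ?_
      have := (hg.tail_pos hm).ne'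
      simp
      field_simp
      ring
    · have hm := hsub (Ioo_subset_Icc_self ht)
      have hw := hg.tailW_ge hm
      have hC := hg.tailC_mem hm
      have hp := mul_nonneg (hg.nonneg t) (hc.pointwise _ _ _ (hg.logTail_pos' hm) (hg.tailW_pos hm)
        (hg.tailW_le_one hm) hw.2 hC.1 hC.2)
      have e2 : kapW φ φ₁ g T t
          = g t * (kapOf φ φ₁ (tailL g T t) * (tailW g T t / tailL g T t) ^ 2) := by
        have hL : tailL g T t ≠ 0 := (hg.logTail_pos' hm).ne'
        rw [tailW, show tailL g T t * tailQ g T t / t / tailL g T t = tailQ g T t / t by field_simp]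
        rfl
      simp only [tailL] at e2 hp ⊢
      simp only [hA, hB, e2, tailL]
      linarith
  rw [intervalIntegral.integral_sub (hA'.add (hB'.const_mul _)) (hk'.const_mul _),
    intervalIntegral.integral_add hA' (hB'.const_mul _), intervalIntegral.integral_const_mul,
    intervalIntegral.integral_const_mul, e1] at main
  have := mul_le_mul_of_nonneg_left (hc.kap.picone_interval hg hα hab hβ) hc.lam_nonneg
  linarith

theorem Marg.integral_log_tailW (hg : Marg g T) {α β : ℝ} (hα : 0 < α) (hab : α ≤ β) (hβ : β < T) :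
    ∫ t in α..β, g t * Real.log (tailW g T t)
      = (∫ t in α..β, g t * Real.log (tailL g T t)) - (∫ t in α..β, g t * tailL g T t)
        - (∫ t in α..β, g t * Real.log (g t)) - ∫ t in α..β, g t * Real.log t := by
  have hsub := Marg.subset_Ioo (T := T) hα hβ
  have hgc := hg.continuousOn.mono hsub
  have hLc : ContinuousOn (tailL g T) (Icc α β) := hg.continuousOn_logTail.mono hsub
  have i1 : IntervalIntegrable (fun t => g t * Real.log (tailL g T t)) volume α β :=
    (hgc.mul (hLc.log fun t ht => (hg.logTail_pos' (hsub ht)).ne')).intervalIntegrable_of_Icc hab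
  have i2 : IntervalIntegrable (fun t => g t * tailL g T t) volume α β :=
    (hgc.mul hLc).intervalIntegrable_of_Icc hab
  have i3 : IntervalIntegrable (fun t => g t * Real.log (g t)) volume α β :=
    (hgc.mul (hgc.log fun t ht => (hg.pos t ⟨(hsub ht).1.le, (hsub ht).2⟩).ne')).intervalIntegrable_of_Icc hab
  have i4 : IntervalIntegrable (fun t => g t * Real.log t) volume α β :=
    (hgc.mul (Real.continuousOn_log.mono fun t ht => ne_of_gt (hsub ht).1)).intervalIntegrable_of_Icc hab
  rw [← intervalIntegral.integral_sub i1 i2, ← intervalIntegral.integral_sub (i1.sub i2) i3,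
    ← intervalIntegral.integral_sub ((i1.sub i2).sub i3) i4]
  refine intervalIntegral.integral_congr fun t ht => ?_
  rw [uIcc_of_le hab] at ht
  have hm := hsub ht
  have hL : tailL g T t ≠ 0 := (hg.logTail_pos' hm).ne'
  rw [tailW, Real.log_div (mul_ne_zero hL (hg.tailQ_pos hm).ne') (ne_of_gt hm.1),
    Real.log_mul hL (hg.tailQ_pos hm).ne', tailQ,
    Real.log_div (hg.tail_pos hm).ne' (hg.pos t ⟨hm.1.le, hm.2⟩).ne']
  simp only [tailL]
  ring

theorem Marg.tailLoss_eq (hg : Marg g T) (r : ℝ) :
    IntegrableOn (fun t => g t * (tailL g T t * tailC g T t ^ 2 - tailC g T t)) (Ioc 0 T) ∧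
      tailLoss r g T = -(r * ∫ t in Ioc 0 T, g t * (tailL g T t * tailC g T t ^ 2 - tailC g T t)) := by
  have hres : volume.restrict (Ioc (0 : ℝ) T) = volume.restrict (Ioo 0 T) :=
    Measure.restrict_congr_set Ioo_ae_eq_Ioc.symm
  have mσ : AEMeasurable (slopeW g) (volume.restrict (Ioc 0 T)) := by
    rw [hres]; exact aemeasurable_restrict_of_monotoneOn measurableSet_Ioo hg.slopeW_mono
  have mq : AEMeasurable (tailQ g T) (volume.restrict (Ioc 0 T)) := by
    rw [hres]; exact hg.continuousOn_tailQ.aemeasurable measurableSet_Ioo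
  have mL : AEMeasurable (tailL g T) (volume.restrict (Ioc 0 T)) := by
    rw [hres]; exact hg.continuousOn_logTail.aemeasurable measurableSet_Ioo
  have mC : AEMeasurable (tailC g T) (volume.restrict (Ioc 0 T)) :=
    aemeasurable_const.sub (mq.mul mσ)
  have hmem : ∀ᵐ t ∂volume.restrict (Ioc (0 : ℝ) T), t ∈ Ioo 0 T := by
    rw [hres]; exact ae_restrict_mem measurableSet_Ioo
  have hi : IntegrableOn (fun t => g t * (tailL g T t * tailC g T t ^ 2 - tailC g T t)) (Ioc 0 T) := by
    refine (hg.integrableOn_logTail.add hg.integrableOn).mono'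
      (hg.meas.aemeasurable.mul ((mL.mul (mC.pow_const 2)).sub mC)).aestronglyMeasurable ?_
    filter_upwards [hmem] with t ht
    have hC := hg.tailC_mem ht
    have hL : 0 ≤ tailL g T t := (hg.logTail_pos' ht).le
    simp only [Pi.add_apply]
    rw [norm_mul, Real.norm_of_nonneg (hg.nonneg t),
      show g t * tailL g T t + g t = g t * (tailL g T t + 1) by ring]
    refine mul_le_mul_of_nonneg_left ?_ (hg.nonneg t)
    have h2 : tailC g T t ^ 2 ≤ 1 := pow_le_one₀ hC.1 hC.2
    rw [Real.norm_eq_abs, abs_le]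
    constructor <;>
      nlinarith [mul_le_mul_of_nonneg_left h2 hL, mul_nonneg hL (sq_nonneg (tailC g T t)), hC.1, hC.2]
  refine ⟨hi, ?_⟩
  have e : (fun t => g t * (tailRatio g T t * (2 - tailRatio g T t) * -Real.log (tail g T t)
      - tailRatio g T t)) = fun t => g t * tailL g T t - g t
        - g t * (tailL g T t * tailC g T t ^ 2 - tailC g T t) := by
    funext t
    rw [Marg.tailC_eq]
    simp only [tailL]
    ring
  have i1 : IntegrableOn (fun t => g t * tailL g T t - g t) (Ioc 0 T) :=
    hg.integrableOn_logTail.sub hg.integrableOn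
  rw [tailLoss, e, integral_sub i1 hi, integral_sub hg.integrableOn_logTail hg.integrableOn,
    hg.integral_logTail, hg.mass]
  ring

/-- **Calibration.** -/
theorem cert_lower (hc : Calib φ φ₁ r a lam U₀ U Ul Uw) (hg : Marg g T) :
    lam + Real.eulerMascheroniConstant + U₀
      ≤ mEnt g T - 1 - mLog g T - a * tailLoss r g T - lam * mS g T := by
  have hT := hg.top_pos
  set α : ℕ → ℝ := fun k => T / ((k : ℝ) + 3) with hαdef
  have hα0 : ∀ k, 0 < α k := fun k => div_pos hT (by positivity)
  have hα2 : ∀ k, α k < T / 2 := fun k => div_lt_div_of_pos_left hT two_pos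
    (by linarith [(Nat.cast_nonneg k : (0 : ℝ) ≤ k)])
  have hα : Tendsto α atTop (𝓝 0) :=
    tendsto_const_nhds.div_atTop (tendsto_natCast_atTop_atTop.atTop_add tendsto_const_nhds)
  set β : ℕ → ℝ := fun k => T - α k with hβdef
  have hβ : Tendsto β atTop (𝓝 T) := by simpa using hα.const_sub T
  have hαm : ∀ k, α k ∈ Ioo 0 T := fun k => ⟨hα0 k, by linarith [hα2 k]⟩
  have hβm : ∀ k, β k ∈ Ioo 0 T := fun k => ⟨by linarith [hα2 k], by linarith [hα0 k]⟩
  have hab : ∀ k, α k ≤ β k := fun k => by linarith [hα2 k]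
  have lim : ∀ {f : ℝ → ℝ}, IntegrableOn f (Ioc 0 T) →
      Tendsto (fun k => ∫ t in (α k)..(β k), f t) atTop (𝓝 (∫ t in Ioc 0 T, f t)) :=
    fun hf => tendsto_interval hT.le hf hα hβ (fun k => Ioo_subset_Icc_self (hαm k))
      fun k => Ioo_subset_Icc_self (hβm k)
  have hGa := hg.tendsto_tail_bot hα hαm
  have hGb := hg.tendsto_tail_top hβ hβm
  have hLa := hg.tendsto_tailL_bot hα hαm
  have hLb := hg.tendsto_tailL_top hβ hβm
  have hwa : Tendsto (fun k => tailW g T (α k)) atTop (𝓝 1) :=
    tendsto_of_tendsto_of_tendsto_of_le_of_le (by simpa using (hLa.div_const 2).const_sub 1)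
      tendsto_const_nhds (fun k => (hg.tailW_ge (hαm k)).2) fun k => hg.tailW_le_one (hαm k)
  have hpow : ∀ j : ℕ, Tendsto (fun k => tail g T (β k) * tailL g T (β k) ^ j) atTop (𝓝 0) :=
    fun j => by
      refine ((Real.tendsto_pow_mul_exp_neg_atTop_nhds_zero j).comp hLb).congr fun k => ?_
      simp only [Function.comp_def, tailL, neg_neg, Real.exp_log (hg.tail_pos (hβm k))]
      ring
  have hlogA : Tendsto (fun k => tail g T (α k) * Real.log (tailW g T (α k))) atTop (𝓝 0) := by
    simpa using hGa.mul (hwa.log one_ne_zero)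
  have hlogB : Tendsto (fun k => tail g T (β k) * Real.log (tailW g T (β k))) atTop (𝓝 0) := by
    have h0 : Tendsto (fun k => tail g T (β k) * tailL g T (β k) ^ 1) atTop (𝓝 0) := hpow 1
    refine squeeze_zero_norm' (a := fun k => tail g T (β k) * tailL g T (β k) ^ 1) ?_ h0
    filter_upwards [hLb.eventually (eventually_ge_atTop 1)] with k hk
    have hG := hg.tail_pos (hβm k)
    have hw := hg.tailW_pos (hβm k)
    have hw1 := hg.tailW_le_one (hβm k)
    have h1 : tail g T (β k) ≤ tailW g T (β k) := by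
      have hG1 : tail g T (β k) < 1 := by
        have h := hg.mul_le_one_sub_tail (hβm k)
        have : 0 < β k * g (β k) := mul_pos (hβm k).1 (hg.pos _ ⟨(hβm k).1.le, (hβm k).2⟩)
        linarith
      refine le_trans ?_ (hg.tailW_ge (hβm k)).1
      rw [le_div_iff₀ (by linarith)]
      exact mul_le_mul_of_nonneg_left (by linarith) hG.le
    rw [pow_one, norm_mul, Real.norm_of_nonneg hG.le, Real.norm_of_nonpos (Real.log_nonpos hw.le hw1)]
    refine mul_le_mul_of_nonneg_left ?_ hG.le
    simp only [tailL]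
    linarith [Real.log_le_log hG h1]
  have hUA : Tendsto (fun k => calibEnd g T U (α k)) atTop (𝓝 U₀) := by
    have := hc.start.comp (tendsto_nhdsWithin_iff.2 ⟨hLa.prodMk_nhds hwa, Eventually.of_forall
      fun k => ⟨hg.logTail_pos' (hαm k), hg.tailW_pos (hαm k), hg.tailW_le_one (hαm k)⟩⟩)
    simpa [calibEnd, Function.comp_def] using hGa.mul this
  have hUB : Tendsto (fun k => calibEnd g T U (β k)) atTop (𝓝 0) := by
    obtain ⟨C, j, hC⟩ := hc.growth
    refine squeeze_zero_norm' (a := fun k => C * (tail g T (β k) + tail g T (β k)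
      * tailL g T (β k) ^ j)) ?_ (by simpa using (hGb.add (hpow j)).const_mul C)
    filter_upwards [hLb.eventually (eventually_ge_atTop 1)] with k hk
    have hG := hg.tail_pos (hβm k)
    rw [calibEnd, norm_mul, Real.norm_of_nonneg hG.le, Real.norm_eq_abs,
      show C * (tail g T (β k) + tail g T (β k) * tailL g T (β k) ^ j)
        = tail g T (β k) * (C * (1 + tailL g T (β k) ^ j)) by ring]
    exact mul_le_mul_of_nonneg_left
      (hC _ _ hk (hg.tailW_pos (hβm k)) (hg.tailW_le_one (hβm k))) hG.le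
  obtain ⟨hB, hloss⟩ := hg.tailLoss_eq r
  have hend := hc.kap.tendsto_end hg hα hβ (fun k => ⟨hα0 k, hα2 k⟩)
    (fun k => ⟨by linarith [hα2 k], (hβm k).2⟩)
  have hW : Tendsto (fun k => ∫ t in (α k)..(β k), g t * Real.log (tailW g T t)) atTop
      (𝓝 (-Real.eulerMascheroniConstant - 1 - (∫ t in Ioc 0 T, g t * Real.log (g t))
        - ∫ t in Ioc 0 T, g t * Real.log t)) :=
    ((((hg.tendsto_integral_log_tailL hα hβ hαm hβm hab).sub
      (hg.tendsto_integral_logTail hα hβ hαm hβm hab)).sub (lim hg.integrableOn_mul_log_self)).sub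
      (lim hg.integrableOn_log)).congr fun k =>
        (hg.integral_log_tailW (hα0 k) (hab k) (hβm k).2).symm
  have main := le_of_tendsto_of_tendsto' (hUA.sub hUB)
    (((hW.add (hlogB.sub hlogA)).add ((lim hB).const_mul (r * a))).sub
      (((lim hg.integrableOn_dev_sq).add hend).const_mul lam)) fun k => by
      have := hc.interval hg (hα0 k) (hab k) (hβm k).2
      simp only [add_sub_assoc] at this ⊢
      linarith
  rw [← hg.mS_add_one] at main
  rw [hloss]
  simp only [mEnt, mLog] at main ⊢
  linarith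

end Vale.P254.E
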