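import Vale.Agent.P254.E.Pieces
import Vale.Agent.P254.E.Lift
import Vale.Agent.P254.E.Grid.All

/-! `OneDimA` for potentials of affine pieces from the fine grid. -/

namespace Vale.P254.E

open MeasureTheory Set

/-- The gap from one grid check of a potential of pieces. -/
theorem gap_pieces {P : List (ℚ × ℚ)} (hP : ∀ p ∈ P, 0 ≤ p.1) {c : ℚ}
    (hT : gridOK (pieceQ P) c gridTop gridPts gridBot gridEnd = true) :
    GapOK (piecePsi P) (c : ℝ) :=
  gap_of_grid gridData (potential_pieces hP).monotone (piecePsi_nonneg P)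
    (fun x => (pieceQ_cast P x).le) hT

/-- `Q` has, for each piece of `P`, the piece moved left by `u` and down by `-δ`, or a higher one. -/
def shiftOK (P Q : List (ℚ × ℚ)) (u δ : ℚ) : Bool :=
  decide (δ ≤ 0) && P.all fun p => Q.any fun q => decide (q.1 = p.1 ∧ p.2 + p.1 * u + δ ≤ q.2)

theorem shift_le {P Q : List (ℚ × ℚ)} {u δ : ℚ} (h : shiftOK P Q u δ = true) (x : ℝ) :
    piecePsi P (x + u) + δ ≤ piecePsi Q x := by
  simp only [shiftOK, Bool.and_eq_true, decide_eq_true_eq, List.all_eq_true, List.any_eq_true] at h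
  rcases piecePsi_attained P (x + u) with ⟨h1, -⟩ | ⟨p, hp, h1, -⟩
  · have : (δ : ℝ) ≤ 0 := by exact_mod_cast h.1
    rw [h1]; linarith [piecePsi_nonneg Q x]
  · obtain ⟨q, hq, e1, e2⟩ := h.2 p hp
    have e2' : (p.2 : ℝ) + p.1 * u + δ ≤ q.2 := by exact_mod_cast e2
    have := le_piecePsi hq x
    rw [e1] at this
    rw [h1]; linarith

/-- Dimension `n` from the grid check of a common potential `P`; `Q` is the potential of the group. -/
theorem oneDimA_common {P Q : List (ℚ × ℚ)} (hP : ∀ p ∈ P, 0 ≤ p.1) (hQ : ∀ q ∈ Q, 0 ≤ q.1)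
    {c : ℚ} (hT : gridOK (pieceQ P) c gridTop gridPts gridBot gridEnd = true) {u δ : ℚ}
    (hs : shiftOK P Q u δ = true) {n : ℕ} (hn : 2 ≤ n) (hu : liftU n ≤ (u : ℝ))
    (hc : cConst n - liftD n + 1 / 10 ^ 6 ≤ ((c + δ : ℚ) : ℝ)) : OneDimA n (piecePsi Q) :=
  oneDimA_lift_shift (gap_pieces hP hT) hn hu (shift_le hs) (potential_pieces hQ).monotone
    (by push_cast at hc; exact hc)

/-- Dimension `n` from a grid check of its own potential. -/
theorem oneDimA_grid {Q : List (ℚ × ℚ)} (hQ : ∀ q ∈ Q, 0 ≤ q.1) {u c : ℚ}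
    (hT : gridOK (fun x => pieceQ Q (x - u)) c gridTop gridPts gridBot gridEnd = true) {n : ℕ}
    (hn : 2 ≤ n) (hu : liftU n ≤ (u : ℝ)) (hc : cConst n - liftD n + 1 / 10 ^ 6 ≤ (c : ℝ)) :
    OneDimA n (piecePsi Q) := by
  have hm := (potential_pieces hQ).monotone
  refine oneDimA_lift_shift (φ := fun x => piecePsi Q (x - (u : ℝ))) (δ := 0)
    (gap_of_grid gridData (fun x y h => hm (by linarith)) (fun x => piecePsi_nonneg _ _)
      (fun x => ?_) hT) hn hu (fun x => by simp) hm (by simpa using hc)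
  have := (pieceQ_cast Q (x - u)).le
  push_cast at this
  exact this

/-- Drops leading pieces until one exceeds `t` at `s`. -/
def seek (t s : ℚ) : List (ℚ × ℚ) → List (ℚ × ℚ)
  | [] => []
  | p :: P => if t < p.1 * s + p.2 then p :: P else seek t s P

/-- `coverPts` for pieces sorted by slope, in time linear in points plus pieces. -/
def coverFast (c : ℚ) : List (ℚ × ℚ) → Pt → List Pt → Bool
  | _, _, [] => true
  | P, p, q :: l =>
    if c + q.r < 0 then coverFast c P q l
    else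
      match seek (c + q.r) p.s P with
      | [] => false
      | e :: R => coverFast c (e :: R) q l

theorem seek_spec {t s : ℚ} : ∀ {P : List (ℚ × ℚ)} {e : ℚ × ℚ} {R : List (ℚ × ℚ)},
    seek t s P = e :: R → t < e.1 * s + e.2 ∧ ∀ x ∈ e :: R, x ∈ P
  | [], _, _, h => by simp [seek] at h
  | p :: P, e, R, h => by
      simp only [seek] at h
      split_ifs at h with g
      · obtain ⟨rfl, rfl⟩ := List.cons_eq_cons.1 h
        exact ⟨g, fun x hx => hx⟩
      · obtain ⟨h1, h2⟩ := seek_spec h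
        exact ⟨h1, fun x hx => List.mem_cons_of_mem _ (h2 x hx)⟩

theorem le_pieceQ : ∀ {P : List (ℚ × ℚ)} {p : ℚ × ℚ}, p ∈ P → ∀ x : ℚ, p.1 * x + p.2 ≤ pieceQ P x
  | q :: P, p, hp, x => by
    rcases List.mem_cons.1 hp with rfl | h
    · exact le_max_left _ _
    · exact le_max_of_le_right (le_pieceQ h x)

theorem pieceQ_nonneg : ∀ (P : List (ℚ × ℚ)) (x : ℚ), 0 ≤ pieceQ P x
  | [], _ => le_rfl
  | _ :: P, x => le_max_of_le_right (pieceQ_nonneg P x)

theorem coverPts_of_fast {c : ℚ} {P₀ : List (ℚ × ℚ)} : ∀ (l : List Pt) {P : List (ℚ × ℚ)} {p : Pt},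
    (∀ x ∈ P, x ∈ P₀) → coverFast c P p l = true → coverPts (pieceQ P₀) c p l = true
  | [], _, _, _, _ => rfl
  | q :: l, P, p, hP, h => by
      simp only [coverFast] at h
      simp only [coverPts, Bool.and_eq_true, decide_eq_true_eq]
      split_ifs at h with g
      · exact ⟨g.trans_le (pieceQ_nonneg _ _), coverPts_of_fast l hP h⟩
      · revert h
        rcases hR : seek (c + q.r) p.s P with _ | ⟨e, R⟩
        · simp
        · intro h
          obtain ⟨h1, h2⟩ := seek_spec hR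
          exact ⟨h1.trans_le (le_pieceQ (hP e (h2 e List.mem_cons_self)) _),
            coverPts_of_fast l (fun x hx => hP x (h2 x hx)) h⟩

/-- The fast form of `gridOK (pieceQ P) c` on the grid. -/
def gridFast (P : List (ℚ × ℚ)) (c : ℚ) : Bool :=
  decide (c + gridTop.r < 0) && coverFast c P gridTop gridPts &&
    decide ((lastPt gridTop gridPts).a = gridBot.a) &&
    decide (c + gridEnd < pieceQ P gridBot.s) && decide (c < 54 / 100)

theorem gridOK_of_fast {P : List (ℚ × ℚ)} {c : ℚ} (h : gridFast P c = true) :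
    gridOK (pieceQ P) c gridTop gridPts gridBot gridEnd = true := by
  simp only [gridFast, gridOK, Bool.and_eq_true] at h ⊢
  exact ⟨⟨⟨⟨h.1.1.1.1, coverPts_of_fast _ (fun x hx => hx) h.1.1.1.2⟩, h.1.1.2⟩, h.1.2⟩, h.2⟩

theorem pieceQ_map_shift (u : ℚ) : ∀ (Q : List (ℚ × ℚ)) (x : ℚ),
    pieceQ (Q.map fun p => (p.1, p.2 - p.1 * u)) x = pieceQ Q (x - u)
  | [], _ => rfl
  | p :: Q, x => by
    simp only [List.map_cons, pieceQ, pieceQ_map_shift u Q x]
    congr 1
    ring

/-- Dimension `n` from a fast grid check of its own potential, pieces sorted by slope. -/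
theorem oneDimA_fast {Q : List (ℚ × ℚ)} (hQ : ∀ q ∈ Q, 0 ≤ q.1) {u c : ℚ}
    (hT : gridFast (Q.map fun p => (p.1, p.2 - p.1 * u)) c = true) {n : ℕ}
    (hn : 2 ≤ n) (hu : liftU n ≤ (u : ℝ)) (hc : cConst n - liftD n + 1 / 10 ^ 6 ≤ (c : ℝ)) :
    OneDimA n (piecePsi Q) := by
  have h := gridOK_of_fast hT
  rw [funext (pieceQ_map_shift u Q)] at h
  exact oneDimA_grid hQ h hn hu hc

end Vale.P254.E
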