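import Mathlib

/-! A rational lower bound for the Euler–Mascheroni constant, by the trapezoidal correction. -/

namespace Vale.P254.E

open Filter Topology

theorem log_le_half_sub_inv {t : ℝ} (ht : 1 ≤ t) : Real.log t ≤ (t - t⁻¹) / 2 := by
  rw [← Real.sinh_log (by linarith)]
  exact Real.self_le_sinh_iff.2 (Real.log_nonneg ht)

/-- The corrected sequence `H_n - log n - 1 / (2 n)`. -/
noncomputable def eulerLow (n : ℕ) : ℝ := harmonic n - Real.log n - 1 / (2 * n)

theorem eulerLow_mono {n : ℕ} (hn : 0 < n) : eulerLow n ≤ eulerLow (n + 1) := by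
  have hn' : (0 : ℝ) < n := Nat.cast_pos.2 hn
  have h := log_le_half_sub_inv (t := ((n : ℝ) + 1) / n) (by rw [le_div_iff₀ hn']; linarith)
  rw [Real.log_div (by linarith) hn'.ne'] at h
  have e : (((n : ℝ) + 1) / n - (((n : ℝ) + 1) / n)⁻¹) / 2
      = 1 / (2 * n) + 1 / (2 * ((n : ℝ) + 1)) := by field_simp; ring
  rw [e] at h
  simp only [eulerLow, harmonic_succ]
  push_cast
  have e2 : ((n : ℝ) + 1)⁻¹ = 2 * (1 / (2 * ((n : ℝ) + 1))) := by field_simp
  rw [e2]; linarith

theorem eulerLow_le {n : ℕ} (hn : 0 < n) : eulerLow n ≤ Real.eulerMascheroniConstant := by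
  refine le_of_tendsto_of_tendsto' tendsto_const_nhds
    (Real.tendsto_harmonic_sub_log.comp (tendsto_add_atTop_nat n)) fun k => ?_
  have h : eulerLow n ≤ eulerLow (k + n) := by
    induction k with
    | zero => simp
    | succ k ih => rw [Nat.succ_add]; exact ih.trans (eulerLow_mono (by omega))
  refine h.trans ?_
  simp only [eulerLow, Function.comp_apply]
  have : (0 : ℝ) ≤ 1 / (2 * ((k + n : ℕ) : ℝ)) := by positivity
  linarith

/-- `γ > 0.5771`. -/
theorem euler_gt : (0.5771 : ℝ) < Real.eulerMascheroniConstant := by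
  refine lt_of_lt_of_le ?_ (eulerLow_le (n := 32) (by norm_num))
  have hl : Real.log (32 : ℕ) = 5 * Real.log 2 := by
    rw [show ((32 : ℕ) : ℝ) = (2 : ℝ) ^ 5 by norm_num, Real.log_pow]; norm_num
  have hh : (4.0584 : ℝ) < (harmonic 32 : ℝ) := by
    have : (4.0584 : ℚ) < harmonic 32 := by
      norm_num [harmonic, Finset.sum_range_succ]
    have := (Rat.cast_lt (K := ℝ)).2 this
    norm_num at this ⊢
  have := Real.log_two_lt_d9
  simp only [eulerLow, hl]
  norm_num at *
  linarith

end Vale.P254.E
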