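import Mathlib
import Vale.Agent.P254.E.PieceNodes
import Vale.Agent.P254.E.EulerBound
import Vale.Agent.P254.E.Pos.Data

/-!
A checked calibration gives the bound needed for one affine piece of the potential.
-/

namespace Vale.P254.E

open MeasureTheory Set Pos

namespace CertData

variable (d : CertData)

/-- `U (0, 1)`. -/
def U0Q : ℚ :=
  ((d.N₀.headD 0 : ℤ) + d.N₁.headD 0 + d.N₂.headD 0 + d.N₃.headD 0 : ℚ) / (d.M.headD 0 : ℤ)

theorem ev_zero : ∀ p : Poly, ev p 0 = ((p.headD 0 : ℤ) : ℝ)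
  | [] => by simp
  | c :: t => by simp

/-- The affine lower bound for the gap of a checked calibration. -/
theorem lower (hs : d.okSign = true) (h₁ : d.NearOK) (h₂ : d.FarOK)
    (h₃ : d.okKap = true)
    {r a lam m : ℚ} (hra : r * a * d.rd = d.rn) (hlam : lam * d.ld = d.ln)
    (hm : m ≤ lam + 5771 / 10000 + d.U0Q) {g : ℝ → ℝ} {T : ℝ} (hg : Marg g T) :
    (m : ℝ) + lam * mS g T + a * tailLoss (r : ℝ) g T ≤ mEnt g T - 1 - mLog g T := by
  have hM : (0 : ℝ) < ev d.M 0 := by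
    have hs' := hs
    simp only [okSign, Bool.and_eq_true] at hs'
    exact lt_of_lt_of_le one_pos (one_le_ev hs'.1.1.1.1.1.2 le_rfl)
  have hU : (d.U0Q : ℝ) * ev d.M 0 = d.num 0 1 := by
    have hM' : ((d.M.headD 0 : ℤ) : ℝ) ≠ 0 := by rw [← ev_zero]; exact hM.ne'
    simp only [num, ev_zero, U0Q, mul_one, one_pow]
    push_cast
    field_simp
  have hc := cert_lower (d.calib hs h₁ h₂ h₃ (r := (r : ℝ)) (a := (a : ℝ)) (lam := (lam : ℝ))
    (by exact_mod_cast hra) (by exact_mod_cast hlam) hU) hg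
  have h1 : (m : ℝ) ≤ lam + 5771 / 10000 + d.U0Q := by
    have := (Rat.cast_le (K := ℝ)).2 hm
    push_cast at this
    exact this
  linarith [euler_gt]

/-- The bound for the piece `p`, to the right of where it overtakes the flatter piece `q`. -/
theorem piece (hs : d.okSign = true) (h₁ : d.NearOK) (h₂ : d.FarOK)
    (h₃ : d.okKap = true)
    {p q : ℚ × ℚ} {r lam m : ℚ} (hra : r * p.1 * d.rd = d.rn) (hlam : lam * d.ld = d.ln)
    (hm : m ≤ lam + 5771 / 10000 + d.U0Q) (hq : q.1 < p.1) (hal : p.1 ≤ lam)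
    (hL : p.1 * ((q.2 - p.2) / (p.1 - q.1)) + p.2 ≤ m + lam * ((q.2 - p.2) / (p.1 - q.1)))
    {g : ℝ → ℝ} {T : ℝ} (hg : Marg g T)
    (hact : (q.1 : ℝ) * mS g T + q.2 ≤ p.1 * mS g T + p.2) :
    (p.1 : ℝ) * mS g T + p.2 + p.1 * tailLoss (r : ℝ) g T ≤ mEnt g T - 1 - mLog g T :=
  piece_of_bound hq hal hL hact (d.lower hs h₁ h₂ h₃ hra hlam hm hg)

/-- The product `r a` of a calibration. -/
def R : ℚ := (d.rn : ℚ) / d.rd

/-- The slope in `mS`. -/
def lamQ : ℚ := (d.ln : ℚ) / d.ld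

/-- The constant. -/
def mQ : ℚ := d.lamQ + 5771 / 10000 + d.U0Q

/-- The node of a calibration for `tailLoss r`. -/
def node (r : ℚ) : Node := ⟨d.R / r, d.lamQ, d.mQ⟩

/-- What a checked calibration proves, independently of the dimension. -/
def Valid : Prop := ∀ (g : ℝ → ℝ) (T : ℝ), Marg g T →
  (d.mQ : ℝ) + d.lamQ * mS g T + d.R * tailLoss 1 g T ≤ mEnt g T - 1 - mLog g T

/-- The checks give validity. -/
theorem valid (hs : d.okSign = true) (h₁ : d.NearOK) (h₂ : d.FarOK)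
    (h₃ : d.okKap = true) :
    d.Valid := by
  intro g T hg
  have hs' := hs
  simp only [okSign, Bool.and_eq_true, decide_eq_true_eq] at hs'
  have hrd : (0 : ℚ) < d.rd := by exact_mod_cast hs'.1.1.1.1.2
  have hld : (0 : ℚ) < d.ld := by exact_mod_cast hs'.1.1.1.2
  have := d.lower hs h₁ h₂ h₃ (r := 1) (a := d.R) (lam := d.lamQ) (m := d.mQ)
    (by rw [R, one_mul, div_mul_cancel₀ _ hrd.ne']) (by rw [lamQ, div_mul_cancel₀ _ hld.ne'])
    le_rfl hg
  simpa using this

/-- `tailLoss` is linear in its parameter. -/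
theorem tailLoss_eq_mul (r : ℝ) (g : ℝ → ℝ) (T : ℝ) : tailLoss r g T = r * tailLoss 1 g T := by
  simp [tailLoss]

/-- The nodes of valid calibrations, for any loss parameter. -/
theorem nodesValid {ds : List CertData} (h : ∀ d ∈ ds, d.Valid) {r : ℚ} (hr : r ≠ 0) {r' : ℝ}
    (e : (r : ℝ) = r') : NodesValid (ds.map (node · r)) (tailLoss r') := by
  intro nd hnd g T hg
  obtain ⟨d, hd, rfl⟩ := List.mem_map.1 hnd
  refine le_trans (le_of_eq ?_) (h d hd g T hg)
  have hr' : (r : ℝ) ≠ 0 := by exact_mod_cast hr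
  simp only [node, Rat.cast_div]
  rw [tailLoss_eq_mul r', ← e]
  field_simp

end CertData

end Vale.P254.E
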