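import Mathlib
import Vale.Agent.P254.E.Assemble
import Vale.Agent.P254.E.PosPiece
import Vale.Agent.P254.E.GridGroup

/-!
Groups of dimensions from a shared list of checked calibrations and one grid check per group.
-/

namespace Vale.P254.E

open MeasureTheory Set

/-- The nodes of the calibrations for the parameter `r`, and the zero node last. -/
def certNodes (r : ℚ) (ds : List CertData) : List Node :=
  ds.map (CertData.node · r) ++ [⟨0, 0, 0⟩]

theorem nodesValid_certNodes {ds : List CertData} (hv : ∀ d ∈ ds, d.Valid) {r : ℚ} (hr : r ≠ 0)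
    {r' : ℝ} (e : (r : ℝ) = r') : NodesValid (certNodes r ds) (tailLoss r') := by
  intro nd hnd g T hg
  rcases List.mem_append.1 hnd with h | h
  · exact CertData.nodesValid hv hr e nd h g T hg
  · rw [List.mem_singleton.1 h]; simpa using hg.gap_nonneg

/-- A group from calibrations and one grid check. -/
theorem uncLt_of_cert {n : ℕ} (hn : 2 ≤ n) {r : ℚ} (hr : r ≠ 0) {r' : ℝ} (e : (r : ℝ) = r')
    (hF : BodyLoss n (tailLoss r')) {ds : List CertData} (hv : ∀ d ∈ ds, d.Valid)
    {es : List Entry} (hes : nodesOK (certNodes r ds) es = true) {u c : ℚ}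
    (hT : gridFast ((entryPieces es).map fun p => (p.1, p.2 - p.1 * u)) c = true)
    (hu : liftU n ≤ (u : ℝ)) (hc : cConst n - liftD n + 1 / 10 ^ 6 ≤ (c : ℝ)) : UncLt n :=
  fun _ hKc hKv hflip hint A p hp =>
  unconditional_of_upTo hn hF
    (oneDimBUpTo_of_oneDimB (oneDimB_nodes (nodesValid_certNodes hv hr e) hes) n)
    (potential_pieces (entryPieces_nonneg hes))
    (oneDimA_fast (entryPieces_nonneg hes) hT hn hu hc) hKc hKv hflip hint A p hp

/-- Dimensions `lo ≤ n ≤ hi`, with `r = 2 - 2 / hi`. -/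
theorem uncLt_cert_range {lo hi : ℕ} (hlo : 2 ≤ lo) {ds : List CertData}
    (hv : ∀ d ∈ ds, d.Valid) {es : List Entry}
    (hes : nodesOK (certNodes (2 - 2 / (hi : ℚ)) ds) es = true) {u c : ℚ}
    (hT : gridFast ((entryPieces es).map fun p => (p.1, p.2 - p.1 * u)) c = true)
    (hL : ((List.range' lo (hi + 1 - lo)).all fun n =>
      liftOK n (Nat.log2 (constNum n / constDen n)) u c) = true)
    {n : ℕ} (h1 : lo ≤ n) (h2 : n ≤ hi) : UncLt n := by
  have hn := hlo.trans h1
  have hN : (2 : ℚ) ≤ hi := by exact_mod_cast hn.trans h2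
  refine uncLt_of_cert hn (r := 2 - 2 / (hi : ℚ)) ?_ (r' := 2 - 2 / (hi : ℝ)) (by push_cast; ring)
    (bodyLoss_group hn h2) hv hes hT (lift_hyps_range hL h1 h2).1 (lift_hyps_range hL h1 h2).2
  have : 2 / (hi : ℚ) ≤ 1 := (div_le_one (by linarith)).2 hN
  intro h0
  linarith

/-- All dimensions `n ≥ lo`, with `r = 2`. -/
theorem uncLt_cert_tail {lo : ℕ} (hlo : 4 ≤ lo) {ds : List CertData}
    (hv : ∀ d ∈ ds, d.Valid) {es : List Entry} (hes : nodesOK (certNodes 2 ds) es = true) {u c : ℚ}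
    (hT : gridFast ((entryPieces es).map fun p => (p.1, p.2 - p.1 * u)) c = true)
    (hu : liftUQ lo ≤ u) (hc : (30686 / 100000 : ℚ) ≤ c) {n : ℕ} (h1 : lo ≤ n) : UncLt n :=
  uncLt_of_cert (by omega) two_ne_zero (r' := 2) (by norm_num)
    (bodyLoss_of_lossBound lossBound_tailLoss n) hv hes hT
    (lift_hyps_tail hlo h1 hu hc).1 (lift_hyps_tail hlo h1 hu hc).2

end Vale.P254.E
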