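import Mathlib
import Vale.Agent.P254.E.LossBody
import Vale.Agent.P254.E.CertW

/-!
The loss with a general Picone weight: with `L = -log tail` and `kap = A / (A' - A'')` the total
variance of the slice means is at most `r * E [ρ (2 kap L - kap' L) - kap L ρ ^ 2]`.
-/

namespace Vale.P254.E

open MeasureTheory Set Filter Topology

variable {m : ℕ}

/-- The loss with the weight `kap`. -/
noncomputable def tailLossK (r : ℝ) (kap dkap g : ℝ → ℝ) (T : ℝ) : ℝ :=
  r * ∫ x in Ioc 0 T, g x *
    (tailRatio g T x * (2 * kap (tailL g T x) - dkap (tailL g T x))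
      - kap (tailL g T x) * tailRatio g T x ^ 2)

theorem tailLossK_id (r : ℝ) (g : ℝ → ℝ) (T : ℝ) :
    tailLossK r (fun l => l) (fun _ => 1) g T = tailLoss r g T := by
  simp only [tailLossK, tailLoss, tailL]
  congr 2
  funext x
  ring

/-- A weight `kap = A / (A₁ - A₂)`, with `M = A - A₁` increasing. -/
structure LossWeight (kap dkap A A₁ A₂ A₃ : ℝ → ℝ) : Prop where
  d1 : ∀ l, 0 < l → HasDerivAt A (A₁ l) l
  d2 : ∀ l, 0 < l → HasDerivAt A₁ (A₂ l) l
  d3 : ∀ l, 0 < l → HasDerivAt A₂ (A₃ l) l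
  c3 : ContinuousOn A₃ (Ioi 0)
  pos : ∀ l, 0 < l → 0 < A l
  slope : ∀ l, 0 < l → 0 < A₁ l - A₂ l
  kap_eq : ∀ l, 0 < l → kap l * (A₁ l - A₂ l) = A l
  dkap_eq : ∀ l, 0 < l → HasDerivAt kap (dkap l) l
  bound : ∃ C, ∀ l, 0 < l → kap l ≤ C * l ∧ |dkap l| ≤ C

/-- `F` has right derivative `α + β * slopeW`. -/
structure SlopeDiff (g : ℝ → ℝ) (a b : ℝ) (F α β : ℝ → ℝ) : Prop where
  cont : ContinuousOn F (Icc a b)
  cα : ContinuousOn α (Icc a b)
  cβ : ContinuousOn β (Icc a b)
  deriv : ∀ x ∈ Ioo a b, HasDerivWithinAt F (α x + β x * slopeW g x) (Ioi x) x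

/-- The Stieltjes integral of `F` against `slopeW`, by parts. -/
noncomputable def psiW (g F α β : ℝ → ℝ) (a x : ℝ) : ℝ :=
  F x * slopeW g x - ∫ z in a..x, slopeW g z * (α z + β z * slopeW g z)

section
variable {g : ℝ → ℝ} {T ρ : ℝ} {e : Fin m → ℝ → ℝ} {a b : ℝ} {F α β : ℝ → ℝ}

theorem Marg.intervalIntegrable_slopeW_sq (hg : Marg g T) (ha : 0 < a) (hab : a ≤ b) (hb : b < T) :
    IntervalIntegrable (fun z => slopeW g z ^ 2) volume a b := by
  refine MonotoneOn.intervalIntegrable ?_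
  rw [uIcc_of_le hab]
  intro x hx y hy hxy
  have hsub := Marg.subset_Ioo (T := T) ha hb
  exact pow_le_pow_left₀ (hg.slopeW_nonneg (hsub hx)) (hg.slopeW_mono (hsub hx) (hsub hy) hxy) 2

theorem SlopeDiff.integrable_deriv (hF : SlopeDiff g a b F α β) (hg : Marg g T) (ha : 0 < a)
    (hab : a ≤ b) (hb : b < T) :
    IntervalIntegrable (fun z => α z + β z * slopeW g z) volume a b :=
  (hF.cα.intervalIntegrable_of_Icc hab).add
    ((hg.intervalIntegrable_slopeW ha hab hb).continuousOn_mul (by rw [uIcc_of_le hab]; exact hF.cβ))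

theorem SlopeDiff.integrable (hF : SlopeDiff g a b F α β) (hg : Marg g T) (ha : 0 < a)
    (hab : a ≤ b) (hb : b < T) :
    IntervalIntegrable (fun z => slopeW g z * (α z + β z * slopeW g z)) volume a b :=
  (((hg.intervalIntegrable_slopeW ha hab hb).continuousOn_mul
      (by rw [uIcc_of_le hab]; exact hF.cα)).add
    ((hg.intervalIntegrable_slopeW_sq ha hab hb).continuousOn_mul
      (by rw [uIcc_of_le hab]; exact hF.cβ))).congr fun z _ => by ring

theorem SlopeDiff.deriv_bound (hF : SlopeDiff g a b F α β) (hg : Marg g T) (ha : 0 < a)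
    (hb : b < T) : ∃ C, 0 ≤ C ∧ ∀ z ∈ Icc a b, |α z + β z * slopeW g z| ≤ C := by
  obtain ⟨B₁, h₁⟩ := isCompact_Icc.exists_bound_of_continuousOn hF.cα
  obtain ⟨B₂, h₂⟩ := isCompact_Icc.exists_bound_of_continuousOn hF.cβ
  refine ⟨|B₁| + |B₂| * |slopeW g b|, by positivity, fun z hz => ?_⟩
  have hsub := Marg.subset_Ioo (T := T) ha hb
  have hz' := hg.slopeW_mono (hsub hz) (hsub ⟨hz.1.trans hz.2, le_rfl⟩) hz.2
  refine (abs_add_le _ _).trans (add_le_add ((h₁ z hz).trans (le_abs_self _)) ?_)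
  rw [abs_mul]
  refine mul_le_mul ((h₂ z hz).trans (le_abs_self _)) ?_ (abs_nonneg _) (abs_nonneg _)
  rw [abs_of_nonneg (hg.slopeW_nonneg (hsub hz))]
  exact hz'.trans (le_abs_self _)

theorem SlopeDiff.step (hF : SlopeDiff g a b F α β) (hg : Marg g T) (ha : 0 < a) (hab : a ≤ b)
    (hb : b < T) {C : ℝ} (hC : ∀ z ∈ Icc a b, |α z + β z * slopeW g z| ≤ C) {x y : ℝ}
    (hax : a ≤ x) (hxy : x ≤ y) (hyb : y ≤ b) :
    |psiW g F α β a y - psiW g F α β a x - F x * (slopeW g y - slopeW g x)|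
      ≤ C * (y - x) * (slopeW g y - slopeW g x) := by
  have hsub := Marg.subset_Ioo (T := T) ha hb
  have hxy' : Icc x y ⊆ Icc a b := Icc_subset_Icc hax hyb
  have hu : ∀ {u v : ℝ}, u ≤ v → a ≤ u → v ≤ b → uIcc u v ⊆ uIcc a b := fun {u v} huv h1 h2 => by
    rw [uIcc_of_le huv, uIcc_of_le hab]; exact Icc_subset_Icc h1 h2
  have h1 := hF.integrable hg ha hab hb
  have h2 := (hF.integrable_deriv hg ha hab hb).mono_set (hu hxy hax hyb)
  have h1xy := h1.mono_set (hu hxy hax hyb)
  have e1 : ∫ z in x..y, (α z + β z * slopeW g z) = F y - F x :=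
    intervalIntegral.integral_eq_sub_of_hasDeriv_right_of_le hxy (hF.cont.mono hxy')
      (fun z hz => hF.deriv z ⟨hax.trans_lt hz.1, hz.2.trans_le hyb⟩) h2
  have e2 := intervalIntegral.integral_interval_sub_left
    (h1.mono_set (hu (hax.trans hxy) le_rfl hyb)) (h1.mono_set (hu hax le_rfl (hxy.trans hyb)))
  have e : psiW g F α β a y - psiW g F α β a x - F x * (slopeW g y - slopeW g x)
      = ∫ z in x..y, (slopeW g y - slopeW g z) * (α z + β z * slopeW g z) := by
    have : (fun z => (slopeW g y - slopeW g z) * (α z + β z * slopeW g z))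
        = fun z => slopeW g y * (α z + β z * slopeW g z)
          - slopeW g z * (α z + β z * slopeW g z) := by funext z; ring
    rw [this, intervalIntegral.integral_sub (h2.const_mul _) h1xy,
      intervalIntegral.integral_const_mul, e1]
    simp only [psiW]
    linarith
  have hC0 : 0 ≤ C := (abs_nonneg _).trans (hC x (hxy' ⟨le_rfl, hxy⟩))
  rw [e, ← Real.norm_eq_abs]
  refine (intervalIntegral.norm_integral_le_of_norm_le_const
    (C := C * (slopeW g y - slopeW g x)) fun z hz => ?_).trans_eq ?_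
  · rw [uIoc_of_le hxy] at hz
    have hz' : z ∈ Icc x y := ⟨hz.1.le, hz.2⟩
    rw [norm_mul, mul_comm C, Real.norm_eq_abs, Real.norm_eq_abs]
    have m1 := hg.slopeW_mono (hsub (hxy' ⟨le_rfl, hxy⟩)) (hsub (hxy' hz')) hz'.1
    have m2 := hg.slopeW_mono (hsub (hxy' hz')) (hsub (hxy' ⟨hxy, le_rfl⟩)) hz'.2
    exact mul_le_mul (by rw [abs_of_nonneg (sub_nonneg.2 m2)]; linarith) (hC z (hxy' hz'))
      (abs_nonneg _) (by linarith)
  · rw [abs_of_nonneg (sub_nonneg.2 hxy)]; ring

theorem SlopeDiff.integral_le (hF : SlopeDiff g a b F α β) (hg : Marg g T) (ha : 0 < a)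
    (hab : a ≤ b) (hb : b < T) (h0 : ∀ z ∈ Icc a b, 0 ≤ F z) :
    ∫ z in a..b, slopeW g z * (α z + β z * slopeW g z) ≤ slopeW g b * F b := by
  obtain ⟨C, hC0, hC⟩ := hF.deriv_bound hg ha hb
  have hsub := Marg.subset_Ioo (T := T) ha hb
  set d := slopeW g b - slopeW g a with hd
  have key : ∀ N : ℕ, ∫ z in a..b, slopeW g z * (α z + β z * slopeW g z)
      ≤ slopeW g b * F b + C * ((b - a) / (N + 1)) * d := by
    intro N
    set h := (b - a) / (N + 1) with hh
    have h0' : 0 ≤ h := div_nonneg (by linarith) (by positivity)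
    have hle : ∀ l : ℕ, l ≤ N + 1 → a ≤ a + l * h ∧ a + l * h ≤ b := fun l hl => by
      have h1 : (l : ℝ) * h ≤ ((N + 1 : ℕ) : ℝ) * h :=
        mul_le_mul_of_nonneg_right (by exact_mod_cast hl) h0'
      have e : ((N + 1 : ℕ) : ℝ) * h = b - a := by rw [hh]; push_cast; field_simp
      exact ⟨le_add_of_nonneg_right (by positivity), by linarith⟩
    have ind : ∀ l : ℕ, l ≤ N + 1 → psiW g F α β a a - C * h * (slopeW g (a + l * h) - slopeW g a)
        ≤ psiW g F α β a (a + l * h) := by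
      intro l
      induction l with
      | zero => simp
      | succ l ih =>
        intro hl
        obtain ⟨p1, p2⟩ := hle l (by omega)
        obtain ⟨q1, q2⟩ := hle (l + 1) hl
        have e : a + ((l + 1 : ℕ) : ℝ) * h - (a + (l : ℝ) * h) = h := by push_cast; ring
        have hs := (abs_le.1 (hF.step hg ha hab hb hC p1 (by linarith) q2)).1
        rw [e] at hs
        have hm := hg.slopeW_mono (hsub ⟨p1, p2⟩) (hsub ⟨q1, q2⟩) (by linarith)
        have hF0 := mul_nonneg (h0 _ ⟨p1, p2⟩) (sub_nonneg.2 hm)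
        have := ih (by omega)
        linarith
    have := ind (N + 1) le_rfl
    rw [hh, show a + ((N + 1 : ℕ) : ℝ) * ((b - a) / (N + 1)) = b by push_cast; field_simp; ring,
      ← hh, ← hd] at this
    have hFa := mul_nonneg (h0 a ⟨le_rfl, hab⟩) (hg.slopeW_nonneg (hsub ⟨le_rfl, hab⟩))
    simp only [psiW, intervalIntegral.integral_same, sub_zero] at this
    linarith
  have hlim : Tendsto (fun N : ℕ => slopeW g b * F b + C * ((b - a) / (N + 1)) * d) atTop
      (𝓝 (slopeW g b * F b + C * 0 * d)) := by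
    refine (((Tendsto.const_mul C ?_)).mul_const d).const_add _
    exact tendsto_const_nhds.div_atTop
      (tendsto_natCast_atTop_atTop.atTop_add tendsto_const_nhds)
  simpa using ge_of_tendsto hlim (Eventually.of_forall key)

/-- The derivative of `M = A - A₁` in the original variable. -/
noncomputable def muK (g A₁ A₂ : ℝ → ℝ) (T x : ℝ) : ℝ :=
  (A₁ (tailL g T x) - A₂ (tailL g T x)) * (g x / tail g T x)

/-- Its inverse. -/
noncomputable def wK (g A₁ A₂ : ℝ → ℝ) (T x : ℝ) : ℝ :=
  tailQ g T x / (A₁ (tailL g T x) - A₂ (tailL g T x))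

/-- The continuous part of the derivative of `wK`. -/
noncomputable def wAlpha (g A₁ A₂ A₃ : ℝ → ℝ) (T x : ℝ) : ℝ :=
  -(A₂ (tailL g T x) - A₃ (tailL g T x)) / (A₁ (tailL g T x) - A₂ (tailL g T x)) ^ 2
    - 1 / (A₁ (tailL g T x) - A₂ (tailL g T x))

variable {kap dkap A A₁ A₂ A₃ : ℝ → ℝ}

namespace LossWeight

theorem cA (hk : LossWeight kap dkap A A₁ A₂ A₃) : ContinuousOn A (Ioi 0) :=
  fun l hl => (hk.d1 l hl).continuousAt.continuousWithinAt

theorem cA₁ (hk : LossWeight kap dkap A A₁ A₂ A₃) : ContinuousOn A₁ (Ioi 0) :=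
  fun l hl => (hk.d2 l hl).continuousAt.continuousWithinAt

theorem cA₂ (hk : LossWeight kap dkap A A₁ A₂ A₃) : ContinuousOn A₂ (Ioi 0) :=
  fun l hl => (hk.d3 l hl).continuousAt.continuousWithinAt

theorem kap_div (hk : LossWeight kap dkap A A₁ A₂ A₃) {l : ℝ} (hl : 0 < l) :
    kap l = A l / (A₁ l - A₂ l) := by
  rw [eq_div_iff (hk.slope l hl).ne', hk.kap_eq l hl]

theorem kap_nonneg (hk : LossWeight kap dkap A A₁ A₂ A₃) {l : ℝ} (hl : 0 < l) : 0 ≤ kap l := by
  rw [hk.kap_div hl]; exact (div_pos (hk.pos l hl) (hk.slope l hl)).le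

theorem dkap_val (hk : LossWeight kap dkap A A₁ A₂ A₃) {l : ℝ} (hl : 0 < l) :
    dkap l = (A₁ l * (A₁ l - A₂ l) - A l * (A₂ l - A₃ l)) / (A₁ l - A₂ l) ^ 2 := by
  refine (hk.dkap_eq l hl).unique ?_
  refine (((hk.d1 l hl).div ((hk.d2 l hl).sub (hk.d3 l hl)) (hk.slope l hl).ne')).congr_of_eventuallyEq ?_
  filter_upwards [isOpen_Ioi.mem_nhds hl] with z hz
  exact hk.kap_div hz

theorem cdkap (hk : LossWeight kap dkap A A₁ A₂ A₃) : ContinuousOn dkap (Ioi 0) :=
  (((hk.cA₁.mul (hk.cA₁.sub hk.cA₂)).sub (hk.cA.mul (hk.cA₂.sub hk.c3))).div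
    ((hk.cA₁.sub hk.cA₂).pow 2) fun l hl => pow_ne_zero 2 (hk.slope l hl).ne').congr
      fun l hl => hk.dkap_val hl

theorem ckap (hk : LossWeight kap dkap A A₁ A₂ A₃) : ContinuousOn kap (Ioi 0) :=
  fun l hl => (hk.dkap_eq l hl).continuousAt.continuousWithinAt

theorem comp_tailL (hg : Marg g T) {f : ℝ → ℝ} (hf : ContinuousOn f (Ioi 0)) :
    ContinuousOn (fun x => f (tailL g T x)) (Ioo 0 T) :=
  hf.comp hg.continuousOn_logTail fun _ hx => hg.logTail_pos' hx

theorem hasDeriv_M (hk : LossWeight kap dkap A A₁ A₂ A₃) (hg : Marg g T) {x : ℝ}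
    (hx : x ∈ Ioo 0 T) :
    HasDerivAt (fun x => A (tailL g T x) - A₁ (tailL g T x)) (muK g A₁ A₂ T x) x :=
  ((hk.d1 (tailL g T x) (hg.logTail_pos' hx)).sub (hk.d2 (tailL g T x) (hg.logTail_pos' hx))).comp x
    (hg.hasDeriv_tailL hx)

theorem cont_mu (hk : LossWeight kap dkap A A₁ A₂ A₃) (hg : Marg g T) :
    ContinuousOn (muK g A₁ A₂ T) (Ioo 0 T) :=
  ((comp_tailL hg hk.cA₁).sub (comp_tailL hg hk.cA₂)).mul (hg.continuousOn.div
    (fun x hx => (hg.hasDeriv_tail hx).continuousAt.continuousWithinAt)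
    fun x hx => (hg.tail_pos hx).ne')

theorem mu_mul_w (hk : LossWeight kap dkap A A₁ A₂ A₃) (hg : Marg g T) {x : ℝ} (hx : x ∈ Ioo 0 T) :
    muK g A₁ A₂ T x * wK g A₁ A₂ T x = 1 := by
  have h1 := (hk.slope _ (hg.logTail_pos' hx)).ne'
  have h2 := (hg.tail_pos hx).ne'
  have h3 := (hg.pos x ⟨hx.1.le, hx.2⟩).ne'
  simp only [muK, wK, tailQ]
  field_simp
  exact div_self h1

theorem mu_pos (hk : LossWeight kap dkap A A₁ A₂ A₃) (hg : Marg g T) {x : ℝ} (hx : x ∈ Ioo 0 T) :
    0 < muK g A₁ A₂ T x :=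
  mul_pos (hk.slope _ (hg.logTail_pos' hx)) (div_pos (hg.pos x ⟨hx.1.le, hx.2⟩) (hg.tail_pos hx))

theorem w_pos (hk : LossWeight kap dkap A A₁ A₂ A₃) (hg : Marg g T) {x : ℝ} (hx : x ∈ Ioo 0 T) :
    0 < wK g A₁ A₂ T x :=
  div_pos (hg.tailQ_pos hx) (hk.slope _ (hg.logTail_pos' hx))

theorem slopeDiff_w (hk : LossWeight kap dkap A A₁ A₂ A₃) (hg : Marg g T) (ha : 0 < a)
    (hb : b < T) :
    SlopeDiff g a b (wK g A₁ A₂ T) (wAlpha g A₁ A₂ A₃ T)
      (fun x => wK g A₁ A₂ T x) := by
  have hsub := Marg.subset_Ioo (T := T) ha hb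
  have hD := (comp_tailL hg hk.cA₁).sub (comp_tailL hg hk.cA₂)
  have hD0 : ∀ x ∈ Ioo 0 T, A₁ (tailL g T x) - A₂ (tailL g T x) ≠ 0 := fun x hx =>
    (hk.slope _ (hg.logTail_pos' hx)).ne'
  have cw : ContinuousOn (wK g A₁ A₂ T) (Icc a b) := (hg.continuousOn_tailQ.div hD hD0).mono hsub
  refine ⟨cw, ?_, cw, fun x hx => ?_⟩
  · exact ((((comp_tailL hg hk.cA₂).sub (comp_tailL hg hk.c3)).neg.div (hD.pow 2)
      fun x hx => pow_ne_zero 2 (hD0 x hx)).sub (continuousOn_const.div hD hD0)).mono hsub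
  · have hm := hsub (Ioo_subset_Icc_self hx)
    have hl := hg.logTail_pos' hm
    have hd := ((hk.d2 _ hl).sub (hk.d3 _ hl)).comp x (hg.hasDeriv_tailL hm)
    refine ((hg.hasDeriv_tailQ hm).div hd.hasDerivWithinAt (hD0 x hm)).congr_deriv ?_
    have h1 := hD0 x hm
    have h2 := (hg.tail_pos hm).ne'
    have h3 := (hg.pos x ⟨hm.1.le, hm.2⟩).ne'
    simp only [wAlpha, wK, tailQ, Function.comp_def, Pi.sub_apply, tailL]
    simp only [tailL] at h1
    field_simp
    ring

theorem increment (hk : LossWeight kap dkap A A₁ A₂ A₃) (hg : Marg g T) (h : GainLoc g T e ρ)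
    (hρ0 : 0 ≤ ρ) (hρ1 : ρ ≤ 1) (ha : 0 < a) (hab : a ≤ b) (hb : b < T) {s t : ℝ} (has : a ≤ s)
    (hst : s < t) (htb : t ≤ b) :
    ∑ j, (e j t - e j s) ^ 2 ≤ (2 - ρ) * (((A (tailL g T t) - A₁ (tailL g T t))
        - (A (tailL g T s) - A₁ (tailL g T s))) *
      (psiW g (wK g A₁ A₂ T) (wAlpha g A₁ A₂ A₃ T) (wK g A₁ A₂ T) a t
        - psiW g (wK g A₁ A₂ T) (wAlpha g A₁ A₂ A₃ T) (wK g A₁ A₂ T) a s)) := by
  have hsub := Marg.subset_Ioo (T := T) ha hb
  have hw := hk.slopeDiff_w hg ha hb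
  set μ := muK g A₁ A₂ T with hμdef
  set w := wK g A₁ A₂ T with hwdef
  set M : ℝ → ℝ := fun x => A (tailL g T x) - A₁ (tailL g T x) with hMdef
  set Ψ : ℝ → ℝ := psiW g w (wAlpha g A₁ A₂ A₃ T) w a with hΨdef
  obtain ⟨C, hC0, hC⟩ := hw.deriv_bound hg ha hb
  obtain ⟨W, hW⟩ := isCompact_Icc.exists_bound_of_continuousOn hw.cont
  obtain ⟨K, hK⟩ := isCompact_Icc.exists_bound_of_continuousOn ((hk.cont_mu hg).mono hsub)
  have huc := Metric.uniformContinuousOn_iff.1
    (isCompact_Icc.uniformContinuousOn_of_continuous ((hk.cont_mu hg).mono hsub))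
  suffices key : ∀ κ : ℝ, 0 < κ → κ < 1 →
      (1 - κ) * ∑ j, (e j t - e j s) ^ 2 ≤ (2 - ρ) * ((M t - M s) * (Ψ t - Ψ s)) by
    have hlim : Tendsto (fun κ : ℝ => (1 - κ) * ∑ j, (e j t - e j s) ^ 2) (𝓝[>] 0)
        (𝓝 (∑ j, (e j t - e j s) ^ 2)) := by
      have hc : Continuous fun κ : ℝ => (1 - κ) * ∑ j, (e j t - e j s) ^ 2 := by fun_prop
      simpa using (hc.tendsto 0).mono_left nhdsWithin_le_nhds
    refine le_of_tendsto hlim ?_
    filter_upwards [Ioo_mem_nhdsGT (zero_lt_one' ℝ)] with κ hκ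
    exact key κ hκ.1 hκ.2
  intro κ hκ0 hκ1
  obtain ⟨δ₀, hδ₀, hμc⟩ := huc (κ / (2 * (|W| + 1))) (by positivity)
  obtain ⟨N, hN⟩ := exists_nat_gt ((t - s) / δ₀ + (t - s) * (2 * C * (|K| + 1)) / κ)
  set η := (t - s) / (N + 1) with hη
  have hN1 : (0 : ℝ) < (N : ℝ) + 1 := by positivity
  have hη0 : 0 < η := div_pos (by linarith) hN1
  have hηδ : η < δ₀ := by
    rw [hη, div_lt_iff₀ hN1]
    have h1 : (t - s) / δ₀ < (N : ℝ) + 1 := by
      have : 0 ≤ (t - s) * (2 * C * (|K| + 1)) / κ :=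
        div_nonneg (mul_nonneg (by linarith) (by positivity)) hκ0.le
      linarith
    rw [div_lt_iff₀ hδ₀] at h1
    linarith
  have hηC : C * η * (2 * (|K| + 1)) ≤ κ := by
    have h1 : (t - s) * (2 * C * (|K| + 1)) / κ < (N : ℝ) + 1 := by
      have : 0 ≤ (t - s) / δ₀ := div_nonneg (by linarith) hδ₀.le
      linarith
    rw [div_lt_iff₀ hκ0] at h1
    rw [show C * η * (2 * (|K| + 1)) = (t - s) * (2 * C * (|K| + 1)) / (N + 1) by rw [hη]; ring,
      div_le_iff₀ hN1]
    linarith
  set p : ℕ → ℝ := fun l => s + l * η with hp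
  have hend : p (N + 1) = t := by simp only [hp, hη]; push_cast; field_simp; ring
  have hmono : ∀ l, l ≤ N + 1 → a ≤ p l ∧ p l ≤ t := fun l hl => by
    have h1 : (l : ℝ) * η ≤ ((N + 1 : ℕ) : ℝ) * η :=
      mul_le_mul_of_nonneg_right (by exact_mod_cast hl) hη0.le
    have h2 : 0 ≤ (l : ℝ) * η := mul_nonneg (Nat.cast_nonneg _) hη0.le
    simp only [hp] at hend ⊢
    constructor <;> linarith
  have hgap : ∀ l, p (l + 1) - p l = η := fun l => by simp only [hp]; push_cast; ring
  set dM : ℕ → ℝ := fun l => M (p (l + 1)) - M (p l) with hdM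
  set dP : ℕ → ℝ := fun l => Ψ (p (l + 1)) - Ψ (p l) with hdP
  have hmvt : ∀ l < N + 1, ∃ ξ ∈ Icc (p l) (p (l + 1)), dM l = μ ξ * η := fun l hl => by
    have h0 := hmono l (by omega)
    have h1 := hmono (l + 1) (by omega)
    have hlt : p l < p (l + 1) := by linarith [hgap l]
    have hs' : Icc (p l) (p (l + 1)) ⊆ Ioo 0 T := fun z hz =>
      hsub ⟨h0.1.trans hz.1, hz.2.trans (h1.2.trans htb)⟩
    obtain ⟨ξ, hξ, hval⟩ := exists_hasDerivAt_eq_slope M μ hlt
      (fun z hz => (hk.hasDeriv_M hg (hs' hz)).continuousAt.continuousWithinAt)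
      (fun z hz => hk.hasDeriv_M hg (hs' (Ioo_subset_Icc_self hz)))
    refine ⟨ξ, Ioo_subset_Icc_self hξ, ?_⟩
    rw [hgap l, eq_div_iff hη0.ne'] at hval
    linarith [hval]
  have hpos : ∀ l < N + 1, 0 < dM l := fun l hl => by
    obtain ⟨ξ, hξ, he⟩ := hmvt l hl
    rw [he]
    exact mul_pos (hk.mu_pos hg (hsub ⟨(hmono l (by omega)).1.trans hξ.1,
      hξ.2.trans ((hmono (l + 1) (by omega)).2.trans htb)⟩)) hη0
  have hloc : ∀ l < N + 1,
      (1 - κ) * ((∑ j, (e j (p (l + 1)) - e j (p l)) ^ 2) / dM l) ≤ (2 - ρ) * dP l := by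
    intro l hl
    obtain ⟨ξ, hξ, hval⟩ := hmvt l hl
    have h0 := hmono l (by omega)
    have h1 := hmono (l + 1) (by omega)
    have hxm : p l ∈ Icc a b := ⟨h0.1, h0.2.trans htb⟩
    have hym : p (l + 1) ∈ Icc a b := ⟨h1.1, h1.2.trans htb⟩
    have hξm : ξ ∈ Icc a b := ⟨hxm.1.trans hξ.1, hξ.2.trans hym.2⟩
    have hlt : p l < p (l + 1) := by linarith [hgap l]
    have h2 := increment_slopeW hg h hρ0 hρ1 (ha.trans_le h0.1) hlt (hym.2.trans_lt hb)
    have h3 := (abs_le.1 (hw.step hg ha hab hb hC h0.1 hlt.le hym.2)).1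
    rw [hgap l] at h2 h3
    have hσ := hg.slopeW_mono (hsub hxm) (hsub hym) hlt.le
    have hμξ := hk.mu_pos hg (hsub hξm)
    have hdist : |μ ξ - μ (p l)| ≤ κ / (2 * (|W| + 1)) := by
      refine (le_of_eq ?_).trans (hμc ξ hξm (p l) hxm ?_).le
      · rw [Real.dist_eq]
      · rw [Real.dist_eq, abs_of_nonneg (sub_nonneg.2 hξ.1)]
        linarith [hξ.2, hgap l]
    have hwx := hk.w_pos hg (hsub hxm)
    have hwW : w (p l) ≤ |W| + 1 := by
      have := (le_abs_self _).trans ((hW _ hxm).trans (le_abs_self _))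
      linarith
    have h4 : 1 - κ / 2 ≤ μ ξ * w (p l) := by
      have e1 : μ (p l) * w (p l) = 1 := hk.mu_mul_w hg (hsub hxm)
      have e2 : |μ ξ * w (p l) - 1| ≤ κ / 2 := by
        rw [← e1, ← sub_mul, abs_mul, abs_of_pos hwx]
        refine (mul_le_mul hdist hwW hwx.le (by positivity)).trans_eq ?_
        have : |W| + 1 ≠ 0 := by positivity
        field_simp
      linarith [(abs_le.1 e2).1]
    have h5 : μ ξ * (C * η) ≤ κ / 2 := by
      have := (le_abs_self _).trans ((hK _ hξm).trans (le_abs_self _))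
      have h6 := mul_le_mul_of_nonneg_right (show μ ξ ≤ |K| + 1 by linarith)
        (mul_nonneg hC0 hη0.le)
      linarith
    rw [← mul_div_assoc, div_le_iff₀ (hpos l hl), mul_assoc]
    calc (1 - κ) * ∑ j, (e j (p (l + 1)) - e j (p l)) ^ 2
        ≤ (1 - κ) * ((2 - ρ) * η * (slopeW g (p (l + 1)) - slopeW g (p l))) :=
          mul_le_mul_of_nonneg_left h2 (by linarith)
      _ = (2 - ρ) * ((1 - κ) * (η * (slopeW g (p (l + 1)) - slopeW g (p l)))) := by ring
      _ ≤ (2 - ρ) * (dP l * dM l) := by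
          refine mul_le_mul_of_nonneg_left ?_ (by linarith)
          rw [hval]
          calc (1 - κ) * (η * (slopeW g (p (l + 1)) - slopeW g (p l)))
              ≤ (μ ξ * w (p l) - μ ξ * (C * η)) * (η * (slopeW g (p (l + 1)) - slopeW g (p l))) :=
                mul_le_mul_of_nonneg_right (by linarith) (mul_nonneg hη0.le (by linarith))
            _ = (w (p l) * (slopeW g (p (l + 1)) - slopeW g (p l))
                  - C * η * (slopeW g (p (l + 1)) - slopeW g (p l))) * (μ ξ * η) := by ring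
            _ ≤ dP l * (μ ξ * η) := mul_le_mul_of_nonneg_right
                (by simp only [hdP, hΨdef]; linarith) (mul_nonneg hμξ.le hη0.le)
  have htM : ∑ l ∈ Finset.range (N + 1), dM l = M t - M s := by
    simp only [hdM]
    rw [Finset.sum_range_sub (fun l => M (p l)), hend]
    simp [hp]
  have htP : ∑ l ∈ Finset.range (N + 1), dP l = Ψ t - Ψ s := by
    simp only [hdP]
    rw [Finset.sum_range_sub (fun l => Ψ (p l)), hend]
    simp [hp]
  have hS : 0 < ∑ l ∈ Finset.range (N + 1), dM l :=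
    Finset.sum_pos (fun l hl => hpos l (Finset.mem_range.1 hl)) ⟨0, by simp⟩
  have hCS : ∀ j, (e j t - e j s) ^ 2 ≤ (∑ l ∈ Finset.range (N + 1), dM l) *
      ∑ l ∈ Finset.range (N + 1), (e j (p (l + 1)) - e j (p l)) ^ 2 / dM l := fun j => by
    have := Finset.sq_sum_div_le_sum_sq_div (Finset.range (N + 1))
      (fun l => e j (p (l + 1)) - e j (p l)) (g := dM) fun l hl => hpos l (Finset.mem_range.1 hl)
    rw [Finset.sum_range_sub (fun l => e j (p l)), hend] at this
    simp only [hp, Nat.cast_zero, zero_mul, add_zero] at this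
    rwa [div_le_iff₀' hS] at this
  calc (1 - κ) * ∑ j, (e j t - e j s) ^ 2
      ≤ (1 - κ) * ∑ j, (∑ l ∈ Finset.range (N + 1), dM l) *
          ∑ l ∈ Finset.range (N + 1), (e j (p (l + 1)) - e j (p l)) ^ 2 / dM l :=
        mul_le_mul_of_nonneg_left (Finset.sum_le_sum fun j _ => hCS j) (by linarith)
    _ = (∑ l ∈ Finset.range (N + 1), dM l) * ∑ l ∈ Finset.range (N + 1),
          (1 - κ) * ((∑ j, (e j (p (l + 1)) - e j (p l)) ^ 2) / dM l) := by
        rw [← Finset.mul_sum, Finset.sum_comm, mul_left_comm, Finset.mul_sum (a := 1 - κ)]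
        simp only [Finset.sum_div]
    _ ≤ (∑ l ∈ Finset.range (N + 1), dM l) * ∑ l ∈ Finset.range (N + 1), (2 - ρ) * dP l :=
        mul_le_mul_of_nonneg_left (Finset.sum_le_sum fun l hl => hloc l (Finset.mem_range.1 hl))
          hS.le
    _ = _ := by rw [← Finset.mul_sum, htM, htP]; ring

end LossWeight

namespace LossWeight

/-- The covariance of `M` and `psiW` on an interval. -/
theorem pair_bound (hk : LossWeight kap dkap A A₁ A₂ A₃) (hg : Marg g T) (ha : 0 < a) (hab : a < b)
    (hb : b < T) :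
    (∫ t in a..b, g t) * (∫ t in a..b, g t * ((A (tailL g T t) - A₁ (tailL g T t)) *
          psiW g (wK g A₁ A₂ T) (wAlpha g A₁ A₂ A₃ T) (wK g A₁ A₂ T) a t))
        - (∫ t in a..b, g t * (A (tailL g T t) - A₁ (tailL g T t))) *
          ∫ t in a..b, g t * psiW g (wK g A₁ A₂ T) (wAlpha g A₁ A₂ A₃ T) (wK g A₁ A₂ T) a t
      ≤ (∫ t in a..b, g t) * ((∫ t in a..b, g t *
          (tailRatio g T t * (2 * kap (tailL g T t) - dkap (tailL g T t))
            - kap (tailL g T t) * tailRatio g T t ^ 2))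
        + tailRatio g T b * tail g T b * kap (tailL g T b)) := by
  have hsub := Marg.subset_Ioo (T := T) ha hb
  have hu : uIcc a b = Icc a b := uIcc_of_le hab.le
  have hw := hk.slopeDiff_w hg ha hb
  set w := wK g A₁ A₂ T with hwdef
  set wa := wAlpha g A₁ A₂ A₃ T with hwadef
  set M : ℝ → ℝ := fun x => A (tailL g T x) - A₁ (tailL g T x) with hMdef
  set m0 := ∫ t in a..b, g t with hm0
  have hgc := hg.continuousOn.mono hsub
  have hGc : ContinuousOn (tail g T) (Icc a b) :=
    fun x hx => (hg.hasDeriv_tail (hsub hx)).continuousAt.continuousWithinAt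
  have hMc : ContinuousOn M (Icc a b) :=
    fun x hx => (hk.hasDeriv_M hg (hsub hx)).continuousAt.continuousWithinAt
  have hAc : ContinuousOn (fun x => A (tailL g T x)) (Icc a b) := (comp_tailL hg hk.cA).mono hsub
  have hgi : IntervalIntegrable g volume a b := hgc.intervalIntegrable_of_Icc hab.le
  have hmpos : 0 < m0 := intervalIntegral.intervalIntegral_pos_of_pos_on hgi
    (fun x hx => hg.pos x ⟨(ha.trans hx.1).le, hx.2.trans hb⟩) hab
  set c := (∫ t in a..b, g t * M t) / m0 with hc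
  set R : ℝ → ℝ := fun x => ∫ z in a..x, slopeW g z * (wa z + w z * slopeW g z) with hR
  set E : ℝ → ℝ := fun x => tail g T a * A (tailL g T a) + c * (tail g T x - tail g T a) with hE
  set H : ℝ → ℝ := fun x => -(tail g T x * A (tailL g T x)) + E x with hH
  have hEd : ∀ x ∈ Icc a b, HasDerivAt E (c * -g x) x := fun x hx =>
    (((hg.hasDeriv_tail (hsub hx)).sub_const _).const_mul c).const_add _
  have hHd : ∀ x ∈ Icc a b, HasDerivAt H (g x * (M x - c)) x := fun x hx => by
    have hm := hsub hx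
    refine (((hg.hasDeriv_tail hm).mul ((hk.d1 _ (hg.logTail_pos' hm)).comp x
      (hg.hasDeriv_tailL hm))).neg.add (hEd x hx)).congr_deriv ?_
    have := (hg.tail_pos hm).ne'
    simp only [hMdef, Function.comp_def, tailL]
    field_simp
    ring
  have hEc : ContinuousOn E (Icc a b) := fun x hx => (hEd x hx).continuousAt.continuousWithinAt
  have hHc : ContinuousOn H (Icc a b) := fun x hx => (hHd x hx).continuousAt.continuousWithinAt
  have hH' : ContinuousOn (fun x => g x * (M x - c)) (Icc a b) :=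
    hgc.mul (hMc.sub continuousOn_const)
  have hHa : H a = 0 := by simp [hH, hE]
  have hHb : H b = 0 := by
    have h1 := intervalIntegral.integral_eq_sub_of_hasDerivAt
      (fun x hx => hHd x (by rwa [hu] at hx)) (hH'.intervalIntegrable_of_Icc hab.le)
    have h2 : ∫ x in a..b, g x * (M x - c) = 0 := by
      have : (fun x => g x * (M x - c)) = fun x => g x * M x - c * g x := by funext x; ring
      rw [this, intervalIntegral.integral_sub (by
          exact (hgc.mul hMc).intervalIntegrable_of_Icc hab.le)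
        (hgi.const_mul _), intervalIntegral.integral_const_mul, ← hm0, hc,
        div_mul_cancel₀ _ hmpos.ne', sub_self]
    linarith
  have hRi := hw.integrable hg ha hab.le hb
  have hRc : ContinuousOn R (Icc a b) := by
    have := intervalIntegral.continuousOn_primitive_interval' hRi (left_mem_uIcc)
    rwa [hu] at this
  set S := {x ∈ Ioo a b | ¬ ContinuousWithinAt (slopeW g) (Ioo a b) x} with hS
  have hScount : S.Countable :=
    (hg.slopeW_mono.mono (Ioo_subset_Icc_self.trans hsub)).countable_not_continuousWithinAt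
  have i1 : IntervalIntegrable (fun x => g x * (M x - c) * R x) volume a b :=
    (hH'.mul hRc).intervalIntegrable_of_Icc hab.le
  have i2 : IntervalIntegrable
      (fun x => H x * (slopeW g x * (wa x + w x * slopeW g x))) volume a b :=
    hRi.continuousOn_mul (by rwa [hu])
  have hHR : (∫ x in a..b, g x * (M x - c) * R x)
      + ∫ x in a..b, H x * (slopeW g x * (wa x + w x * slopeW g x)) = 0 := by
    rw [← intervalIntegral.integral_add i1 i2,
      MeasureTheory.integral_eq_of_hasDerivAt_off_countable_of_le (fun x => H x * R x) _ hab.le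
      hScount (hHc.mul hRc) (fun x hx => ?_) (i1.add i2), hHa, hHb]
    · simp
    have hxI : x ∈ Icc a b := ⟨hx.1.1.le, hx.1.2.le⟩
    have hσc : ContinuousAt (slopeW g) x := by
      by_contra hne
      exact hx.2 ⟨hx.1, fun h' => hne (h'.continuousAt (isOpen_Ioo.mem_nhds hx.1))⟩
    have hn : Icc a b ∈ 𝓝 x :=
      mem_of_superset (isOpen_Ioo.mem_nhds hx.1) Ioo_subset_Icc_self
    have hRd : HasDerivAt R (slopeW g x * (wa x + w x * slopeW g x)) x :=
      intervalIntegral.integral_hasDerivAt_right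
        (hRi.mono_set (by rw [uIcc_of_le hx.1.1.le, hu]; exact Icc_subset_Icc_right hx.1.2.le))
        ⟨Ioc a b, mem_of_superset (isOpen_Ioo.mem_nhds hx.1) Ioo_subset_Ioc_self, by
          have := hRi.1.aestronglyMeasurable; exact this⟩
        (hσc.mul ((hw.cα.continuousAt hn).add ((hw.cβ.continuousAt hn).mul hσc)))
    exact (hHd x hxI).mul hRd
  have hqσ : IntervalIntegrable (fun t => g t * (M t - c) * (w t * slopeW g t)) volume a b :=
    ((hg.intervalIntegrable_slopeW ha hab.le hb).continuousOn_mul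
      (by rw [hu]; exact hw.cont)).continuousOn_mul (by rw [hu]; exact hH')
  have hgΨ : IntervalIntegrable (fun t => g t * psiW g w wa w a t) volume a b :=
    ((((hg.intervalIntegrable_slopeW ha hab.le hb).continuousOn_mul
      (by rw [hu]; exact hw.cont)).sub (hRc.intervalIntegrable_of_Icc hab.le))).continuousOn_mul
        (by rwa [hu])
  have hgMΨ : IntervalIntegrable (fun t => g t * (M t * psiW g w wa w a t)) volume a b :=
    (hgΨ.continuousOn_mul (by rw [hu]; exact hMc)).congr fun t _ => by ring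
  have key : m0 * (∫ t in a..b, g t * (M t * psiW g w wa w a t))
      - (∫ t in a..b, g t * M t) * ∫ t in a..b, g t * psiW g w wa w a t
      = m0 * ∫ t in a..b, (g t * (M t - c) * (w t * slopeW g t)
          + H t * (slopeW g t * (wa t + w t * slopeW g t))) := by
    have e1 : (fun t => g t * (M t * psiW g w wa w a t)) = fun t =>
        c * (g t * psiW g w wa w a t) + (g t * (M t - c) * (w t * slopeW g t)
          - g t * (M t - c) * R t) := by
      funext t; simp only [psiW, hR]; ring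
    rw [e1, intervalIntegral.integral_add (hgΨ.const_mul _) (hqσ.sub i1),
      intervalIntegral.integral_sub hqσ i1, intervalIntegral.integral_const_mul,
      intervalIntegral.integral_add hqσ i2,
      show (∫ t in a..b, g t * M t) = c * m0 from (div_mul_cancel₀ _ hmpos.ne').symm]
    linear_combination (-m0) * hHR
  set αF : ℝ → ℝ := fun x => c * -g x * w x + E x * wa x with hαF
  set βF : ℝ → ℝ := fun x => E x * w x with hβF
  have hF : SlopeDiff g a b (fun x => E x * w x) αF βF :=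
    ⟨hEc.mul hw.cont, ((continuousOn_const.mul hgc.neg).mul hw.cont).add (hEc.mul hw.cα),
      hEc.mul hw.cβ, fun x hx =>
      ((hEd x (Ioo_subset_Icc_self hx)).hasDerivWithinAt.mul (hw.deriv x hx)).congr_deriv
        (by simp only [hαF, hβF]; ring)⟩
  have hEb : E b = tail g T b * A (tailL g T b) := by
    simp only [hH] at hHb; linarith
  have hE0 : ∀ x ∈ Icc a b, 0 ≤ E x := fun x hx => by
    have hanti : ∀ u v, a ≤ u → u ≤ v → v ≤ b → tail g T v ≤ tail g T u := fun u v hu' huv hv =>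
      setIntegral_mono_set (hg.integrableOn.mono_set (Ioc_subset_Ioc_left (ha.trans_le hu').le))
        (Eventually.of_forall fun z => hg.nonneg z) (Ioc_subset_Ioc_left huv).eventuallyLE
    have h1 := hanti a x le_rfl hx.1 hx.2
    have h2 := hanti x b hx.1 hx.2 le_rfl
    have hpa := mul_nonneg (hg.tail_pos (hsub ⟨le_rfl, hab.le⟩)).le
      (hk.pos (tailL g T a) (hg.logTail_pos' (hsub ⟨le_rfl, hab.le⟩))).le
    have hpb := mul_nonneg (hg.tail_pos (hsub ⟨hab.le, le_rfl⟩)).le
      (hk.pos (tailL g T b) (hg.logTail_pos' (hsub ⟨hab.le, le_rfl⟩))).le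
    simp only [hE] at hEb ⊢
    rcases le_total 0 c with h | h
    · nlinarith
    · nlinarith
  have hFi := hF.integrable hg ha hab.le hb
  have hpt : ∀ t ∈ Icc a b, g t * (M t - c) * (w t * slopeW g t)
        + H t * (slopeW g t * (wa t + w t * slopeW g t))
      = g t * (tailRatio g T t * (2 * kap (tailL g T t) - dkap (tailL g T t))
          - kap (tailL g T t) * tailRatio g T t ^ 2)
        + slopeW g t * (αF t + βF t * slopeW g t) := fun t ht => by
    have hm := hsub ht
    have hl := hg.logTail_pos' hm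
    change (0 : ℝ) < tailL g T t at hl
    have h1 := (hk.slope _ hl).ne'
    have h2 := (hg.tail_pos hm).ne'
    have h3 := (hg.pos t ⟨hm.1.le, hm.2⟩).ne'
    rw [hk.dkap_val hl, hk.kap_div hl]
    simp only [hMdef, hH, hαF, hβF, hwdef, hwadef, wK, wAlpha, tailQ, tailRatio]
    field_simp
    ring
  have hK : IntervalIntegrable (fun t => g t *
      (tailRatio g T t * (2 * kap (tailL g T t) - dkap (tailL g T t))
        - kap (tailL g T t) * tailRatio g T t ^ 2)) volume a b := by
    refine ((hqσ.add i2).sub hFi).congr fun t ht => ?_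
    rw [uIoc_of_le hab.le] at ht
    have := hpt t ⟨ht.1.le, ht.2⟩
    linarith
  have hFb : slopeW g b * (E b * w b) = tailRatio g T b * tail g T b * kap (tailL g T b) := by
    have hm := hsub ⟨hab.le, le_rfl⟩
    have hl : 0 < tailL g T b := hg.logTail_pos' hm
    rw [hEb, hk.kap_div hl]
    simp only [hwdef, wK, tailQ, tailRatio]
    ring
  refine le_trans (le_of_eq key) (mul_le_mul_of_nonneg_left ?_ hmpos.le)
  rw [intervalIntegral.integral_congr (g := fun t => g t *
      (tailRatio g T t * (2 * kap (tailL g T t) - dkap (tailL g T t))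
        - kap (tailL g T t) * tailRatio g T t ^ 2)
      + slopeW g t * (αF t + βF t * slopeW g t)) (fun t ht => hpt t (by rwa [hu] at ht)),
    intervalIntegral.integral_add hK hFi, ← hFb]
  exact add_le_add le_rfl (hF.integral_le hg ha hab.le hb fun z hz =>
    mul_nonneg (hE0 z hz) (hk.w_pos hg (hsub hz)).le)

theorem interval_var_le (hk : LossWeight kap dkap A A₁ A₂ A₃) (hg : Marg g T)
    (h : GainLoc g T e ρ) (hρ0 : 0 ≤ ρ) (hρ1 : ρ ≤ 1) (ha : 0 < a) (hab : a < b) (hb : b < T) :
    ∑ j, ((∫ t in a..b, g t) * (∫ t in a..b, g t * e j t ^ 2) - (∫ t in a..b, g t * e j t) ^ 2)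
      ≤ (2 - ρ) * ((∫ t in a..b, g t) * ((∫ t in a..b, g t *
          (tailRatio g T t * (2 * kap (tailL g T t) - dkap (tailL g T t))
            - kap (tailL g T t) * tailRatio g T t ^ 2))
        + tailRatio g T b * tail g T b * kap (tailL g T b))) := by
  have hsub := Marg.subset_Ioo (T := T) ha hb
  have hu : uIcc a b = Icc a b := uIcc_of_le hab.le
  have hw := hk.slopeDiff_w hg ha hb
  have hgc := hg.continuousOn.mono hsub
  have hgi : IntervalIntegrable g volume a b := hgc.intervalIntegrable_of_Icc hab.le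
  have hec := fun j => h.continuousOn_path hg hρ0 hρ1 ha hb j
  set L : ℝ → ℝ := fun t => A (tailL g T t) - A₁ (tailL g T t) with hL
  set P := psiW g (wK g A₁ A₂ T) (wAlpha g A₁ A₂ A₃ T) (wK g A₁ A₂ T) a with hP
  have hLc : ContinuousOn L (Icc a b) :=
    fun x hx => (hk.hasDeriv_M hg (hsub hx)).continuousAt.continuousWithinAt
  have hRc := intervalIntegral.continuousOn_primitive_interval' (hw.integrable hg ha hab.le hb)
    (left_mem_uIcc)
  rw [hu] at hRc
  have hPi : IntervalIntegrable P volume a b :=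
    ((hg.intervalIntegrable_slopeW ha hab.le hb).continuousOn_mul
      (by rw [hu]; exact hw.cont)).sub (hRc.intervalIntegrable_of_Icc hab.le)
  have iu : IntervalIntegrable (fun t => g t * L t) volume a b :=
    (hgc.mul hLc).intervalIntegrable_of_Icc hab.le
  have iv : IntervalIntegrable (fun t => g t * P t) volume a b :=
    hPi.continuousOn_mul (by rwa [hu])
  have iuv : IntervalIntegrable (fun t => g t * (L t * P t)) volume a b :=
    (hPi.continuousOn_mul (f := P) (g := fun t => g t * L t) (by rw [hu]; exact hgc.mul hLc)).congr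
      fun t _ => by ring
  have ie : ∀ j, IntervalIntegrable (fun t => g t * e j t) volume a b :=
    fun j => (hgc.mul (hec j)).intervalIntegrable_of_Icc hab.le
  have iee : ∀ j, IntervalIntegrable (fun t => g t * (e j t * e j t)) volume a b :=
    fun j => (hgc.mul ((hec j).mul (hec j))).intervalIntegrable_of_Icc hab.le
  obtain ⟨hRi, hR⟩ := pairs_identity hgi iu iv iuv
  have hLi : IntervalIntegrable
      (fun s => ∑ j, g s * ∫ t in a..b, g t * ((e j t - e j s) * (e j t - e j s))) volume a b := by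
    rw [show (fun s => ∑ j, g s * ∫ t in a..b, g t * ((e j t - e j s) * (e j t - e j s)))
      = ∑ j, (fun s => g s * ∫ t in a..b, g t * ((e j t - e j s) * (e j t - e j s))) from
        (Finset.sum_fn _ _).symm]
    exact IntervalIntegrable.sum _ fun j _ => (pairs_identity hgi (ie j) (ie j) (iee j)).1
  have hsym : ∀ s ∈ Icc a b, ∀ t ∈ Icc a b, ∑ j, (e j t - e j s) * (e j t - e j s)
      ≤ (2 - ρ) * ((L t - L s) * (P t - P s)) := by
    intro s hs t ht
    simp only [← sq]
    rcases lt_trichotomy s t with h1 | h1 | h1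
    · exact hk.increment hg h hρ0 hρ1 ha hab.le hb hs.1 h1 ht.2
    · simp [h1]
    · have h2 := hk.increment hg h hρ0 hρ1 ha hab.le hb ht.1 h1 hs.2
      have e1 : ∀ j, (e j t - e j s) ^ 2 = (e j s - e j t) ^ 2 := fun j => by ring
      simp only [e1, hL, hP]
      linarith
  have main : ∫ s in a..b, ∑ j, g s * ∫ t in a..b, g t * ((e j t - e j s) * (e j t - e j s))
      ≤ (2 - ρ) * ∫ s in a..b, g s * ∫ t in a..b, g t * ((L t - L s) * (P t - P s)) := by
    rw [← intervalIntegral.integral_const_mul]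
    refine intervalIntegral.integral_mono_on hab.le hLi (hRi.const_mul _) fun s hs => ?_
    rw [← Finset.mul_sum, mul_left_comm]
    refine mul_le_mul_of_nonneg_left ?_ (hg.nonneg s)
    have i1 : ∀ j, IntervalIntegrable
        (fun t => g t * ((e j t - e j s) * (e j t - e j s))) volume a b := fun j =>
      (hgc.mul (((hec j).sub continuousOn_const).mul
        ((hec j).sub continuousOn_const))).intervalIntegrable_of_Icc hab.le
    have i2 : IntervalIntegrable (fun t => g t * ((L t - L s) * (P t - P s))) volume a b :=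
      (((hPi.sub (intervalIntegrable_const (c := P s))).continuousOn_mul
        (g := fun t => g t * (L t - L s))
        (by rw [hu]; exact hgc.mul (hLc.sub continuousOn_const)))).congr fun t _ => by ring
    have i3 : IntervalIntegrable
        (fun t => ∑ j, g t * ((e j t - e j s) * (e j t - e j s))) volume a b := by
      rw [show (fun t => ∑ j, g t * ((e j t - e j s) * (e j t - e j s)))
        = ∑ j, (fun t => g t * ((e j t - e j s) * (e j t - e j s))) from (Finset.sum_fn _ _).symm]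
      exact IntervalIntegrable.sum _ fun j _ => i1 j
    rw [← intervalIntegral.integral_finsetSum fun j _ => i1 j, ← intervalIntegral.integral_const_mul]
    refine intervalIntegral.integral_mono_on hab.le i3 (i2.const_mul _) fun t ht => ?_
    rw [← Finset.mul_sum, mul_left_comm]
    exact mul_le_mul_of_nonneg_left (hsym s hs t ht) (hg.nonneg t)
  rw [intervalIntegral.integral_finsetSum fun j _ => (pairs_identity hgi (ie j) (ie j) (iee j)).1,
    Finset.sum_congr rfl fun j _ => (pairs_identity hgi (ie j) (ie j) (iee j)).2, hR,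
    ← Finset.mul_sum] at main
  have hpb := mul_le_mul_of_nonneg_left (hk.pair_bound hg ha hab hb)
    (show (0 : ℝ) ≤ 2 - ρ by linarith)
  simp only [sq]
  simp only [hL, hP, sq] at main hpb ⊢
  linarith

theorem integrableOn (hk : LossWeight kap dkap A A₁ A₂ A₃) (hg : Marg g T) :
    IntegrableOn (fun t => g t * (tailRatio g T t * (2 * kap (tailL g T t) - dkap (tailL g T t))
      - kap (tailL g T t) * tailRatio g T t ^ 2)) (Ioc 0 T) := by
  obtain ⟨C, hC⟩ := hk.bound
  have hC0 : 0 ≤ C := (abs_nonneg _).trans (hC 1 one_pos).2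
  have hres : volume.restrict (Ioc (0 : ℝ) T) = volume.restrict (Ioo 0 T) :=
    Measure.restrict_congr_set Ioo_ae_eq_Ioc.symm
  have mg : AEMeasurable g (volume.restrict (Ioc 0 T)) := hg.meas.aemeasurable
  have mρ : AEMeasurable (tailRatio g T) (volume.restrict (Ioc 0 T)) := by
    rw [hres]
    exact ((ContinuousOn.aemeasurable
      (fun x hx => (hg.hasDeriv_tail hx).continuousAt.continuousWithinAt) measurableSet_Ioo).mul
        (aemeasurable_restrict_of_monotoneOn measurableSet_Ioo hg.slopeW_mono)).div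
          hg.meas.aemeasurable
  have mk : AEMeasurable (fun t => kap (tailL g T t)) (volume.restrict (Ioc 0 T)) := by
    rw [hres]; exact (comp_tailL hg hk.ckap).aemeasurable measurableSet_Ioo
  have md : AEMeasurable (fun t => dkap (tailL g T t)) (volume.restrict (Ioc 0 T)) := by
    rw [hres]; exact (comp_tailL hg hk.cdkap).aemeasurable measurableSet_Ioo
  refine ((hg.integrableOn_logTail.const_mul (3 * C)).add (hg.integrableOn.const_mul C)).mono'
    (mg.mul ((mρ.mul ((mk.const_mul 2).sub md)).sub (mk.mul (mρ.pow_const 2)))).aestronglyMeasurable ?_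
  rw [hres]
  filter_upwards [ae_restrict_mem measurableSet_Ioo] with t ht
  have h1 := hg.tailRatio_mem ht
  rw [show tailQ g T t * slopeW g t = tailRatio g T t by simp [tailQ, tailRatio]; ring] at h1
  have hl : 0 < tailL g T t := hg.logTail_pos' ht
  obtain ⟨h2, h3⟩ := hC _ hl
  have h4 := hk.kap_nonneg hl
  obtain ⟨h5, h6⟩ := abs_le.1 h3
  simp only [Pi.add_apply]
  rw [norm_mul, Real.norm_of_nonneg (hg.nonneg t),
    show 3 * C * (g t * tailL g T t) + C * g t = g t * (3 * C * tailL g T t + C) by ring]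
  refine mul_le_mul_of_nonneg_left ?_ (hg.nonneg t)
  rw [Real.norm_eq_abs, abs_le]
  have a1 : kap (tailL g T t) * tailRatio g T t ^ 2 ≤ kap (tailL g T t) :=
    mul_le_of_le_one_right h4 (pow_le_one₀ h1.1 h1.2)
  have a2 : 0 ≤ kap (tailL g T t) * tailRatio g T t ^ 2 := mul_nonneg h4 (sq_nonneg _)
  have a3 : |tailRatio g T t * (2 * kap (tailL g T t) - dkap (tailL g T t))|
      ≤ 2 * kap (tailL g T t) + C := by
    rw [abs_mul, abs_of_nonneg h1.1]
    exact (mul_le_of_le_one_left (abs_nonneg _) h1.2).trans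
      (abs_le.2 ⟨by linarith, by linarith⟩)
  obtain ⟨a4, a5⟩ := abs_le.1 a3
  constructor <;> linarith [mul_nonneg hC0 hl.le]

/-- The total variance of the slice means is at most `tailLossK (2 - ρ)`. -/
theorem var_le (hk : LossWeight kap dkap A A₁ A₂ A₃) (hg : Marg g T) (h : GainLoc g T e ρ)
    (hρ0 : 0 ≤ ρ) (hρ1 : ρ ≤ 1)
    (hi1 : ∀ j, IntegrableOn (fun t => g t * e j t) (Ioc 0 T))
    (hi2 : ∀ j, IntegrableOn (fun t => g t * e j t ^ 2) (Ioc 0 T)) :
    ∑ j, ∫ t in Ioc 0 T, g t * (e j t - ∫ s in Ioc 0 T, g s * e j s) ^ 2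
      ≤ tailLossK (2 - ρ) kap dkap g T := by
  have hT := hg.top_pos
  obtain ⟨C, hC⟩ := hk.bound
  set α : ℕ → ℝ := fun k => T / ((k : ℝ) + 3) with hα
  set β : ℕ → ℝ := fun k => T - α k with hβ
  have hα0 : ∀ k, 0 < α k := fun k => div_pos hT (by positivity)
  have hα2 : ∀ k, α k < T / 2 := fun k => div_lt_div_of_pos_left hT two_pos
    (by linarith [(Nat.cast_nonneg k : (0 : ℝ) ≤ k)])
  have hαlim : Tendsto α atTop (𝓝 0) :=
    tendsto_const_nhds.div_atTop (tendsto_natCast_atTop_atTop.atTop_add tendsto_const_nhds)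
  have hβlim : Tendsto β atTop (𝓝 T) := by simpa using hαlim.const_sub T
  have hαm : ∀ k, α k ∈ Icc 0 T := fun k => ⟨(hα0 k).le, by linarith [hα2 k]⟩
  have hβm : ∀ k, β k ∈ Ioo 0 T := fun k => ⟨by linarith [hα2 k], by linarith [hα0 k]⟩
  have hab : ∀ k, α k < β k := fun k => by linarith [hα2 k]
  have lim : ∀ {f : ℝ → ℝ}, IntegrableOn f (Ioc 0 T) →
      Tendsto (fun k => ∫ t in (α k)..(β k), f t) atTop (𝓝 (∫ t in Ioc 0 T, f t)) :=
    fun hf => tendsto_interval hT.le hf hαlim hβlim hαm fun k => Ioo_subset_Icc_self (hβm k)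
  have herr : Tendsto (fun k => tailRatio g T (β k) * tail g T (β k) * kap (tailL g T (β k)))
      atTop (𝓝 0) := by
    have h1 : Tendsto (fun k => C * (tail g T (β k) * tailL g T (β k))) atTop (𝓝 0) := by
      have := (((Real.continuous_negMulLog.tendsto 0).comp (hg.tendsto_tail_top hβlim hβm))).const_mul C
      simp only [Real.negMulLog_zero, mul_zero] at this
      refine this.congr fun k => ?_
      simp [Function.comp_def, Real.negMulLog, tailL]
    refine squeeze_zero (fun k => ?_) (fun k => ?_) h1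
    all_goals
      have hl : 0 < tailL g T (β k) := hg.logTail_pos' (hβm k)
      have hr := hg.tailRatio_mem (hβm k)
      rw [show tailQ g T (β k) * slopeW g (β k) = tailRatio g T (β k) by
        simp [tailQ, tailRatio]; ring] at hr
      have hG := hg.tail_pos (hβm k)
      have hk0 := hk.kap_nonneg hl
    · exact mul_nonneg (mul_nonneg hr.1 hG.le) hk0
    · calc tailRatio g T (β k) * tail g T (β k) * kap (tailL g T (β k))
          ≤ 1 * tail g T (β k) * (C * tailL g T (β k)) :=
            mul_le_mul (mul_le_mul_of_nonneg_right hr.2 hG.le) (hC _ hl).1 hk0 (by positivity)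
        _ = _ := by ring
  have hR := ((lim hg.integrableOn).mul ((lim (hk.integrableOn hg)).add herr)).const_mul (2 - ρ)
  have hLHS := tendsto_finsetSum Finset.univ fun j (_ : j ∈ Finset.univ) =>
    ((lim hg.integrableOn).mul (lim (hi2 j))).sub ((lim (hi1 j)).pow 2)
  have main := le_of_tendsto_of_tendsto' hLHS hR fun k =>
    hk.interval_var_le hg h hρ0 hρ1 (hα0 k) (hab k) (hβm k).2
  simp only [hg.mass, one_mul, add_zero] at main
  refine le_trans (le_of_eq (Finset.sum_congr rfl fun j _ => ?_)) main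
  set μ := ∫ s in Ioc 0 T, g s * e j s with hμ
  have e1 : (fun t => g t * (e j t - μ) ^ 2)
      = fun t => g t * e j t ^ 2 - 2 * μ * (g t * e j t) + μ ^ 2 * g t := by funext t; ring
  have a1 : Integrable (fun t => g t * e j t ^ 2 - 2 * μ * (g t * e j t))
      (volume.restrict (Ioc 0 T)) := (hi2 j).sub ((hi1 j).const_mul _)
  rw [e1, integral_add a1 (hg.integrableOn.const_mul _),
    integral_sub (hi2 j) ((hi1 j).const_mul _), integral_const_mul, integral_const_mul, hg.mass]
  ring

/-- The loss for bodies of dimension at most `N`, with `r = 2 - 2 / N`. -/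
theorem bodyLoss (hk : LossWeight kap dkap A A₁ A₂ A₃) {N : ℕ} (hN : 2 ≤ N) :
    BodyLoss N (tailLossK (2 - 2 / (N : ℝ)) kap dkap) := by
  intro m hm K h i
  have hN' : (2 : ℝ) ≤ N := by exact_mod_cast hN
  have hρ1 : 2 / (N : ℝ) ≤ 1 := by rw [div_le_one (by linarith)]; exact hN'
  have hmN : 2 / (N : ℝ) ≤ 2 / ((m : ℝ) + 1) :=
    div_le_div_of_nonneg_left zero_le_two (by positivity) (by exact_mod_cast hm)
  have hc : Continuous fun ρ : ℝ => tailLossK (2 - ρ) kap dkap (margin K i) (top K i) := by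
    unfold tailLossK; fun_prop
  refine ge_of_tendsto ((hc.tendsto _).mono_left nhdsWithin_le_nhds :
    Tendsto _ (𝓝[<] (2 / (N : ℝ))) _) ?_
  filter_upwards [Ioo_mem_nhdsLT (show (0 : ℝ) < 2 / N by positivity)] with ρ hρ
  exact hk.var_le (marg_margin h i) (gainLoc_slices h i (hρ.2.trans_le hmN))
    hρ.1.le (hρ.2.le.trans hρ1) (integrableOn_margin_mul_slMean h i)
    (integrableOn_margin_mul_slMean_sq h i)

end LossWeight

end

end Vale.P254.E
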