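import Mathlib
import Vale.Agent.P254.E.LossKap
import Vale.Agent.P254.E.CertBase

/-!
Calibration against the loss with a general Picone weight.
-/

namespace Vale.P254.E

open MeasureTheory Set Filter Topology

/-- A calibration `U` for the loss with the weight `kap`. -/
structure CalibK (φ φ₁ kap dkap : ℝ → ℝ) (r a lam U₀ : ℝ) (U Ul Uw : ℝ → ℝ → ℝ) : Prop where
  pic : KapData φ φ₁
  lam_nonneg : 0 ≤ lam
  deriv : ∀ l w, 0 < l → 0 < w → w ≤ 1 → HasFDerivAt (fun p : ℝ × ℝ => U p.1 p.2)
    (Ul l w • ContinuousLinearMap.fst ℝ ℝ ℝ + Uw l w • ContinuousLinearMap.snd ℝ ℝ ℝ) (l, w)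
  start : Tendsto (fun p : ℝ × ℝ => U p.1 p.2) (𝓝[certRegion] (0, 1)) (𝓝 U₀)
  growth : ∃ (C : ℝ) (k : ℕ), ∀ l w, 1 ≤ l → 0 < w → w ≤ 1 → |U l w| ≤ C * (1 + l ^ k)
  pointwise : ∀ l w q, 0 < l → 0 < w → w ≤ 1 → 1 - l / 2 ≤ w → 0 ≤ q → q ≤ 1 →
    0 ≤ (1 - w) / l - q + r * a * (kap l * q ^ 2 - dkap l * q) - lam * kapOf φ φ₁ l * (w / l) ^ 2
      - U l w + Ul l w + Uw l w * (w * ((1 - w) / l - q))

variable {g φ φ₁ kap dkap A A₁ A₂ A₃ : ℝ → ℝ} {T r a lam U₀ : ℝ} {U Ul Uw : ℝ → ℝ → ℝ}

theorem CalibK.interval (hc : CalibK φ φ₁ kap dkap r a lam U₀ U Ul Uw)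
    (hkc : ContinuousOn kap (Ioi 0)) (hdc : ContinuousOn dkap (Ioi 0)) (hg : Marg g T) {α β : ℝ} (hα : 0 < α)
    (hab : α ≤ β) (hβ : β < T) :
    calibEnd g T U α - calibEnd g T U β
      ≤ (∫ t in α..β, g t * Real.log (tailW g T t))
        + (tail g T β * Real.log (tailW g T β) - tail g T α * Real.log (tailW g T α))
        + r * a * (∫ t in α..β, g t * (kap (tailL g T t) * tailC g T t ^ 2 - dkap (tailL g T t) * tailC g T t))
        - lam * ((∫ t in α..β, g t * (Real.log t - mLog g T) ^ 2)
            + piconeEnd φ g T β - piconeEnd φ g T α) := by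
  have hsub := Marg.subset_Ioo (T := T) hα hβ
  have hu : uIcc α β = Icc α β := uIcc_of_le hab
  have hgc := hg.continuousOn.mono hsub
  have hLc : ContinuousOn (tailL g T) (Icc α β) := hg.continuousOn_logTail.mono hsub
  have hwc := hg.continuousOn_tailW.mono hsub
  have hGc : ContinuousOn (tail g T) (Icc α β) :=
    fun t ht => (hg.hasDeriv_tail (hsub ht)).continuousAt.continuousWithinAt
  have hlw : ContinuousOn (fun t => Real.log (tailW g T t)) (Icc α β) :=
    hwc.log fun t ht => (hg.tailW_pos (hsub ht)).ne'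
  set A : ℝ → ℝ := fun t => g t * ((1 - tailW g T t) / tailL g T t - tailC g T t) with hA
  have hq := hg.intervalIntegrable_tailC hα hab hβ
  have hA' : IntervalIntegrable A volume α β :=
    ((((continuousOn_const.sub hwc).div hLc fun t ht => (hg.logTail_pos' (hsub ht)).ne').intervalIntegrable_of_Icc
      hab).sub hq).continuousOn_mul (by rwa [hu])
  have hwl : IntervalIntegrable (fun t => g t * Real.log (tailW g T t)) volume α β :=
    (hgc.mul hlw).intervalIntegrable_of_Icc hab
  have e1 : ∫ t in α..β, A t = (∫ t in α..β, g t * Real.log (tailW g T t))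
      + (tail g T β * Real.log (tailW g T β) - tail g T α * Real.log (tailW g T α)) := by
    have := intervalIntegral.integral_eq_sub_of_hasDeriv_right_of_le hab
      (f := fun t => tail g T t * Real.log (tailW g T t))
      (f' := fun t => A t - g t * Real.log (tailW g T t)) (hGc.mul hlw) (fun t ht => ?_)
      (hA'.sub hwl)
    · rw [intervalIntegral.integral_sub hA' hwl] at this
      linarith
    have hm := hsub (Ioo_subset_Icc_self ht)
    refine ((hg.hasDeriv_tail hm).hasDerivWithinAt.mul
      ((hg.hasDeriv_tailW hm).log (hg.tailW_pos hm).ne')).congr_deriv ?_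
    have := (hg.tail_pos hm).ne'
    have := (hg.tailW_pos hm).ne'
    simp only [hA]
    field_simp
    ring
  set B : ℝ → ℝ := fun t => g t * (kap (tailL g T t) * tailC g T t ^ 2 - dkap (tailL g T t) * tailC g T t) with hB
  have hB' : IntervalIntegrable B volume α β :=
    (((hg.intervalIntegrable_tailC_sq hα hab hβ).continuousOn_mul
        (by rw [hu]; exact (LossWeight.comp_tailL hg hkc).mono hsub)).sub
      (hq.continuousOn_mul
        (by rw [hu]; exact (LossWeight.comp_tailL hg hdc).mono hsub))).continuousOn_mul (by rwa [hu])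
  have hk' : IntervalIntegrable (kapW φ φ₁ g T) volume α β :=
    ((hc.pic.continuousOn_kapW hg).mono hsub).intervalIntegrable_of_Icc hab
  have hint := (hA'.add (hB'.const_mul (r * a))).sub (hk'.const_mul lam)
  have main : calibEnd g T U α - calibEnd g T U β
      ≤ ∫ t in α..β, (A t + r * a * B t - lam * kapW φ φ₁ g T t) := by
    have hcont : ContinuousOn (fun t => -calibEnd g T U t) (Icc α β) := by
      refine (hGc.mul fun t ht => ?_).neg
      exact ((hc.deriv _ _ (hg.logTail_pos' (hsub ht)) (hg.tailW_pos (hsub ht))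
        (hg.tailW_le_one (hsub ht))).continuousAt).comp_continuousWithinAt
          (f := fun t => (tailL g T t, tailW g T t)) ((hLc t ht).prodMk (hwc t ht))
    refine le_trans (le_of_eq ?_) (intervalIntegral.sub_le_integral_of_hasDeriv_right_of_le hab
      hcont (g' := fun t => g t * (U (tailL g T t) (tailW g T t) - Ul (tailL g T t) (tailW g T t)
        - Uw (tailL g T t) (tailW g T t) * (tailW g T t * ((1 - tailW g T t) / tailL g T t
          - tailC g T t)))) (fun t ht => ?_)
      ((intervalIntegrable_iff_integrableOn_Icc_of_le hab).1 hint) fun t ht => ?_)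
    · ring
    · have hm := hsub (Ioo_subset_Icc_self ht)
      have hU := (hc.deriv (tailL g T t) (tailW g T t) (hg.logTail_pos' hm) (hg.tailW_pos hm)
        (hg.tailW_le_one hm)).comp_hasDerivWithinAt t
          ((hg.hasDeriv_tailL hm).hasDerivWithinAt.prodMk (hg.hasDeriv_tailW hm))
      refine ((hg.hasDeriv_tail hm).hasDerivWithinAt.mul hU).neg.congr_deriv ?_
      have := (hg.tail_pos hm).ne'
      simp
      field_simp
      ring
    · have hm := hsub (Ioo_subset_Icc_self ht)
      have hw := hg.tailW_ge hm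
      have hC := hg.tailC_mem hm
      have hp := mul_nonneg (hg.nonneg t) (hc.pointwise _ _ _ (hg.logTail_pos' hm) (hg.tailW_pos hm)
        (hg.tailW_le_one hm) hw.2 hC.1 hC.2)
      have e2 : kapW φ φ₁ g T t
          = g t * (kapOf φ φ₁ (tailL g T t) * (tailW g T t / tailL g T t) ^ 2) := by
        have hL : tailL g T t ≠ 0 := (hg.logTail_pos' hm).ne'
        rw [tailW, show tailL g T t * tailQ g T t / t / tailL g T t = tailQ g T t / t by field_simp]
        rfl
      simp only [tailL] at e2 hp ⊢
      simp only [hA, hB, e2, tailL]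
      linarith
  rw [intervalIntegral.integral_sub (hA'.add (hB'.const_mul _)) (hk'.const_mul _),
    intervalIntegral.integral_add hA' (hB'.const_mul _), intervalIntegral.integral_const_mul,
    intervalIntegral.integral_const_mul, e1] at main
  have := mul_le_mul_of_nonneg_left (hc.pic.picone_interval hg hα hab hβ) hc.lam_nonneg
  linarith

theorem LossWeight.tailLossK_eq (hk : LossWeight kap dkap A A₁ A₂ A₃) (hg : Marg g T) (r : ℝ) :
    IntegrableOn (fun t => g t * (kap (tailL g T t) * tailC g T t ^ 2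
        - dkap (tailL g T t) * tailC g T t)) (Ioc 0 T) ∧
      tailLossK r kap dkap g T = -(r * ∫ t in Ioc 0 T, g t *
        (kap (tailL g T t) * tailC g T t ^ 2 - dkap (tailL g T t) * tailC g T t)) := by
  obtain ⟨C, hC⟩ := hk.bound
  have hC0 : 0 ≤ C := (abs_nonneg _).trans (hC 1 one_pos).2
  have hres : volume.restrict (Ioc (0 : ℝ) T) = volume.restrict (Ioo 0 T) :=
    Measure.restrict_congr_set Ioo_ae_eq_Ioc.symm
  have mg : AEMeasurable g (volume.restrict (Ioc 0 T)) := hg.meas.aemeasurable
  have mk : AEMeasurable (fun t => kap (tailL g T t)) (volume.restrict (Ioc 0 T)) := by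
    rw [hres]; exact (LossWeight.comp_tailL hg hk.ckap).aemeasurable measurableSet_Ioo
  have md : AEMeasurable (fun t => dkap (tailL g T t)) (volume.restrict (Ioc 0 T)) := by
    rw [hres]; exact (LossWeight.comp_tailL hg hk.cdkap).aemeasurable measurableSet_Ioo
  set P : ℝ → ℝ := fun t => g t * (kap (tailL g T t) - dkap (tailL g T t)) with hP
  have hPi : IntegrableOn P (Ioc 0 T) := by
    refine ((hg.integrableOn_logTail.const_mul C).add (hg.integrableOn.const_mul C)).mono'
      (mg.mul (mk.sub md)).aestronglyMeasurable ?_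
    rw [hres]
    filter_upwards [ae_restrict_mem measurableSet_Ioo] with t ht
    have hl : 0 < tailL g T t := hg.logTail_pos' ht
    obtain ⟨h2, h3⟩ := hC _ hl
    obtain ⟨h5, h6⟩ := abs_le.1 h3
    have h4 := hk.kap_nonneg hl
    simp only [Pi.add_apply, hP]
    rw [norm_mul, Real.norm_of_nonneg (hg.nonneg t),
      show C * (g t * tailL g T t) + C * g t = g t * (C * tailL g T t + C) by ring]
    refine mul_le_mul_of_nonneg_left ?_ (hg.nonneg t)
    rw [Real.norm_eq_abs, abs_le]
    constructor <;> linarith [mul_nonneg hC0 hl.le]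
  have hzero : ∫ t in Ioc 0 T, P t = 0 := by
    have hT := hg.top_pos
    set α : ℕ → ℝ := fun k => T / ((k : ℝ) + 3) with hαdef
    have hα0 : ∀ k, 0 < α k := fun k => div_pos hT (by positivity)
    have hα2 : ∀ k, α k < T / 2 := fun k => div_lt_div_of_pos_left hT two_pos
      (by linarith [(Nat.cast_nonneg k : (0 : ℝ) ≤ k)])
    have hα : Tendsto α atTop (𝓝 0) :=
      tendsto_const_nhds.div_atTop (tendsto_natCast_atTop_atTop.atTop_add tendsto_const_nhds)
    set β : ℕ → ℝ := fun k => T - α k with hβdef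
    have hβ : Tendsto β atTop (𝓝 T) := by simpa using hα.const_sub T
    have hαm : ∀ k, α k ∈ Ioo 0 T := fun k => ⟨hα0 k, by linarith [hα2 k]⟩
    have hβm : ∀ k, β k ∈ Ioo 0 T := fun k => ⟨by linarith [hα2 k], by linarith [hα0 k]⟩
    set Q : ℝ → ℝ := fun t => tail g T t * kap (tailL g T t) with hQ
    have hQ0 : ∀ γ : ℕ → ℝ, (∀ k, γ k ∈ Ioo 0 T) →
        Tendsto (fun k => tail g T (γ k) * tailL g T (γ k)) atTop (𝓝 0) →
        Tendsto (fun k => Q (γ k)) atTop (𝓝 0) := fun γ hγ hlim => by
      refine squeeze_zero (fun k => ?_) (fun k => ?_) (by simpa using hlim.const_mul C)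
      · exact mul_nonneg (hg.tail_pos (hγ k)).le (hk.kap_nonneg (hg.logTail_pos' (hγ k)))
      · calc tail g T (γ k) * kap (tailL g T (γ k))
            ≤ tail g T (γ k) * (C * tailL g T (γ k)) :=
              mul_le_mul_of_nonneg_left (hC (tailL g T (γ k)) (hg.logTail_pos' (hγ k))).1
                (hg.tail_pos (hγ k)).le
          _ = _ := by ring
    have ha := hQ0 α hαm (by simpa using (hg.tendsto_tail_bot hα hαm).mul (hg.tendsto_tailL_bot hα hαm))
    have hb := hQ0 β hβm (by
      have := (Real.continuous_negMulLog.tendsto 0).comp (hg.tendsto_tail_top hβ hβm)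
      simp only [Real.negMulLog_zero] at this
      refine this.congr fun k => ?_
      simp [Function.comp_def, Real.negMulLog, tailL])
    refine tendsto_nhds_unique (tendsto_interval hT.le hPi hα hβ
      (fun k => Ioo_subset_Icc_self (hαm k)) fun k => Ioo_subset_Icc_self (hβm k)) ?_
    have := ha.sub hb
    rw [sub_zero] at this
    refine this.congr fun k => ?_
    have hab : α k ≤ β k := by linarith [hα2 k]
    have hsub := Marg.subset_Ioo (T := T) (hα0 k) (hβm k).2
    have hd : ∀ x ∈ uIcc (α k) (β k), HasDerivAt (fun y => -Q y) (P x) x := fun x hx => by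
      rw [uIcc_of_le hab] at hx
      have hm := hsub hx
      refine (((hg.hasDeriv_tail hm).mul ((hk.dkap_eq (tailL g T x) (hg.logTail_pos' hm)).comp x
        (hg.hasDeriv_tailL hm))).neg).congr_deriv ?_
      have := (hg.tail_pos hm).ne'
      simp only [hP, Function.comp_def]
      field_simp
      ring
    have hc : ContinuousOn P (Icc (α k) (β k)) :=
      (hg.continuousOn.mul ((LossWeight.comp_tailL hg hk.ckap).sub
        (LossWeight.comp_tailL hg hk.cdkap))).mono hsub
    rw [intervalIntegral.integral_eq_sub_of_hasDerivAt hd (hc.intervalIntegrable_of_Icc hab)]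
    ring
  have hK := hk.integrableOn hg
  have e : (fun t => g t * (kap (tailL g T t) * tailC g T t ^ 2
      - dkap (tailL g T t) * tailC g T t)) = fun t => P t - g t *
        (tailRatio g T t * (2 * kap (tailL g T t) - dkap (tailL g T t))
          - kap (tailL g T t) * tailRatio g T t ^ 2) := by
    funext t
    rw [Marg.tailC_eq]
    simp only [hP]
    ring
  refine ⟨by rw [e]; exact hPi.sub hK, ?_⟩
  rw [e, integral_sub hPi hK, hzero]
  simp only [tailLossK]
  ring

/-- **Calibration.** -/
theorem cert_lower_kap (hk : LossWeight kap dkap A A₁ A₂ A₃)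
    (hc : CalibK φ φ₁ kap dkap r a lam U₀ U Ul Uw) (hg : Marg g T) :
    lam + Real.eulerMascheroniConstant + U₀
      ≤ mEnt g T - 1 - mLog g T - a * tailLossK r kap dkap g T - lam * mS g T := by
  have hT := hg.top_pos
  set α : ℕ → ℝ := fun k => T / ((k : ℝ) + 3) with hαdef
  have hα0 : ∀ k, 0 < α k := fun k => div_pos hT (by positivity)
  have hα2 : ∀ k, α k < T / 2 := fun k => div_lt_div_of_pos_left hT two_pos
    (by linarith [(Nat.cast_nonneg k : (0 : ℝ) ≤ k)])
  have hα : Tendsto α atTop (𝓝 0) :=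
    tendsto_const_nhds.div_atTop (tendsto_natCast_atTop_atTop.atTop_add tendsto_const_nhds)
  set β : ℕ → ℝ := fun k => T - α k with hβdef
  have hβ : Tendsto β atTop (𝓝 T) := by simpa using hα.const_sub T
  have hαm : ∀ k, α k ∈ Ioo 0 T := fun k => ⟨hα0 k, by linarith [hα2 k]⟩
  have hβm : ∀ k, β k ∈ Ioo 0 T := fun k => ⟨by linarith [hα2 k], by linarith [hα0 k]⟩
  have hab : ∀ k, α k ≤ β k := fun k => by linarith [hα2 k]
  have lim : ∀ {f : ℝ → ℝ}, IntegrableOn f (Ioc 0 T) →
      Tendsto (fun k => ∫ t in (α k)..(β k), f t) atTop (𝓝 (∫ t in Ioc 0 T, f t)) :=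
    fun hf => tendsto_interval hT.le hf hα hβ (fun k => Ioo_subset_Icc_self (hαm k))
      fun k => Ioo_subset_Icc_self (hβm k)
  have hGa := hg.tendsto_tail_bot hα hαm
  have hGb := hg.tendsto_tail_top hβ hβm
  have hLa := hg.tendsto_tailL_bot hα hαm
  have hLb := hg.tendsto_tailL_top hβ hβm
  have hwa : Tendsto (fun k => tailW g T (α k)) atTop (𝓝 1) :=
    tendsto_of_tendsto_of_tendsto_of_le_of_le (by simpa using (hLa.div_const 2).const_sub 1)
      tendsto_const_nhds (fun k => (hg.tailW_ge (hαm k)).2) fun k => hg.tailW_le_one (hαm k)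
  have hpow : ∀ j : ℕ, Tendsto (fun k => tail g T (β k) * tailL g T (β k) ^ j) atTop (𝓝 0) :=
    fun j => by
      refine ((Real.tendsto_pow_mul_exp_neg_atTop_nhds_zero j).comp hLb).congr fun k => ?_
      simp only [Function.comp_def, tailL, neg_neg, Real.exp_log (hg.tail_pos (hβm k))]
      ring
  have hlogA : Tendsto (fun k => tail g T (α k) * Real.log (tailW g T (α k))) atTop (𝓝 0) := by
    simpa using hGa.mul (hwa.log one_ne_zero)
  have hlogB : Tendsto (fun k => tail g T (β k) * Real.log (tailW g T (β k))) atTop (𝓝 0) := by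
    have h0 : Tendsto (fun k => tail g T (β k) * tailL g T (β k) ^ 1) atTop (𝓝 0) := hpow 1
    refine squeeze_zero_norm' (a := fun k => tail g T (β k) * tailL g T (β k) ^ 1) ?_ h0
    filter_upwards [hLb.eventually (eventually_ge_atTop 1)] with k hk
    have hG := hg.tail_pos (hβm k)
    have hw := hg.tailW_pos (hβm k)
    have hw1 := hg.tailW_le_one (hβm k)
    have h1 : tail g T (β k) ≤ tailW g T (β k) := by
      have hG1 : tail g T (β k) < 1 := by
        have h := hg.mul_le_one_sub_tail (hβm k)
        have : 0 < β k * g (β k) := mul_pos (hβm k).1 (hg.pos _ ⟨(hβm k).1.le, (hβm k).2⟩)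
        linarith
      refine le_trans ?_ (hg.tailW_ge (hβm k)).1
      rw [le_div_iff₀ (by linarith)]
      exact mul_le_mul_of_nonneg_left (by linarith) hG.le
    rw [pow_one, norm_mul, Real.norm_of_nonneg hG.le, Real.norm_of_nonpos (Real.log_nonpos hw.le hw1)]
    refine mul_le_mul_of_nonneg_left ?_ hG.le
    simp only [tailL]
    linarith [Real.log_le_log hG h1]
  have hUA : Tendsto (fun k => calibEnd g T U (α k)) atTop (𝓝 U₀) := by
    have := hc.start.comp (tendsto_nhdsWithin_iff.2 ⟨hLa.prodMk_nhds hwa, Eventually.of_forall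
      fun k => ⟨hg.logTail_pos' (hαm k), hg.tailW_pos (hαm k), hg.tailW_le_one (hαm k)⟩⟩)
    simpa [calibEnd, Function.comp_def] using hGa.mul this
  have hUB : Tendsto (fun k => calibEnd g T U (β k)) atTop (𝓝 0) := by
    obtain ⟨C, j, hC⟩ := hc.growth
    refine squeeze_zero_norm' (a := fun k => C * (tail g T (β k) + tail g T (β k)
      * tailL g T (β k) ^ j)) ?_ (by simpa using (hGb.add (hpow j)).const_mul C)
    filter_upwards [hLb.eventually (eventually_ge_atTop 1)] with k hk
    have hG := hg.tail_pos (hβm k)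
    rw [calibEnd, norm_mul, Real.norm_of_nonneg hG.le, Real.norm_eq_abs,
      show C * (tail g T (β k) + tail g T (β k) * tailL g T (β k) ^ j)
        = tail g T (β k) * (C * (1 + tailL g T (β k) ^ j)) by ring]
    exact mul_le_mul_of_nonneg_left
      (hC _ _ hk (hg.tailW_pos (hβm k)) (hg.tailW_le_one (hβm k))) hG.le
  obtain ⟨hB, hloss⟩ := hk.tailLossK_eq hg r
  have hend := hc.pic.tendsto_end hg hα hβ (fun k => ⟨hα0 k, hα2 k⟩)
    (fun k => ⟨by linarith [hα2 k], (hβm k).2⟩)
  have hW : Tendsto (fun k => ∫ t in (α k)..(β k), g t * Real.log (tailW g T t)) atTop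
      (𝓝 (-Real.eulerMascheroniConstant - 1 - (∫ t in Ioc 0 T, g t * Real.log (g t))
        - ∫ t in Ioc 0 T, g t * Real.log t)) :=
    ((((hg.tendsto_integral_log_tailL hα hβ hαm hβm hab).sub
      (hg.tendsto_integral_logTail hα hβ hαm hβm hab)).sub (lim hg.integrableOn_mul_log_self)).sub
      (lim hg.integrableOn_log)).congr fun k =>
        (hg.integral_log_tailW (hα0 k) (hab k) (hβm k).2).symm
  have main := le_of_tendsto_of_tendsto' (hUA.sub hUB)
    (((hW.add (hlogB.sub hlogA)).add ((lim hB).const_mul (r * a))).sub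
      (((lim hg.integrableOn_dev_sq).add hend).const_mul lam)) fun k => by
      have := hc.interval hk.ckap hk.cdkap hg (hα0 k) (hab k) (hβm k).2
      simp only [add_sub_assoc] at this ⊢
      linarith
  rw [← hg.mS_add_one] at main
  rw [hloss]
  simp only [mEnt, mLog] at main ⊢
  linarith

end Vale.P254.E
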