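import Mathlib

/-! Sign-crossing comparison of second moments given mass, `E log` and `E log ^ 2`. -/

namespace Vale.P254.E

open MeasureTheory Set Real

theorem nonpos_aux {p w : ℝ} (h : 0 ≤ p * w) (hw : w < 0) : p ≤ 0 := by nlinarith

theorem nonneg_aux {p w : ℝ} (h : 0 ≤ p * w) (hw : 0 < w) : 0 ≤ p := by nlinarith

/-- The error of quadratic interpolation of `exp (2 v)` has the sign of the node product. -/
theorem exp_interp {l₁ l₂ l₃ α β γ : ℝ} (h12 : l₁ < l₂) (h23 : l₂ < l₃)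
    (e₁ : exp (2 * l₁) + α + β * l₁ + γ * l₁ ^ 2 = 0)
    (e₂ : exp (2 * l₂) + α + β * l₂ + γ * l₂ ^ 2 = 0)
    (e₃ : exp (2 * l₃) + α + β * l₃ + γ * l₃ ^ 2 = 0) (v : ℝ) :
    0 ≤ (exp (2 * v) + α + β * v + γ * v ^ 2) * ((v - l₁) * (v - l₂) * (v - l₃)) := by
  by_cases hw : (v - l₁) * (v - l₂) * (v - l₃) = 0
  · rw [hw, mul_zero]
  set k := (exp (2 * v) + α + β * v + γ * v ^ 2) / ((v - l₁) * (v - l₂) * (v - l₃)) with hk
  -- the error minus `k` times the node product vanishes at four points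
  let f0 : ℝ → ℝ := fun x =>
    exp (2 * x) + α + β * x + γ * x ^ 2 - k * ((x - l₁) * (x - l₂) * (x - l₃))
  let f1 : ℝ → ℝ := fun x =>
    2 * exp (2 * x) + β + 2 * γ * x
      - k * ((x - l₂) * (x - l₃) + (x - l₁) * (x - l₃) + (x - l₁) * (x - l₂))
  let f2 : ℝ → ℝ := fun x => 4 * exp (2 * x) + 2 * γ - k * (6 * x - 2 * (l₁ + l₂ + l₃))
  let f3 : ℝ → ℝ := fun x => 8 * exp (2 * x) - 6 * k
  have hl : ∀ x : ℝ, HasDerivAt (fun x => exp (2 * x)) (2 * exp (2 * x)) x := fun x => by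
    simpa [mul_comm] using ((hasDerivAt_id x).const_mul 2).exp
  have hs : ∀ c x : ℝ, HasDerivAt (fun x : ℝ => x - c) 1 x := fun c x => by
    simpa using (hasDerivAt_id x).sub_const c
  have d0 : ∀ x, HasDerivAt f0 (f1 x) x := fun x => by
    have := ((((hl x).add_const α).add ((hasDerivAt_id x).const_mul β)).add
      (((hasDerivAt_id x).pow 2).const_mul γ)).sub
      ((((hs l₁ x).mul (hs l₂ x)).mul (hs l₃ x)).const_mul k)
    simp only [id] at this
    refine (this.congr_of_eventuallyEq (Filter.Eventually.of_forall fun y => ?_)).congr_deriv ?_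
    · simp [f0]
    · simp [f1]; ring
  have d1 : ∀ x, HasDerivAt f1 (f2 x) x := fun x => by
    have := ((((hl x).const_mul 2).add_const β).add ((hasDerivAt_id x).const_mul (2 * γ))).sub
      (((((hs l₂ x).mul (hs l₃ x)).add ((hs l₁ x).mul (hs l₃ x))).add
        ((hs l₁ x).mul (hs l₂ x))).const_mul k)
    simp only [id] at this
    refine (this.congr_of_eventuallyEq (Filter.Eventually.of_forall fun y => ?_)).congr_deriv ?_
    · simp [f1]
    · simp [f2]; ring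
  have d2 : ∀ x, HasDerivAt f2 (f3 x) x := fun x => by
    have := (((hl x).const_mul 4).add_const (2 * γ)).sub
      ((((hasDerivAt_id x).const_mul 6).sub_const (2 * (l₁ + l₂ + l₃))).const_mul k)
    simp only [id] at this
    refine (this.congr_of_eventuallyEq (Filter.Eventually.of_forall fun y => ?_)).congr_deriv ?_
    · simp [f2]
    · simp [f3]; ring
  have rolle : ∀ {f f' : ℝ → ℝ}, (∀ x, HasDerivAt f (f' x) x) → ∀ {a b : ℝ}, a < b →
      f a = 0 → f b = 0 → ∃ c ∈ Ioo a b, f' c = 0 := by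
    intro f f' hf a b hab ha hb
    exact exists_hasDerivAt_eq_zero hab
      (fun x _ => (hf x).continuousAt.continuousWithinAt) (by rw [ha, hb]) (fun x _ => hf x)
  have z1 : f0 l₁ = 0 := by simp [f0, e₁]
  have z2 : f0 l₂ = 0 := by simp [f0, e₂]
  have z3 : f0 l₃ = 0 := by simp [f0, e₃]
  have zv : f0 v = 0 := by
    simp only [f0, hk]; rw [div_mul_cancel₀ _ hw, sub_self]
  have n1 : v ≠ l₁ := fun h => hw (by simp [h])
  have n2 : v ≠ l₂ := fun h => hw (by simp [h])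
  have n3 : v ≠ l₃ := fun h => hw (by simp [h])
  obtain ⟨p, q, r, s, hpq, hqr, hrs, zp, zq, zr, zs⟩ : ∃ p q r s : ℝ, p < q ∧ q < r ∧ r < s ∧
      f0 p = 0 ∧ f0 q = 0 ∧ f0 r = 0 ∧ f0 s = 0 := by
    rcases lt_or_gt_of_ne n1 with h | h
    · exact ⟨v, l₁, l₂, l₃, h, h12, h23, zv, z1, z2, z3⟩
    rcases lt_or_gt_of_ne n2 with h' | h'
    · exact ⟨l₁, v, l₂, l₃, h, h', h23, z1, zv, z2, z3⟩
    rcases lt_or_gt_of_ne n3 with h'' | h''
    · exact ⟨l₁, l₂, v, l₃, h12, h', h'', z1, z2, zv, z3⟩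
    · exact ⟨l₁, l₂, l₃, v, h12, h23, h'', z1, z2, z3, zv⟩
  obtain ⟨c₁, hc₁, u1⟩ := rolle d0 hpq zp zq
  obtain ⟨c₂, hc₂, u2⟩ := rolle d0 hqr zq zr
  obtain ⟨c₃, hc₃, u3⟩ := rolle d0 hrs zr zs
  obtain ⟨b₁, hb₁, w1⟩ := rolle d1 (hc₁.2.trans hc₂.1) u1 u2
  obtain ⟨b₂, hb₂, w2⟩ := rolle d1 (hc₂.2.trans hc₃.1) u2 u3
  obtain ⟨c, -, hc⟩ := rolle d2 (hb₁.2.trans hb₂.1) w1 w2
  have kpos : 0 < k := by
    have := exp_pos (2 * c)
    simp only [f3] at hc; linarith
  have : exp (2 * v) + α + β * v + γ * v ^ 2 = k * ((v - l₁) * (v - l₂) * (v - l₃)) := by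
    rw [hk, div_mul_cancel₀ _ hw]
  rw [this, mul_assoc]
  exact mul_nonneg kpos.le (mul_self_nonneg _)

/-- Through three nodes there is such an interpolation. -/
theorem exists_interp {l₁ l₂ l₃ : ℝ} (h12 : l₁ < l₂) (h23 : l₂ < l₃) (y₁ y₂ y₃ : ℝ) :
    ∃ α β γ : ℝ, y₁ + α + β * l₁ + γ * l₁ ^ 2 = 0 ∧ y₂ + α + β * l₂ + γ * l₂ ^ 2 = 0 ∧
      y₃ + α + β * l₃ + γ * l₃ ^ 2 = 0 := by
  set g := -((y₃ - y₂) / (l₃ - l₂) - (y₂ - y₁) / (l₂ - l₁)) / (l₃ - l₁) with hg
  set b := -(y₂ - y₁) / (l₂ - l₁) - g * (l₁ + l₂) with hb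
  have a : l₂ - l₁ ≠ 0 := sub_ne_zero.mpr h12.ne'
  have c : l₃ - l₂ ≠ 0 := sub_ne_zero.mpr h23.ne'
  have d : l₃ - l₁ ≠ 0 := sub_ne_zero.mpr (h12.trans h23).ne'
  refine ⟨-y₁ - b * l₁ - g * l₁ ^ 2, b, g, by ring, ?_, ?_⟩
  · rw [hb]; field_simp; ring
  · rw [hb, hg]; field_simp; ring

/-- If `D` is `+ - + -` on the four intervals cut by `0 < r₁ < r₂ < r₃` and has vanishing mass,
`log` and `log ^ 2` moments, its second moment is nonpositive. -/
theorem sq_moment_le_of_cross {D : ℝ → ℝ} {r₁ r₂ r₃ : ℝ} (h0 : 0 < r₁) (h12 : r₁ < r₂)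
    (h23 : r₂ < r₃)
    (pos₁ : ∀ x ∈ Ioo 0 r₁, 0 ≤ D x) (neg₁ : ∀ x ∈ Ioo r₁ r₂, D x ≤ 0)
    (pos₂ : ∀ x ∈ Ioo r₂ r₃, 0 ≤ D x) (neg₂ : ∀ x, r₃ < x → D x ≤ 0)
    (i₀ : IntegrableOn D (Ioi 0)) (i₁ : IntegrableOn (fun x => D x * log x) (Ioi 0))
    (i₂ : IntegrableOn (fun x => D x * log x ^ 2) (Ioi 0))
    (i₃ : IntegrableOn (fun x => D x * x ^ 2) (Ioi 0))
    (m₀ : ∫ x in Ioi 0, D x = 0) (m₁ : ∫ x in Ioi 0, D x * log x = 0)
    (m₂ : ∫ x in Ioi 0, D x * log x ^ 2 = 0) :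
    ∫ x in Ioi 0, D x * x ^ 2 ≤ 0 := by
  have L12 : log r₁ < log r₂ := log_lt_log h0 h12
  have L23 : log r₂ < log r₃ := log_lt_log (h0.trans h12) h23
  obtain ⟨α, β, γ, e₁, e₂, e₃⟩ := exists_interp L12 L23 (exp (2 * log r₁)) (exp (2 * log r₂))
    (exp (2 * log r₃))
  have key : ∫ x in Ioi 0, (D x * x ^ 2 + α * D x + β * (D x * log x) + γ * (D x * log x ^ 2))
      ≤ 0 := by
    refine setIntegral_nonpos_ae measurableSet_Ioi ?_
    have hne : ∀ᵐ x : ℝ, x ∉ ({r₁, r₂, r₃} : Set ℝ) :=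
      (Set.toFinite _).countable.ae_notMem _
    filter_upwards [hne] with x hx hx0
    have hx0 : 0 < x := hx0
    simp only [mem_insert_iff, mem_singleton_iff, not_or] at hx
    have hsq : exp (2 * log x) = x ^ 2 := by
      rw [two_mul, exp_add, exp_log hx0, sq]
    have hP := exp_interp L12 L23 e₁ e₂ e₃ (log x)
    rw [hsq] at hP
    have : D x * x ^ 2 + α * D x + β * (D x * log x) + γ * (D x * log x ^ 2)
        = D x * (x ^ 2 + α + β * log x + γ * log x ^ 2) := by ring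
    rw [this]
    rcases lt_or_gt_of_ne hx.1 with a | a
    · have n1 := sub_neg.mpr (log_lt_log hx0 a)
      have n2 := sub_neg.mpr ((log_lt_log hx0 a).trans L12)
      have n3 := sub_neg.mpr (((log_lt_log hx0 a).trans L12).trans L23)
      exact mul_nonpos_of_nonneg_of_nonpos (pos₁ x ⟨hx0, a⟩) (nonpos_aux
        hP (mul_neg_of_pos_of_neg (mul_pos_of_neg_of_neg n1 n2) n3))
    rcases lt_or_gt_of_ne hx.2.1 with b | b
    · have n1 := sub_pos.mpr (log_lt_log h0 a)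
      have n2 := sub_neg.mpr (log_lt_log hx0 b)
      have n3 := sub_neg.mpr ((log_lt_log hx0 b).trans L23)
      exact mul_nonpos_of_nonpos_of_nonneg (neg₁ x ⟨a, b⟩) (nonneg_aux
        hP (mul_pos_of_neg_of_neg (mul_neg_of_pos_of_neg n1 n2) n3))
    rcases lt_or_gt_of_ne hx.2.2 with c | c
    · have n1 := sub_pos.mpr (log_lt_log h0 a)
      have n2 := sub_pos.mpr (log_lt_log (h0.trans h12) b)
      have n3 := sub_neg.mpr (log_lt_log hx0 c)
      exact mul_nonpos_of_nonneg_of_nonpos (pos₂ x ⟨b, c⟩) (nonpos_aux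
        hP (mul_neg_of_pos_of_neg (mul_pos n1 n2) n3))
    · have n1 := sub_pos.mpr (log_lt_log h0 a)
      have n2 := sub_pos.mpr (log_lt_log (h0.trans h12) b)
      have n3 := sub_pos.mpr (log_lt_log ((h0.trans h12).trans h23) c)
      exact mul_nonpos_of_nonpos_of_nonneg (neg₂ x c) (nonneg_aux
        hP (mul_pos (mul_pos n1 n2) n3))
  have j₀ := i₀.const_mul α
  have j₁ := i₁.const_mul β
  have j₂ := i₂.const_mul γ
  rw [integral_add (by exact (i₃.add j₀).add j₁) j₂, integral_add (by exact i₃.add j₀) j₁,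
    integral_add i₃ j₀, integral_const_mul, integral_const_mul, integral_const_mul, m₀, m₁, m₂]
    at key
  simpa using key

/-- A zero-moment `D` whose sign agrees with that of a quadratic in `log` vanishes. -/
theorem ae_zero_of_quadratic {D : ℝ → ℝ} {p q r : ℝ}
    (h : ∀ᵐ x : ℝ, 0 < x → 0 ≤ D x * (p + q * log x + r * log x ^ 2) ∧
      p + q * log x + r * log x ^ 2 ≠ 0)
    (i₀ : IntegrableOn D (Ioi 0)) (i₁ : IntegrableOn (fun x => D x * log x) (Ioi 0))
    (i₂ : IntegrableOn (fun x => D x * log x ^ 2) (Ioi 0))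
    (m₀ : ∫ x in Ioi 0, D x = 0) (m₁ : ∫ x in Ioi 0, D x * log x = 0)
    (m₂ : ∫ x in Ioi 0, D x * log x ^ 2 = 0) :
    ∀ᵐ x ∂volume.restrict (Ioi 0), D x = 0 := by
  have j₀ := i₀.const_mul p
  have j₁ := i₁.const_mul q
  have j₂ := i₂.const_mul r
  have e : (fun x => D x * (p + q * log x + r * log x ^ 2)) =
      fun x => p * D x + q * (D x * log x) + r * (D x * log x ^ 2) := by funext x; ring
  have hi : IntegrableOn (fun x => D x * (p + q * log x + r * log x ^ 2)) (Ioi 0) := by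
    rw [e]; exact (j₀.add j₁).add j₂
  have hz : ∫ x in Ioi 0, D x * (p + q * log x + r * log x ^ 2) = 0 := by
    rw [e, integral_add (by exact j₀.add j₁) j₂, integral_add j₀ j₁, integral_const_mul,
      integral_const_mul, integral_const_mul, m₀, m₁, m₂]
    ring
  have hnn : 0 ≤ᵐ[volume.restrict (Ioi 0)] fun x => D x * (p + q * log x + r * log x ^ 2) := by
    refine (ae_restrict_iff' measurableSet_Ioi).2 ?_
    filter_upwards [h] with x hx hx0 using (hx hx0).1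
  filter_upwards [(setIntegral_eq_zero_iff_of_nonneg_ae hnn hi).1 hz,
    (ae_restrict_iff' measurableSet_Ioi).2 (h.mono fun x hx hx0 => (hx hx0).2)] with x hx hx'
  exact (mul_eq_zero.1 hx).resolve_right hx'

theorem integral_mul_eq_zero {D : ℝ → ℝ} (h : ∀ᵐ x ∂volume.restrict (Ioi 0), D x = 0)
    (f : ℝ → ℝ) : ∫ x in Ioi 0, D x * f x = 0 :=
  integral_eq_zero_of_ae (h.mono fun x hx => by simp [hx])

theorem sq_moment_eq_zero {D : ℝ → ℝ} {p q r : ℝ}
    (h : ∀ᵐ x : ℝ, 0 < x → 0 ≤ D x * (p + q * log x + r * log x ^ 2) ∧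
      p + q * log x + r * log x ^ 2 ≠ 0)
    (i₀ : IntegrableOn D (Ioi 0)) (i₁ : IntegrableOn (fun x => D x * log x) (Ioi 0))
    (i₂ : IntegrableOn (fun x => D x * log x ^ 2) (Ioi 0))
    (m₀ : ∫ x in Ioi 0, D x = 0) (m₁ : ∫ x in Ioi 0, D x * log x = 0)
    (m₂ : ∫ x in Ioi 0, D x * log x ^ 2 = 0) :
    ∫ x in Ioi 0, D x * x ^ 2 ≤ 0 :=
  (integral_mul_eq_zero (ae_zero_of_quadratic h i₀ i₁ i₂ m₀ m₁ m₂) _).le

/-- The same from the structure of the set where `D` is positive: a down set in `(0, a]` and an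
interval in `(a, ∞)`. -/
theorem sq_moment_le {D : ℝ → ℝ} {a : ℝ} (ha : 0 ≤ a)
    (down : ∀ x ∈ Ioc 0 a, 0 < D x → ∀ y ∈ Ioo 0 x, 0 < D y)
    (conn : ∀ x z, a < x → 0 < D x → 0 < D z → ∀ y ∈ Icc x z, 0 < D y)
    (i₀ : IntegrableOn D (Ioi 0)) (i₁ : IntegrableOn (fun x => D x * log x) (Ioi 0))
    (i₂ : IntegrableOn (fun x => D x * log x ^ 2) (Ioi 0))
    (i₃ : IntegrableOn (fun x => D x * x ^ 2) (Ioi 0))
    (m₀ : ∫ x in Ioi 0, D x = 0) (m₁ : ∫ x in Ioi 0, D x * log x = 0)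
    (m₂ : ∫ x in Ioi 0, D x * log x ^ 2 = 0) :
    ∫ x in Ioi 0, D x * x ^ 2 ≤ 0 := by
  have eq0 := fun (p q r : ℝ) h => sq_moment_eq_zero (D := D) (p := p) (q := q) (r := r) h
    i₀ i₁ i₂ m₀ m₁ m₂
  -- the end of the first positive interval
  obtain ⟨r₁, hr₁0, hr₁a, P₁, N₁⟩ : ∃ r₁, 0 ≤ r₁ ∧ r₁ ≤ a ∧ (∀ x ∈ Ioo 0 r₁, 0 < D x) ∧
      ∀ x, r₁ < x → x ≤ a → D x ≤ 0 := by
    set S := {x | x ∈ Ioc 0 a ∧ 0 < D x} with hS
    rcases S.eq_empty_or_nonempty with he | hne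
    · refine ⟨0, le_rfl, ha, fun x hx => absurd hx (by simp), fun x h0 hxa => ?_⟩
      by_contra hpos
      exact (eq_empty_iff_forall_notMem.1 he x) ⟨⟨h0, hxa⟩, not_le.1 hpos⟩
    have hb : BddAbove S := ⟨a, fun x hx => hx.1.2⟩
    obtain ⟨x₀, hx₀⟩ := hne
    refine ⟨sSup S, hx₀.1.1.le.trans (le_csSup hb hx₀), csSup_le ⟨x₀, hx₀⟩ fun x hx => hx.1.2,
      fun x hx => ?_, fun x hx hxa => ?_⟩
    · obtain ⟨y, hy, hxy⟩ := exists_lt_of_lt_csSup ⟨x₀, hx₀⟩ hx.2
      exact down y hy.1 hy.2 x ⟨hx.1, hxy⟩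
    · by_contra hpos
      exact absurd (le_csSup hb ⟨⟨(hx₀.1.1.trans_le (le_csSup hb hx₀)).trans hx, hxa⟩,
        not_le.1 hpos⟩) (not_le.2 hx)
  have ne1 : ∀ t : ℝ, ∀ᵐ x : ℝ, x ≠ t := fun t => Measure.ae_ne volume t
  have hlog : ∀ {x t : ℝ}, 0 < x → 0 < t → x ≠ t → log x - log t ≠ 0 := fun hx ht hn h =>
    hn (log_injOn_pos hx ht (sub_eq_zero.1 h))
  set S := {x | a < x ∧ 0 < D x} with hS
  rcases S.eq_empty_or_nonempty with he | hne
  · -- `+ -`
    have N : ∀ x, r₁ < x → D x ≤ 0 := fun x hx => by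
      rcases le_or_gt x a with h | h
      · exact N₁ x hx h
      · exact not_lt.1 fun hp => (eq_empty_iff_forall_notMem.1 he x) ⟨h, hp⟩
    rcases eq_or_lt_of_le hr₁0 with h0 | h0
    · refine eq0 (-1) 0 0 (Filter.Eventually.of_forall fun x hx => ?_)
      have := N x (h0 ▸ hx)
      constructor <;> simp [this]
    refine eq0 (log r₁) (-1) 0 ((ne1 r₁).mono fun x hn hx => ⟨?_, ?_⟩)
    · rcases lt_or_gt_of_ne hn with h | h
      · exact mul_nonneg (P₁ x ⟨hx, h⟩).le (by linarith [log_lt_log hx h])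
      · exact mul_nonneg_of_nonpos_of_nonpos (N x h) (by linarith [log_lt_log h0 h])
    · intro h; exact hlog hx h0 hn (by linarith)
  obtain ⟨x₀, hx₀⟩ := hne
  have hb : BddBelow S := ⟨a, fun x hx => hx.1.le⟩
  set r₂ := sInf S with hr₂
  have har₂ : a ≤ r₂ := le_csInf ⟨x₀, hx₀⟩ fun x hx => hx.1.le
  have N₂ : ∀ x, r₁ < x → x < r₂ → D x ≤ 0 := fun x h1 h2 => by
    rcases le_or_gt x a with h | h
    · exact N₁ x h1 h
    · exact not_lt.1 fun hp => absurd (csInf_le hb ⟨h, hp⟩) (not_le.2 h2)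
  by_cases hbd : BddAbove S
  · set r₃ := sSup S with hr₃
    have P₂ : ∀ x ∈ Ioo r₂ r₃, 0 < D x := fun x hx => by
      obtain ⟨y, hy, hyx⟩ := exists_lt_of_csInf_lt ⟨x₀, hx₀⟩ hx.1
      obtain ⟨z, hz, hxz⟩ := exists_lt_of_lt_csSup ⟨x₀, hx₀⟩ hx.2
      exact conn y z hy.1 hy.2 hz.2 x ⟨hyx.le, hxz.le⟩
    have h23 : r₂ ≤ r₃ := (csInf_le hb hx₀).trans (le_csSup hbd hx₀)
    have N₃ : ∀ x, r₃ < x → D x ≤ 0 := fun x hx => by
      rcases le_or_gt x a with h | h
      · exact absurd (h.trans (har₂.trans h23)) (not_le.2 hx)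
      · exact not_lt.1 fun hp => absurd (le_csSup hbd ⟨h, hp⟩) (not_le.2 hx)
    rcases eq_or_lt_of_le (hr₁a.trans har₂) with e12 | h12
    · -- one positive interval
      have h3 : 0 ≤ r₃ := ha.trans (har₂.trans h23)
      rcases eq_or_lt_of_le h3 with e3 | h3
      · refine eq0 (-1) 0 0 (Filter.Eventually.of_forall fun x hx => ?_)
        have := N₃ x (e3 ▸ hx)
        constructor <;> simp [this]
      refine eq0 (log r₃) (-1) 0 (((ne1 r₁).and (ne1 r₃)).mono fun x hn hx => ⟨?_, ?_⟩)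
      · rcases lt_or_gt_of_ne hn.2 with h | h
        · have : 0 ≤ D x := by
            rcases lt_or_gt_of_ne hn.1 with g | g
            · exact (P₁ x ⟨hx, g⟩).le
            · exact (P₂ x ⟨e12 ▸ g, h⟩).le
          exact mul_nonneg this (by linarith [log_lt_log hx h])
        · exact mul_nonneg_of_nonpos_of_nonpos (N₃ x h) (by linarith [log_lt_log h3 h])
      · intro h; exact hlog hx h3 hn.2 (by linarith)
    rcases eq_or_lt_of_le h23 with e23 | h23
    · rcases eq_or_lt_of_le hr₁0 with h0 | h0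
      · refine eq0 (-1) 0 0 ((ne1 r₂).mono fun x hn hx => ?_)
        have : D x ≤ 0 := by
          rcases lt_or_gt_of_ne hn with h | h
          · exact N₂ x (h0 ▸ hx) h
          · exact N₃ x (e23 ▸ h)
        constructor <;> simp [this]
      refine eq0 (log r₁) (-1) 0 (((ne1 r₁).and (ne1 r₂)).mono fun x hn hx => ⟨?_, ?_⟩)
      · rcases lt_or_gt_of_ne hn.1 with h | h
        · exact mul_nonneg (P₁ x ⟨hx, h⟩).le (by linarith [log_lt_log hx h])
        · have : D x ≤ 0 := by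
            rcases lt_or_gt_of_ne hn.2 with g | g
            · exact N₂ x h g
            · exact N₃ x (e23 ▸ g)
          exact mul_nonneg_of_nonpos_of_nonpos this (by linarith [log_lt_log h0 h])
      · intro h; exact hlog hx h0 hn.1 (by linarith)
    rcases eq_or_lt_of_le hr₁0 with h0 | h0
    · -- `- + -`
      have p2 : 0 < r₂ := h0 ▸ h12
      refine eq0 (-(log r₂ * log r₃)) (log r₂ + log r₃) (-1)
        (((ne1 r₂).and (ne1 r₃)).mono fun x hn hx => ?_)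
      have e : -(log r₂ * log r₃) + (log r₂ + log r₃) * log x + -1 * log x ^ 2
          = -((log x - log r₂) * (log x - log r₃)) := by ring
      rw [e]
      refine ⟨?_, neg_ne_zero.2 (mul_ne_zero (hlog hx p2 hn.1)
        (hlog hx (p2.trans h23) hn.2))⟩
      rcases lt_or_gt_of_ne hn.1 with h | h
      · exact mul_nonneg_of_nonpos_of_nonpos (N₂ x (h0 ▸ hx) h)
          (by nlinarith [log_lt_log hx h, log_lt_log p2 h23])
      rcases lt_or_gt_of_ne hn.2 with g | g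
      · exact mul_nonneg (P₂ x ⟨h, g⟩).le (by nlinarith [log_lt_log p2 h, log_lt_log hx g])
      · exact mul_nonneg_of_nonpos_of_nonpos (N₃ x g)
          (by nlinarith [log_lt_log (p2.trans h23) g, log_lt_log p2 h23])
    exact sq_moment_le_of_cross h0 h12 h23 (fun x hx => (P₁ x hx).le)
      (fun x hx => N₂ x hx.1 hx.2) (fun x hx => (P₂ x hx).le) N₃ i₀ i₁ i₂ i₃ m₀ m₁ m₂
  · -- unbounded positive interval
    have P₂ : ∀ x, r₂ < x → 0 < D x := fun x hx => by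
      obtain ⟨y, hy, hyx⟩ := exists_lt_of_csInf_lt ⟨x₀, hx₀⟩ hx
      obtain ⟨z, hz, hxz⟩ := not_bddAbove_iff.1 hbd x
      exact conn y z hy.1 hy.2 hz.2 x ⟨hyx.le, hxz.le⟩
    rcases eq_or_lt_of_le (hr₁a.trans har₂) with e12 | h12
    · refine eq0 1 0 0 ((ne1 r₁).mono fun x hn hx => ?_)
      have : 0 ≤ D x := by
        rcases lt_or_gt_of_ne hn with g | g
        · exact (P₁ x ⟨hx, g⟩).le
        · exact (P₂ x (e12 ▸ g)).le
      constructor <;> simp [this]
    rcases eq_or_lt_of_le hr₁0 with h0 | h0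
    · have p2 : 0 < r₂ := h0 ▸ h12
      refine eq0 (-log r₂) 1 0 ((ne1 r₂).mono fun x hn hx => ⟨?_, ?_⟩)
      · rcases lt_or_gt_of_ne hn with h | h
        · exact mul_nonneg_of_nonpos_of_nonpos (N₂ x (h0 ▸ hx) h)
            (by linarith [log_lt_log hx h])
        · exact mul_nonneg (P₂ x h).le (by linarith [log_lt_log p2 h])
      · intro h; exact hlog hx p2 hn (by linarith)
    have p2 : 0 < r₂ := h0.trans h12
    refine eq0 (log r₁ * log r₂) (-(log r₁ + log r₂)) 1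
      (((ne1 r₁).and (ne1 r₂)).mono fun x hn hx => ?_)
    have e : log r₁ * log r₂ + -(log r₁ + log r₂) * log x + 1 * log x ^ 2
        = (log x - log r₁) * (log x - log r₂) := by ring
    rw [e]
    refine ⟨?_, mul_ne_zero (hlog hx h0 hn.1) (hlog hx p2 hn.2)⟩
    rcases lt_or_gt_of_ne hn.1 with h | h
    · exact mul_nonneg (P₁ x ⟨hx, h⟩).le
        (by nlinarith [log_lt_log hx h, log_lt_log h0 h12])
    rcases lt_or_gt_of_ne hn.2 with g | g
    · exact mul_nonneg_of_nonpos_of_nonpos (N₂ x h g)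
        (by nlinarith [log_lt_log h0 h, log_lt_log hx g])
    · exact mul_nonneg (P₂ x g).le (by nlinarith [log_lt_log p2 g, log_lt_log h0 h12])

/-- If `D` is positive only on an interval and has vanishing mass and `log` moment, its `log ^ 2`
moment is nonpositive. -/
theorem log_sq_moment_le {D : ℝ → ℝ}
    (conn : ∀ x z, 0 < x → 0 < D x → 0 < D z → ∀ y ∈ Icc x z, 0 < D y)
    (i₀ : IntegrableOn D (Ioi 0)) (i₁ : IntegrableOn (fun x => D x * log x) (Ioi 0))
    (i₂ : IntegrableOn (fun x => D x * log x ^ 2) (Ioi 0))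
    (m₀ : ∫ x in Ioi 0, D x = 0) (m₁ : ∫ x in Ioi 0, D x * log x = 0) :
    ∫ x in Ioi 0, D x * log x ^ 2 ≤ 0 := by
  by_contra hc
  have hpos : 0 < ∫ x in Ioi 0, D x * log x ^ 2 := not_le.1 hc
  -- a sign-matching polynomial of degree at most one would force `D = 0`
  have eq1 : ∀ p q : ℝ, (∀ᵐ x : ℝ, 0 < x → 0 ≤ D x * (p + q * log x) ∧ p + q * log x ≠ 0) →
      False := by
    intro p q h
    have j₀ := i₀.const_mul p
    have j₁ := i₁.const_mul q
    have e : (fun x => D x * (p + q * log x)) = fun x => p * D x + q * (D x * log x) := by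
      funext x; ring
    have hi : IntegrableOn (fun x => D x * (p + q * log x)) (Ioi 0) := by
      rw [e]; exact j₀.add j₁
    have hz : ∫ x in Ioi 0, D x * (p + q * log x) = 0 := by
      rw [e, integral_add j₀ j₁, integral_const_mul, integral_const_mul, m₀, m₁]; ring
    have hnn : 0 ≤ᵐ[volume.restrict (Ioi 0)] fun x => D x * (p + q * log x) :=
      (ae_restrict_iff' measurableSet_Ioi).2 (h.mono fun x hx hx0 => (hx hx0).1)
    have hD : ∀ᵐ x ∂volume.restrict (Ioi 0), D x = 0 := by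
      filter_upwards [(setIntegral_eq_zero_iff_of_nonneg_ae hnn hi).1 hz,
        (ae_restrict_iff' measurableSet_Ioi).2 (h.mono fun x hx hx0 => (hx hx0).2)] with x hx hx'
      exact (mul_eq_zero.1 hx).resolve_right hx'
    exact hpos.ne' (integral_mul_eq_zero hD _)
  have ne1 : ∀ t : ℝ, ∀ᵐ x : ℝ, x ≠ t := fun t => Measure.ae_ne volume t
  have hlog : ∀ {x t : ℝ}, 0 < x → 0 < t → x ≠ t → log x - log t ≠ 0 := fun hx ht hn h =>
    hn (log_injOn_pos hx ht (sub_eq_zero.1 h))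
  set S := {x | 0 < x ∧ 0 < D x} with hS
  rcases S.eq_empty_or_nonempty with he | ⟨x₀, hx₀⟩
  · refine eq1 (-1) 0 (Filter.Eventually.of_forall fun x hx => ?_)
    have : D x ≤ 0 := not_lt.1 fun hp => (eq_empty_iff_forall_notMem.1 he x) ⟨hx, hp⟩
    constructor <;> simp [this]
  have hb : BddBelow S := ⟨0, fun x hx => hx.1.le⟩
  set r₂ := sInf S
  have h02 : 0 ≤ r₂ := le_csInf ⟨x₀, hx₀⟩ fun x hx => hx.1.le
  have N₂ : ∀ x, 0 < x → x < r₂ → D x ≤ 0 := fun x h1 h2 =>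
    not_lt.1 fun hp => absurd (csInf_le hb ⟨h1, hp⟩) (not_le.2 h2)
  by_cases hbd : BddAbove S
  · set r₃ := sSup S
    have h3 : 0 < r₃ := hx₀.1.trans_le (le_csSup hbd hx₀)
    have P₂ : ∀ x ∈ Ioo r₂ r₃, 0 < D x := fun x hx => by
      obtain ⟨y, hy, hyx⟩ := exists_lt_of_csInf_lt ⟨x₀, hx₀⟩ hx.1
      obtain ⟨z, hz, hxz⟩ := exists_lt_of_lt_csSup ⟨x₀, hx₀⟩ hx.2
      exact conn y z hy.1 hy.2 hz.2 x ⟨hyx.le, hxz.le⟩
    have N₃ : ∀ x, r₃ < x → D x ≤ 0 := fun x hx =>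
      not_lt.1 fun hp => absurd (le_csSup hbd ⟨h3.trans hx, hp⟩) (not_le.2 hx)
    rcases eq_or_lt_of_le h02 with e2 | p2
    · refine eq1 (log r₃) (-1) ((ne1 r₃).mono fun x hn hx => ⟨?_, ?_⟩)
      · rcases lt_or_gt_of_ne hn with h | h
        · exact mul_nonneg (P₂ x ⟨e2 ▸ hx, h⟩).le (by linarith [log_lt_log hx h])
        · exact mul_nonneg_of_nonpos_of_nonpos (N₃ x h) (by linarith [log_lt_log h3 h])
      · intro h; exact hlog hx h3 hn (by linarith)
    have key : ∫ x in Ioi 0, (D x * log x ^ 2 + -(log r₂ + log r₃) * (D x * log x)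
        + (log r₂ * log r₃) * D x) ≤ 0 := by
      refine setIntegral_nonpos_ae measurableSet_Ioi ?_
      filter_upwards [ne1 r₂, ne1 r₃] with x a b hx
      have hx : 0 < x := hx
      have e : D x * log x ^ 2 + -(log r₂ + log r₃) * (D x * log x) + (log r₂ * log r₃) * D x
          = D x * ((log x - log r₂) * (log x - log r₃)) := by ring
      rw [e]
      rcases lt_or_gt_of_ne a with h | h
      · have h23 : r₂ ≤ r₃ := (csInf_le hb hx₀).trans (le_csSup hbd hx₀)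
        exact mul_nonpos_of_nonpos_of_nonneg (N₂ x hx h) (mul_nonneg_of_nonpos_of_nonpos
          (by linarith [log_lt_log hx h]) (by linarith [log_lt_log hx (h.trans_le h23)]))
      rcases lt_or_gt_of_ne b with g | g
      · exact mul_nonpos_of_nonneg_of_nonpos (P₂ x ⟨h, g⟩).le (mul_nonpos_of_nonneg_of_nonpos
          (by linarith [log_lt_log p2 h]) (by linarith [log_lt_log hx g]))
      · exact mul_nonpos_of_nonpos_of_nonneg (N₃ x g)
          (mul_nonneg (by linarith [log_lt_log p2 h]) (by linarith [log_lt_log h3 g]))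
    have j₁ := i₁.const_mul (-(log r₂ + log r₃))
    have j₀ := i₀.const_mul (log r₂ * log r₃)
    rw [integral_add (by exact i₂.add j₁) j₀, integral_add i₂ j₁, integral_const_mul,
      integral_const_mul, m₀, m₁] at key
    linarith
  · have P₂ : ∀ x, r₂ < x → 0 < D x := fun x hx => by
      obtain ⟨y, hy, hyx⟩ := exists_lt_of_csInf_lt ⟨x₀, hx₀⟩ hx
      obtain ⟨z, hz, hxz⟩ := not_bddAbove_iff.1 hbd x
      exact conn y z hy.1 hy.2 hz.2 x ⟨hyx.le, hxz.le⟩
    rcases eq_or_lt_of_le h02 with e2 | p2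
    · refine eq1 1 0 (Filter.Eventually.of_forall fun x hx => ?_)
      have := (P₂ x (e2 ▸ hx)).le
      constructor <;> simp [this]
    refine eq1 (-log r₂) 1 ((ne1 r₂).mono fun x hn hx => ⟨?_, ?_⟩)
    · rcases lt_or_gt_of_ne hn with h | h
      · exact mul_nonneg_of_nonpos_of_nonpos (N₂ x hx h) (by linarith [log_lt_log hx h])
      · exact mul_nonneg (P₂ x h).le (by linarith [log_lt_log p2 h])
    · intro h; exact hlog hx p2 hn (by linarith)

end Vale.P254.E
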