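import Vale.Agent.P254.E.CurveDefs

/-! Derivatives, bounds and monotonicity of the functions on the model family. -/

namespace Vale.P254.E

open MeasureTheory Set Real Filter Topology
open scoped Interval

/-- The integrand of `cJ`. -/
noncomputable def gJ (t : ℝ) : ℝ := exp (-t) / t

/-- The integrand of `cG` before the shift. -/
noncomputable def gH (t : ℝ) : ℝ := log t * exp (-t) / t

theorem measurable_gJ : Measurable gJ := by unfold gJ; fun_prop

theorem measurable_gH : Measurable gH := by unfold gH; fun_prop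

theorem gJ_le {a t : ℝ} (ha : 0 < a) (ht : a < t) : gJ t ≤ exp (-t) / a :=
  div_le_div_of_nonneg_left (exp_pos _).le ha ht.le

theorem integrableOn_gJ {a : ℝ} (ha : 0 < a) : IntegrableOn gJ (Ioi a) := by
  refine ((integrableOn_exp_neg_Ioi a).div_const a).mono' measurable_gJ.aestronglyMeasurable ?_
  refine (ae_restrict_iff' measurableSet_Ioi).2 (Eventually.of_forall fun t ht => ?_)
  have := ha.trans ht
  rw [norm_eq_abs, abs_of_nonneg (by unfold gJ; positivity)]
  exact gJ_le ha ht

theorem log_shift_bounds {a t : ℝ} (ha : 0 < a) (ht : a < t) :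
    0 ≤ log (t / a) * exp (-t) / t ∧ log (t / a) * exp (-t) / t ≤ exp (-t) / a := by
  have ht0 := ha.trans ht
  have hl : 0 ≤ log (t / a) := log_nonneg (by rw [le_div_iff₀ ha]; linarith)
  refine ⟨by positivity, ?_⟩
  have hl' : log (t / a) ≤ t / a := (log_le_sub_one_of_pos (by positivity)).trans (by linarith)
  calc log (t / a) * exp (-t) / t ≤ t / a * exp (-t) / t := by gcongr
    _ = exp (-t) / a := by field_simp

theorem integrableOn_shift {a : ℝ} (ha : 0 < a) :
    IntegrableOn (fun t => log (t / a) * exp (-t) / t) (Ioi a) := by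
  refine ((integrableOn_exp_neg_Ioi a).div_const a).mono' ?_ ?_
  · exact Measurable.aestronglyMeasurable (by fun_prop)
  refine (ae_restrict_iff' measurableSet_Ioi).2 (Eventually.of_forall fun t ht => ?_)
  rw [norm_eq_abs, abs_of_nonneg (log_shift_bounds ha ht).1]
  exact (log_shift_bounds ha ht).2

theorem integrableOn_gH {a : ℝ} (ha : 0 < a) : IntegrableOn gH (Ioi a) := by
  refine ((integrableOn_shift ha).add ((integrableOn_gJ ha).const_mul (log a))).congr_fun
    (fun t ht => ?_) measurableSet_Ioi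
  have ht' : 0 < t := ha.trans ht
  simp only [Pi.add_apply, gH, gJ]
  rw [log_div ht'.ne' ha.ne']
  ring

theorem shift_integral {a : ℝ} (ha : 0 < a) :
    ∫ t in Ioi a, log (t / a) * exp (-t) / t
      = (∫ t in Ioi a, gH t) - log a * ∫ t in Ioi a, gJ t := by
  rw [← integral_const_mul, ← integral_sub (integrableOn_gH ha)
    ((integrableOn_gJ ha).const_mul _)]
  refine setIntegral_congr_fun measurableSet_Ioi fun t ht => ?_
  have ht' : 0 < t := ha.trans ht
  simp only [gH, gJ]
  rw [log_div ht'.ne' ha.ne']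
  ring

theorem hasDerivAt_tail {g : ℝ → ℝ} (hm : Measurable g)
    (hi : ∀ b, 0 < b → IntegrableOn g (Ioi b)) {a : ℝ} (ha : 0 < a) (hc : ContinuousAt g a) :
    HasDerivAt (fun x => ∫ t in Ioi x, g t) (-g a) a := by
  have h2 : 0 < a / 2 := by linarith
  have hI : IntervalIntegrable g volume (a / 2) a :=
    (intervalIntegrable_iff_integrableOn_Ioc_of_le (by linarith)).2
      ((hi _ h2).mono_set Ioc_subset_Ioi_self)
  have hd := (intervalIntegral.integral_hasDerivAt_right hI
    hm.stronglyMeasurable.stronglyMeasurableAtFilter hc).const_sub (∫ t in Ioi (a / 2), g t)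
  refine hd.congr_of_eventuallyEq ?_
  filter_upwards [eventually_gt_nhds (show a / 2 < a by linarith)] with x hx
  have := intervalIntegral.integral_interval_add_Ioi (a := a / 2) (b := x) (hi _ h2)
    (hi _ (h2.trans hx))
  linarith

theorem hasDerivAt_cJ {a : ℝ} (ha : 0 < a) : HasDerivAt cJ (cJ a - 1 / a) a := by
  have h := (Real.hasDerivAt_exp a).mul (hasDerivAt_tail measurable_gJ
    (fun b hb => integrableOn_gJ hb) ha (by unfold gJ; fun_prop (disch := positivity)))
  refine h.congr_deriv ?_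
  simp only [cJ, gJ, exp_neg]
  field_simp
  ring

theorem hasDerivAt_cG {a : ℝ} (ha : 0 < a) : HasDerivAt cG (cG a - 2 * cJ a / a) a := by
  have hH := hasDerivAt_tail measurable_gH (fun b hb => integrableOn_gH hb) ha
    (by unfold gH; fun_prop (disch := positivity))
  have hJ := hasDerivAt_tail measurable_gJ
    (fun b hb => integrableOn_gJ hb) ha (by unfold gJ; fun_prop (disch := positivity))
  have h := ((Real.hasDerivAt_exp a).const_mul 2).mul (hH.sub ((hasDerivAt_log ha.ne').mul hJ))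
  have e : cG =ᶠ[𝓝 a] fun x => 2 * exp x * ((∫ t in Ioi x, gH t) - log x * ∫ t in Ioi x, gJ t) := by
    filter_upwards [eventually_gt_nhds ha] with x hx
    rw [cG, shift_integral hx]
  refine (h.congr_of_eventuallyEq e).congr_deriv ?_
  rw [cG, shift_integral ha]
  simp only [cJ, gJ, gH, exp_neg, Pi.sub_apply, Pi.mul_apply]
  field_simp
  ring

theorem hasDerivAt_cV {a : ℝ} (ha : 0 < a) : HasDerivAt cV (cV a - cJ a ^ 2) a := by
  have h := (hasDerivAt_cG ha).sub ((hasDerivAt_cJ ha).pow 2)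
  refine h.congr_deriv ?_
  simp only [cV]
  field_simp
  ring

theorem cJ_nonneg {a : ℝ} (ha : 0 < a) : 0 ≤ cJ a := by
  refine mul_nonneg (exp_pos a).le (setIntegral_nonneg measurableSet_Ioi fun t ht => ?_)
  have : 0 < t := ha.trans ht
  positivity

theorem cJ_le_inv {a : ℝ} (ha : 0 < a) : cJ a ≤ 1 / a := by
  have h : ∫ t in Ioi a, exp (-t) / t ≤ ∫ t in Ioi a, exp (-t) / a :=
    setIntegral_mono_on (integrableOn_gJ ha) ((integrableOn_exp_neg_Ioi a).div_const a)
      measurableSet_Ioi fun t ht => gJ_le ha ht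
  rw [integral_div, integral_exp_neg_Ioi] at h
  calc cJ a ≤ exp a * (exp (-a) / a) := mul_le_mul_of_nonneg_left h (exp_pos a).le
    _ = 1 / a := by rw [exp_neg]; field_simp

theorem cG_nonneg {a : ℝ} (ha : 0 < a) : 0 ≤ cG a :=
  mul_nonneg (by positivity)
    (setIntegral_nonneg measurableSet_Ioi fun _ ht => (log_shift_bounds ha ht).1)

theorem cG_le {a : ℝ} (ha : 0 < a) : cG a ≤ 2 / a := by
  have h : ∫ t in Ioi a, log (t / a) * exp (-t) / t ≤ ∫ t in Ioi a, exp (-t) / a :=
    setIntegral_mono_on (integrableOn_shift ha) ((integrableOn_exp_neg_Ioi a).div_const a)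
      measurableSet_Ioi fun t ht => (log_shift_bounds ha ht).2
  rw [integral_div, integral_exp_neg_Ioi] at h
  calc cG a ≤ 2 * exp a * (exp (-a) / a) := mul_le_mul_of_nonneg_left h (by positivity)
    _ = 2 / a := by rw [exp_neg]; field_simp

/-- Comparison from infinity: a bounded solution of `f ≤ f'` is nonpositive. -/
theorem nonpos_of_le_deriv {f f' : ℝ → ℝ} {a C : ℝ} (hd : ∀ s, a ≤ s → HasDerivAt f (f' s) s)
    (hle : ∀ s, a ≤ s → f s ≤ f' s) (hb : ∀ s, a ≤ s → f s ≤ C) : f a ≤ 0 := by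
  by_contra h
  push Not at h
  have hD : ∀ s, a ≤ s → HasDerivAt (fun t => exp (-t) * f t) (exp (-s) * (f' s - f s)) s :=
    fun s hs => (((hasDerivAt_neg s).exp).mul (hd s hs)).congr_deriv (by ring)
  have hmono : MonotoneOn (fun t => exp (-t) * f t) (Ici a) :=
    monotoneOn_of_hasDerivWithinAt_nonneg (convex_Ici a)
      (fun s hs => (hD s hs).continuousAt.continuousWithinAt)
      (fun s hs => (hD s (interior_subset hs)).hasDerivWithinAt)
      (fun s hs => mul_nonneg (exp_pos _).le (sub_nonneg.2 (hle s (interior_subset hs))))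
  obtain ⟨s, hs, hgt⟩ : ∃ s, a ≤ s ∧ C < exp (s - a) * f a := by
    refine ⟨a + max 0 (C / f a), le_add_of_nonneg_right (le_max_left _ _), ?_⟩
    rw [add_sub_cancel_left]
    calc C = C / f a * f a := (div_mul_cancel₀ C h.ne').symm
      _ ≤ max 0 (C / f a) * f a := by gcongr; exact le_max_right _ _
      _ < exp (max 0 (C / f a)) * f a := by
          gcongr; linarith [add_one_le_exp (max 0 (C / f a))]
  have h2 : exp (-a) * f a ≤ exp (-s) * f s := hmono self_mem_Ici hs hs
  rw [show s - a = -a + s by ring, exp_add] at hgt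
  have h3 : exp s * (exp (-a) * f a) ≤ exp s * (exp (-s) * f s) :=
    mul_le_mul_of_nonneg_left h2 (exp_pos _).le
  rw [← mul_assoc (exp s) (exp (-s)), ← exp_add, add_neg_cancel, exp_zero, one_mul] at h3
  linarith [hb s hs, mul_comm (exp s) (exp (-a) * f a)]

theorem one_div_succ_le_cJ {a : ℝ} (ha : 0 < a) : 1 / (a + 1) ≤ cJ a := by
  refine sub_nonpos.1 (nonpos_of_le_deriv (f := fun s => 1 / (s + 1) - cJ s)
    (f' := fun s => -1 / (s + 1) ^ 2 - (cJ s - 1 / s)) (C := 1) ?_ ?_ ?_)
  · intro s hs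
    have hs0 : 0 < s := ha.trans_le hs
    have h1 : HasDerivAt (fun x : ℝ => 1 / (x + 1)) (-1 / (s + 1) ^ 2) s :=
      ((hasDerivAt_const s (1 : ℝ)).div ((hasDerivAt_id s).add_const 1)
        (by simp; linarith)).congr_deriv (by simp)
    exact h1.sub (hasDerivAt_cJ hs0)
  · intro s hs
    have hs0 : 0 < s := ha.trans_le hs
    have : (s + 2) / (s + 1) ^ 2 ≤ 1 / s := by
      rw [div_le_div_iff₀ (by positivity) hs0]; nlinarith
    have e : -1 / (s + 1) ^ 2 - (1 / (s + 1)) = -((s + 2) / (s + 1) ^ 2) := by field_simp; ring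
    linarith
  · intro s hs
    have hs0 : 0 < s := ha.trans_le hs
    have : 1 / (s + 1) ≤ 1 := by rw [div_le_one (by linarith)]; linarith
    linarith [cJ_nonneg hs0]

theorem cJ_le_U {a : ℝ} (ha : 0 < a) : cJ a ≤ (a + 1) / (a * (a + 2)) := by
  refine sub_nonpos.1 (nonpos_of_le_deriv (f := fun s => cJ s - (s + 1) / (s * (s + 2)))
    (f' := fun s => cJ s - 1 / s - ((s * (s + 2)) - (s + 1) * (2 * s + 2)) / (s * (s + 2)) ^ 2)
    (C := 1 / a) ?_ ?_ ?_)
  · intro s hs
    have hs0 : 0 < s := ha.trans_le hs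
    refine (hasDerivAt_cJ hs0).sub ?_
    refine (((hasDerivAt_id s).add_const 1).div
      ((hasDerivAt_id s).mul ((hasDerivAt_id s).add_const 2))
      (by simp only [Pi.mul_apply, id_eq]; positivity)).congr_deriv ?_
    simp; ring
  · intro s hs
    have hs0 : 0 < s := ha.trans_le hs
    have : 1 / s + ((s * (s + 2)) - (s + 1) * (2 * s + 2)) / (s * (s + 2)) ^ 2
        ≤ (s + 1) / (s * (s + 2)) := by
      rw [div_add_div _ _ hs0.ne' (by positivity),
        div_le_div_iff₀ (by positivity) (by positivity)]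
      nlinarith [pow_pos hs0 2, pow_pos hs0 3, pow_pos hs0 4, pow_pos hs0 5, pow_pos hs0 6]
    linarith
  · intro s hs
    have hs0 : 0 < s := ha.trans_le hs
    have : 1 / s ≤ 1 / a := one_div_le_one_div_of_le ha hs
    have : 0 ≤ (s + 1) / (s * (s + 2)) := by positivity
    linarith [cJ_le_inv hs0]

theorem cJ_le_sqrt {a : ℝ} (ha : 0 < a) : cJ a ≤ 3 / 4 / sqrt a := by
  refine sub_nonpos.1 (nonpos_of_le_deriv (f := fun s => cJ s - 3 / 4 / sqrt s)
    (f' := fun s => cJ s - 1 / s + 3 / 8 / (s * sqrt s)) (C := 1 / a) ?_ ?_ ?_)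
  · intro s hs
    have hs0 : 0 < s := ha.trans_le hs
    have h := ((Real.hasDerivAt_sqrt hs0.ne').inv (sqrt_pos.2 hs0).ne').const_mul (3 / 4 : ℝ)
    simp only [Pi.inv_apply, ← div_eq_mul_inv] at h
    refine ((hasDerivAt_cJ hs0).sub h).congr_deriv ?_
    rw [sq_sqrt hs0.le]
    field_simp
    ring
  · intro s hs
    have hs0 : 0 < s := ha.trans_le hs
    obtain ⟨r, hr, rfl⟩ : ∃ r, 0 < r ∧ s = r ^ 2 :=
      ⟨sqrt s, sqrt_pos.2 hs0, (sq_sqrt hs0.le).symm⟩
    rw [sqrt_sq hr.le]
    have : 1 / r ^ 2 ≤ 3 / 4 / r + 3 / 8 / (r ^ 2 * r) := by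
      rw [div_add_div _ _ hr.ne' (by positivity), div_le_div_iff₀ (by positivity) (by positivity)]
      nlinarith [mul_nonneg (pow_nonneg hr.le 3) (sq_nonneg (r - 2 / 3)), pow_pos hr 3]
    linarith
  · intro s hs
    have hs0 : 0 < s := ha.trans_le hs
    have : 1 / s ≤ 1 / a := one_div_le_one_div_of_le ha hs
    have : 0 ≤ 3 / 4 / sqrt s := by positivity
    linarith [cJ_le_inv hs0]

theorem cV_le {a : ℝ} (ha : 0 < a) : cV a ≤ cJ a / (1 + a) := by
  refine sub_nonpos.1 (nonpos_of_le_deriv (f := fun s => cV s - cJ s / (1 + s))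
    (f' := fun s => cV s - cJ s ^ 2 - ((cJ s - 1 / s) * (1 + s) - cJ s) / (1 + s) ^ 2)
    (C := 2 / a) ?_ ?_ ?_)
  · intro s hs
    have hs0 : 0 < s := ha.trans_le hs
    refine (hasDerivAt_cV hs0).sub ?_
    exact ((hasDerivAt_cJ hs0).div ((hasDerivAt_id s).const_add 1) (by simp; linarith)).congr_deriv
      (by simp)
  · intro s hs
    have hs0 : 0 < s := ha.trans_le hs
    have hJ0 := one_div_succ_le_cJ hs0
    suffices h : cJ s ^ 2 - cJ s / (1 + s) ^ 2 ≤ 1 / (s * (1 + s)) by
      have e : ((cJ s - 1 / s) * (1 + s) - cJ s) / (1 + s) ^ 2 - cJ s / (1 + s)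
          = -1 / (s * (1 + s)) - cJ s / (1 + s) ^ 2 := by field_simp; ring
      have e' : -1 / (s * (1 + s)) = -(1 / (s * (1 + s))) := by ring
      linarith
    -- the left side increases in `cJ s` on this range
    have key : ∀ U, cJ s ≤ U → U ^ 2 - U / (1 + s) ^ 2 ≤ 1 / (s * (1 + s)) →
        cJ s ^ 2 - cJ s / (1 + s) ^ 2 ≤ 1 / (s * (1 + s)) := by
      intro U hU hU'
      have h1 : 1 / (1 + s) ^ 2 ≤ U + cJ s := by
        have : 1 / (1 + s) ^ 2 ≤ 1 / (s + 1) := by
          rw [div_le_div_iff₀ (by positivity) (by positivity)]; nlinarith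
        linarith [cJ_nonneg hs0]
      have : (U - cJ s) * (1 / (1 + s) ^ 2) ≤ (U - cJ s) * (U + cJ s) :=
        mul_le_mul_of_nonneg_left h1 (by linarith)
      have e : U / (1 + s) ^ 2 - cJ s / (1 + s) ^ 2 = (U - cJ s) * (1 / (1 + s) ^ 2) := by ring
      nlinarith
    rcases le_total s (7 / 10) with h | h
    · refine key _ (cJ_le_sqrt hs0) ?_
      have hpos : 0 ≤ 3 / 4 / sqrt s / (1 + s) ^ 2 := by positivity
      have : (3 / 4 / sqrt s) ^ 2 ≤ 1 / (s * (1 + s)) := by
        rw [div_pow, sq_sqrt hs0.le, div_le_div_iff₀ hs0 (by positivity)]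
        nlinarith
      linarith
    · refine key _ (cJ_le_U hs0) ?_
      rw [div_pow, div_div, div_sub_div _ _ (by positivity) (by positivity),
        div_le_div_iff₀ (by positivity) (by positivity)]
      have q : (0 : ℝ) ≤ s ^ 2 * (s + 1) * (s + 2) ^ 1 * (1 + s) ^ 1 * (2 * s ^ 2 + 3 * s - 1) := by
        have : 0 ≤ 2 * s ^ 2 + 3 * s - 1 := by nlinarith
        positivity
      nlinarith [q]
  · intro s hs
    have hs0 : 0 < s := ha.trans_le hs
    have : 2 / s ≤ 2 / a := div_le_div_of_nonneg_left (by norm_num) ha hs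
    have : 0 ≤ cJ s / (1 + s) := div_nonneg (cJ_nonneg hs0) (by linarith)
    simp only [cV]
    linarith [cG_le hs0, sq_nonneg (cJ s)]

theorem cS_antitone : AntitoneOn cS (Ioi 0) := by
  have hd : ∀ a, 0 < a → HasDerivAt cS (deriv cS a) a ∧ deriv cS a ≤ 0 := by
    intro a ha
    have h := (((hasDerivAt_cV ha).sub_const 1).add
      (((hasDerivAt_id a).div ((hasDerivAt_id a).const_add 1) (by simp; linarith)).mul
        (((hasDerivAt_cJ ha).add_const 1).pow 2))).div ((hasDerivAt_id a).const_add 1)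
        (by simp; linarith)
    have h' : HasDerivAt cS _ a := h.congr_of_eventuallyEq
      (Eventually.of_forall fun x => by simp [cS])
    rw [h'.deriv]
    refine ⟨h', ?_⟩
    simp only [id_eq, Pi.add_apply, Pi.mul_apply, Pi.div_apply, Pi.pow_apply]
    have hV := cV_le ha
    have hJ0 := cJ_nonneg ha
    have hJ1 := cJ_le_inv ha
    rw [le_div_iff₀ ha] at hJ1
    rw [le_div_iff₀ (by linarith : (0 : ℝ) < 1 + a)] at hV
    set J := cJ a
    set V := cV a
    have e : a * (1 + a) ≠ 0 := by positivity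
    refine div_nonpos_of_nonpos_of_nonneg ?_ (by positivity)
    have key : (a - 1) * J ^ 2 + (2 * a - 1) * J - 2 ≤ 0 := by
      rcases le_total a 1 with g | g
      · have : (2 * a - 1) * J ≤ 2 := by nlinarith
        nlinarith [mul_nonneg (sub_nonneg.2 g) (sq_nonneg J)]
      · nlinarith [mul_le_mul hJ1 hJ1 (by positivity) zero_le_one]
    refine nonpos_of_mul_nonpos_right ?_ (by positivity : (0 : ℝ) < a * (1 + a) ^ 2)
    field_simp
    norm_num
    refine mul_nonpos_of_nonneg_of_nonpos (by positivity) ?_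
    nlinarith [mul_le_mul_of_nonneg_left hV ha.le, mul_nonneg ha.le (neg_nonneg.2 key)]
  refine antitoneOn_of_hasDerivWithinAt_nonpos (convex_Ioi 0)
    (fun x hx => (hd x hx).1.continuousAt.continuousWithinAt)
    (fun x hx => (hd x (interior_subset hx)).1.hasDerivWithinAt)
    fun x hx => (hd x (interior_subset hx)).2

theorem cR_antitone : AntitoneOn cR (Ioi 0) := by
  have hd : ∀ a, 0 < a → HasDerivAt cR (deriv cR a) a ∧ deriv cR a ≤ 0 := by
    intro a ha
    have hN : HasDerivAt (fun x => x ^ 3 / 3 + x ^ 2 + 2 * x + 2) (a ^ 2 + 2 * a + 2) a := by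
      refine (((((hasDerivAt_pow 3 a).div_const 3).add (hasDerivAt_pow 2 a)).add
        ((hasDerivAt_id a).const_mul 2)).add_const 2).congr_deriv ?_
      norm_num
    have hDn : HasDerivAt (fun x => x ^ 2 * (x + 1)) (3 * a ^ 2 + 2 * a) a := by
      refine ((hasDerivAt_pow 2 a).mul ((hasDerivAt_id a).add_const 1)).congr_deriv ?_
      simp; ring
    have hQ := hN.div hDn (by positivity)
    have h := ((((hQ.log (by simp only [Pi.div_apply]; positivity)).const_mul (1 / 2)).sub_const
      1).sub (((hasDerivAt_cJ ha).sub (hasDerivAt_id a)).div ((hasDerivAt_id a).const_add 1)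
        (by simp; linarith)))
    have h' : HasDerivAt cR _ a := h.congr_of_eventuallyEq
      (Eventually.of_forall fun x => by simp [cR, cQ])
    rw [h'.deriv]
    refine ⟨h', ?_⟩
    simp only [id_eq, Pi.sub_apply, Pi.div_apply]
    have hJ := one_div_succ_le_cJ ha
    rw [div_le_iff₀ (by linarith)] at hJ
    set J := cJ a
    have hN0 : 0 < a ^ 3 / 3 + a ^ 2 + 2 * a + 2 := by positivity
    refine nonpos_of_mul_nonpos_right ?_ (by positivity :
      (0 : ℝ) < a * (1 + a) ^ 3 * (a ^ 3 / 3 + a ^ 2 + 2 * a + 2))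
    field_simp
    nlinarith [mul_nonneg (mul_nonneg (sq_nonneg a) hN0.le) (sub_nonneg.2 hJ), pow_pos ha 2,
      pow_pos ha 3, pow_pos ha 4]
  refine antitoneOn_of_hasDerivWithinAt_nonpos (convex_Ioi 0)
    (fun x hx => (hd x hx).1.continuousAt.continuousWithinAt)
    (fun x hx => (hd x (interior_subset hx)).1.hasDerivWithinAt)
    fun x hx => (hd x (interior_subset hx)).2

end Vale.P254.E
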