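import Vale.Agent.P254.E.Model

/-! Frozen definitions for the certificate on the model family (`θ = a / (1 + a)`). -/

namespace Vale.P254.E

open MeasureTheory Set Real

/-- `exp a * E1 a`. -/
noncomputable def cJ (a : ℝ) : ℝ := exp a * ∫ t in Ioi a, exp (-t) / t

/-- `∫ y, log (1 + y / a) ^ 2 * exp (-y)`. -/
noncomputable def cG (a : ℝ) : ℝ := 2 * exp a * ∫ t in Ioi a, log (t / a) * exp (-t) / t

/-- `Var (log (a + Y))` for `Y` standard exponential. -/
noncomputable def cV (a : ℝ) : ℝ := cG a - cJ a ^ 2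

/-- The second moment of `model θ` over `θ ^ 2`. -/
noncomputable def cQ (a : ℝ) : ℝ := (a ^ 3 / 3 + a ^ 2 + 2 * a + 2) / (a ^ 2 * (a + 1))

/-- `Var log - 1` on the family. -/
noncomputable def cS (a : ℝ) : ℝ := (cV a - 1 + a / (1 + a) * (cJ a + 1) ^ 2) / (1 + a)

/-- `log` of the root mean square, minus `1 + E log`, on the family. -/
noncomputable def cR (a : ℝ) : ℝ := 1 / 2 * log (cQ a) - 1 - (cJ a - a) / (1 + a)

/-- Statement of the link between the family and these functions. -/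
def CurveLink : Prop :=
  ∀ a : ℝ, 0 < a → mdS (a / (1 + a)) = cS a ∧
    1 / 2 * log (mdQ (a / (1 + a))) - 1 - mdE (a / (1 + a)) = cR a

/-- Statement at the end point `θ = 1`. -/
def EndLink : Prop := mdS 1 = 0 ∧ mdE 1 = -1 ∧ mdQ 1 = 1 / 3

end Vale.P254.E
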