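import Vale.Agent.P254.E.CurveStep
import Vale.Agent.P254.E.CurveLink

/-! A fine certified grid on the model family, checked once and reused for every potential. -/

namespace Vale.P254.E

open MeasureTheory Set Real

/-- The inequality for one variable with a constant `c` and a potential `φ`. -/
def GapOK (φ : ℝ → ℝ) (c : ℝ) : Prop :=
  ∀ (g : ℝ → ℝ) (T : ℝ), Marg g T → 1 / 2 * log (mSq g T) + c < 1 + mLog g T + φ (mS g T)

/-- A point with a lower bound for `cS` and an upper bound for `cR`. -/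
structure Pt where
  a : ℚ
  s : ℚ
  r : ℚ

/-- What a point claims. -/
def Pt.Good (p : Pt) : Prop := 0 < (p.a : ℝ) ∧ (p.s : ℝ) ≤ cS p.a ∧ cR p.a ≤ p.r

/-- A point is implied by a row. -/
def ptOK (q : Row) (p : Pt) : Bool :=
  decide (p.a = q.a ∧ p.s ≤ q.sLo ∧ q.rHi ≤ p.r ∧ 0 ≤ q.lo)

theorem pt_good {q : Row} {p : Pt} (hq : q.Good) (h : ptOK q p = true) : p.Good := by
  simp only [ptOK, decide_eq_true_eq] at h
  obtain ⟨ha, hs, hr, hlo⟩ := h
  refine ⟨by rw [ha]; exact hq.1, ?_, ?_⟩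
  · rw [ha]
    exact ((Rat.cast_le (K := ℝ)).2 hs).trans (sLo_le hq hlo)
  · rw [ha]
    exact (cR_le_rHi hq).trans ((Rat.cast_le (K := ℝ)).2 hr)

/-- A stretch of rows with their points; returns `false` unless the lengths agree. -/
def segOK : Row → List Row → List Pt → Bool
  | _, [], [] => true
  | p, q :: l, x :: m => stepOK p q && ptOK q x && segOK q l m
  | _, _, _ => false

theorem seg_sound : ∀ (l : List Row) (m : List Pt) {p : Row}, p.Good → segOK p l m = true →
    (lastRow p l).Good ∧ ∀ x ∈ m, x.Good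
  | [], [], _, hp, _ => ⟨hp, fun x hx => absurd hx (by simp)⟩
  | [], _ :: _, _, _, h => absurd h (by simp [segOK])
  | _ :: _, [], _, _, h => absurd h (by simp [segOK])
  | q :: l, x :: m, p, hp, h => by
      simp only [segOK, Bool.and_eq_true] at h
      have hq := good_of_step hp h.1.1
      obtain ⟨h1, h2⟩ := seg_sound l m hq h.2
      refine ⟨h1, fun y hy => ?_⟩
      rcases List.mem_cons.1 hy with rfl | hy
      · exact pt_good hq h.1.2
      · exact h2 y hy

/-- The last point. -/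
def lastPt : Pt → List Pt → Pt
  | p, [] => p
  | _, q :: l => lastPt q l

/-- The sign condition on every gap between consecutive points. -/
def coverPts (φQ : ℚ → ℚ) (c : ℚ) : Pt → List Pt → Bool
  | _, [] => true
  | p, q :: l => decide (c + q.r < φQ p.s) && coverPts φQ c q l

theorem cover_pts_sound {φ : ℝ → ℝ} (hm : Monotone φ) {φQ : ℚ → ℚ}
    (hQ : ∀ x : ℚ, (φQ x : ℝ) ≤ φ x) {c : ℚ} :
    ∀ (l : List Pt) {p : Pt}, p.Good → (∀ x ∈ l, x.Good) → coverPts φQ c p l = true →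
      ∀ a : ℝ, ((lastPt p l).a : ℝ) ≤ a → a < p.a → (c : ℝ) + cR a < φ (cS a)
  | [], _, _, _, _, a, h1, h2 => by simp only [lastPt] at h1; linarith
  | q :: l, p, hp, hl, hc, a, h1, h2 => by
      simp only [coverPts, Bool.and_eq_true, decide_eq_true_eq] at hc
      have hq := hl q List.mem_cons_self
      rcases lt_or_ge a (q.a : ℝ) with g | g
      · exact cover_pts_sound hm hQ l hq (fun x hx => hl x (List.mem_cons_of_mem q hx)) hc.2 a h1 g
      have ha : 0 < a := hq.1.trans_le g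
      have hR : cR a ≤ q.r := (cR_antitone hq.1 ha g).trans hq.2.2
      have hS : (p.s : ℝ) ≤ cS a := hp.2.1.trans (cS_antitone ha hp.1 h2.le)
      have hlt := (Rat.cast_lt (K := ℝ)).2 hc.1
      push_cast at hlt
      linarith [hm hS, hQ p.s]

/-- Top, gaps and bottom. -/
def gridOK (φQ : ℚ → ℚ) (c : ℚ) (top : Pt) (pts : List Pt) (bot : Pt) (rEnd : ℚ) : Bool :=
  decide (c + top.r < 0) && coverPts φQ c top pts && decide ((lastPt top pts).a = bot.a) &&
    decide (c + rEnd < φQ bot.s) && decide (c < 54 / 100)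

/-- What the grid files provide. -/
structure GridData (top : Pt) (pts : List Pt) (bot : Pt) (rEnd : ℚ) : Prop where
  top_good : top.Good
  pts_good : ∀ x ∈ pts, x.Good
  bot_good : bot.Good
  bot_le : (bot.a : ℝ) ≤ 1
  end_le : ∀ a : ℝ, 0 < a → a ≤ bot.a → cR a ≤ rEnd

theorem gap_of_grid {top bot : Pt} {pts : List Pt} {rEnd : ℚ} (D : GridData top pts bot rEnd)
    {φ : ℝ → ℝ} (hm : Monotone φ) (h0 : ∀ x, 0 ≤ φ x) {φQ : ℚ → ℚ}
    (hQ : ∀ x : ℚ, (φQ x : ℝ) ≤ φ x) {c : ℚ} (hT : gridOK φQ c top pts bot rEnd = true) :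
    GapOK φ (c : ℝ) := by
  intro g T hg
  simp only [gridOK, Bool.and_eq_true, decide_eq_true_eq] at hT
  obtain ⟨⟨⟨⟨htop, hcov⟩, hlast⟩, hbot⟩, hc54⟩ := hT
  have htop' := (Rat.cast_lt (K := ℝ)).2 htop
  have hbot' := (Rat.cast_lt (K := ℝ)).2 hbot
  have hc54' := (Rat.cast_lt (K := ℝ)).2 hc54
  push_cast at htop' hbot' hc54'
  refine gap_of_model (fun θ hθ => ?_) hg
  rcases eq_or_lt_of_le hθ.2 with rfl | h1
  · obtain ⟨e1, e2, e3⟩ := endLink
    rw [e1, e2, e3, show (1 / 3 : ℝ) = 3⁻¹ by norm_num, log_inv]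
    have h3 : log (8 : ℝ) + 1 / 9 ≤ log (9 : ℝ) := by
      have := log_le_sub_one_of_pos (show (0 : ℝ) < 8 / 9 by norm_num)
      rw [log_div (by norm_num) (by norm_num)] at this
      linarith
    rw [show (8 : ℝ) = 2 ^ 3 by norm_num, show (9 : ℝ) = 3 ^ 2 by norm_num, log_pow, log_pow] at h3
    norm_num at h3
    linarith [h0 0, log_two_gt_d9]
  have low : ∀ a : ℝ, 0 < a → a ≤ bot.a → (bot.s : ℝ) ≤ cS a ∧ cR a ≤ rEnd := fun a ha hle =>
    ⟨D.bot_good.2.1.trans (cS_antitone ha D.bot_good.1 hle), D.end_le a ha hle⟩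
  have key : ∀ a : ℝ, 0 < a → (c : ℝ) + cR a < φ (cS a) := by
    intro a ha
    rcases lt_or_ge a (bot.a : ℝ) with g | g
    · obtain ⟨s, r⟩ := low a ha g.le
      linarith [hm s, hQ bot.s]
    rcases lt_or_ge a (top.a : ℝ) with g' | g'
    · exact cover_pts_sound hm hQ pts D.top_good D.pts_good hcov a (by rw [hlast]; exact g) g'
    · linarith [cR_antitone D.top_good.1 ha g', D.top_good.2.2, h0 (cS a)]
  have link : ∀ t ∈ Ioo (0 : ℝ) 1, 0 < t / (1 - t) ∧
      mdS t = cS (t / (1 - t)) ∧ 1 / 2 * log (mdQ t) - 1 - mdE t = cR (t / (1 - t)) := by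
    intro t ht
    have ha : 0 < t / (1 - t) := div_pos ht.1 (by linarith [ht.2])
    have h := curveLink _ ha
    rw [show t / (1 - t) / (1 + t / (1 - t)) = t by
      have : 1 - t ≠ 0 := by linarith [ht.2]
      field_simp; ring] at h
    exact ⟨ha, h⟩
  rcases eq_or_lt_of_le hθ.1 with rfl | h0θ
  · set U : Set ℝ := Ioo 0 ((bot.a : ℝ) / (1 + bot.a)) with hU
    have hb0 : 0 < (bot.a : ℝ) := D.bot_good.1
    have hlt1 : (bot.a : ℝ) / (1 + bot.a) ≤ 1 := (div_le_one (by linarith)).2 (by linarith)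
    have hsub : U ⊆ Icc (0 : ℝ) 1 := fun t ht => ⟨ht.1.le, ht.2.le.trans hlt1⟩
    have hcl : (0 : ℝ) ∈ closure U := by
      rw [hU, closure_Ioo (by positivity)]; exact ⟨le_rfl, by positivity⟩
    have cl : ∀ t ∈ U, (bot.s : ℝ) ≤ mdS t ∧
        1 / 2 * log (mdQ t) - 1 - mdE t ≤ (rEnd : ℝ) := by
      intro t ht
      obtain ⟨ha, e1, e2⟩ := link t ⟨ht.1, ht.2.trans_le hlt1⟩
      rw [e1, e2]
      refine low _ ha ?_
      have := (lt_div_iff₀ (by linarith)).1 ht.2
      rw [div_le_iff₀ (by nlinarith)]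
      nlinarith
    have hz : ∀ t ∈ Icc (0 : ℝ) 1, mom (fun _ => 1) t ≠ 0 := fun t h => (mom_one_pos h).ne'
    have cE : ContinuousWithinAt mdE U 0 :=
      (((continuousOn_mom wt_log).div (continuousOn_mom wt_one) hz) 0 (by simp)).mono hsub
    have cS' : ContinuousWithinAt mdS U 0 := (continuousOn_mdS 0 (by simp)).mono hsub
    have cQ' : ContinuousWithinAt mdQ U 0 :=
      (((continuousOn_mom wt_sq).div (continuousOn_mom wt_one) hz) 0 (by simp)).mono hsub
    have hQ0 : 0 < mdQ 0 := by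
      refine div_pos ?_ (mom_one_pos (by simp))
      refine (setIntegral_pos_iff_support_of_nonneg_ae ?_
        (integrableOn_model (by simp) wt_sq)).2 ?_
      · exact Filter.Eventually.of_forall fun x => mul_nonneg (model_nonneg 0 x) (sq_nonneg x)
      refine lt_of_lt_of_le ?_ (measure_mono (s := Ioo (0 : ℝ) 1) ?_)
      · simp
      rintro x ⟨hx0, -⟩
      refine ⟨?_, hx0⟩
      simp [Function.mem_support, model, hx0.ne', exp_ne_zero]
    have cR' : ContinuousWithinAt (fun t => 1 / 2 * log (mdQ t) - 1 - mdE t) U 0 :=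
      (((cQ'.log hQ0.ne').const_mul _).sub continuousWithinAt_const).sub cE
    have s0 : (bot.s : ℝ) ≤ mdS 0 := ContinuousWithinAt.closure_le hcl
      continuousWithinAt_const cS' fun t ht => (cl t ht).1
    have r0 : 1 / 2 * log (mdQ 0) - 1 - mdE 0 ≤ (rEnd : ℝ) := ContinuousWithinAt.closure_le hcl
      cR' continuousWithinAt_const fun t ht => (cl t ht).2
    linarith [hm s0, hQ bot.s]
  · obtain ⟨ha, e1, e2⟩ := link θ ⟨h0θ, h1⟩
    rw [e1]
    linarith [key _ ha]

end Vale.P254.E
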