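import Mathlib
import Vale.Agent.P254.E.LossKap

/-!
The weights `kap = l ^ 2 / (c₀ + c₁ l + c₂ l ^ 2)` coming from `A = l ^ al * exp (e l)`.
-/

namespace Vale.P254.E

open MeasureTheory Set Filter Topology

/-- `c₀ + c₁ l + c₂ l ^ 2` for the parameters `al`, `e`. -/
def kapFDen (al e l : ℝ) : ℝ := al * (1 - al) + al * (1 - 2 * e) * l + e * (1 - e) * l ^ 2

/-- The weight for the parameters `al`, `e`. -/
noncomputable def kapF (al e l : ℝ) : ℝ := l ^ 2 / kapFDen al e l

/-- Its derivative. -/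
noncomputable def dkapF (al e l : ℝ) : ℝ :=
  (2 * (al * (1 - al)) * l + al * (1 - 2 * e) * l ^ 2) / kapFDen al e l ^ 2

/-- `A = l ^ al * exp (e l)`. -/
noncomputable def ampF (al e l : ℝ) : ℝ := Real.exp (al * Real.log l + e * l)

theorem hasDeriv_ampF (al e : ℝ) {l : ℝ} (hl : 0 < l) :
    HasDerivAt (ampF al e) ((al / l + e) * ampF al e l) l :=
  (((Real.hasDerivAt_log hl.ne').const_mul al).add ((hasDerivAt_id' l).const_mul e)).exp.congr_deriv
    (by simp only [ampF, Pi.add_apply]; ring)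

theorem kapFDen_pos {al e l : ℝ} (ha : 0 < al) (ha1 : al ≤ 1) (he : 0 ≤ e) (he1 : e < 1 / 2)
    (hl : 0 < l) : 0 < kapFDen al e l := by
  have h0 : 0 ≤ al * (1 - al) := mul_nonneg ha.le (by linarith)
  have h1 : 0 < al * (1 - 2 * e) * l := mul_pos (mul_pos ha (by linarith)) hl
  have h2 : 0 ≤ e * (1 - e) * l ^ 2 := mul_nonneg (mul_nonneg he (by linarith)) (sq_nonneg _)
  unfold kapFDen; linarith

theorem lossWeight_kapF {al e : ℝ} (ha : 0 < al) (ha1 : al ≤ 1) (he : 0 ≤ e) (he1 : e < 1 / 2) :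
    LossWeight (kapF al e) (dkapF al e) (ampF al e)
      (fun l => (al / l + e) * ampF al e l)
      (fun l => ((al / l + e) ^ 2 - al / l ^ 2) * ampF al e l)
      (fun l => ((al / l + e) ^ 3 - 3 * (al / l + e) * (al / l ^ 2) + 2 * al / l ^ 3) * ampF al e l) := by
  have hD := fun {l : ℝ} (hl : 0 < l) => kapFDen_pos ha ha1 he he1 hl
  have hph : ∀ l : ℝ, 0 < l → HasDerivAt (fun x => al / x + e) (-(al / l ^ 2)) l := fun l hl =>
    (((hasDerivAt_const l al).div (hasDerivAt_id' l) hl.ne').add_const e).congr_deriv (by ring)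
  refine
    { d1 := fun l hl => hasDeriv_ampF al e hl
      d2 := fun l hl => ?_
      d3 := fun l hl => ?_
      c3 := ?_
      pos := fun l _ => Real.exp_pos _
      slope := fun l hl => ?_
      kap_eq := fun l hl => ?_
      dkap_eq := fun l hl => ?_
      bound := ?_ }
  · exact ((hph l hl).mul (hasDeriv_ampF al e hl)).congr_deriv (by ring)
  · have h2 : HasDerivAt (fun x => al / x ^ 2) (-(2 * al / l ^ 3)) l :=
      ((hasDerivAt_const l al).div ((hasDerivAt_id' l).pow 2) (pow_ne_zero 2 hl.ne')).congr_deriv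
        (by simp only [Pi.pow_apply]; field_simp; ring)
    exact ((((hph l hl).pow 2).sub h2).mul (hasDeriv_ampF al e hl)).congr_deriv
      (by simp only [Pi.sub_apply, Pi.pow_apply]; ring)
  · have hA : ContinuousOn (ampF al e) (Ioi 0) :=
      fun l hl => (hasDeriv_ampF al e hl).continuousAt.continuousWithinAt
    have hne : ∀ (n : ℕ), ∀ l ∈ Ioi (0 : ℝ), l ^ n ≠ 0 := fun n l hl => pow_ne_zero n (ne_of_gt hl)
    have hφ : ContinuousOn (fun l => al / l + e) (Ioi 0) :=
      (continuousOn_const.div continuousOn_id fun l hl => ne_of_gt hl).add continuousOn_const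
    exact (((hφ.pow 3).sub ((continuousOn_const.mul hφ).mul
      (continuousOn_const.div (continuousOn_id.pow 2) (hne 2)))).add
        (continuousOn_const.div (continuousOn_id.pow 3) (hne 3))).mul hA
  · have e1 : (al / l + e) * ampF al e l - ((al / l + e) ^ 2 - al / l ^ 2) * ampF al e l
        = kapFDen al e l / l ^ 2 * ampF al e l := by
      have := hl.ne'
      unfold kapFDen; field_simp; ring
    rw [e1]
    exact mul_pos (div_pos (hD hl) (pow_pos hl 2)) (Real.exp_pos _)
  · have e1 : (al / l + e) * ampF al e l - ((al / l + e) ^ 2 - al / l ^ 2) * ampF al e l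
        = kapFDen al e l / l ^ 2 * ampF al e l := by
      have := hl.ne'
      unfold kapFDen; field_simp; ring
    have := hl.ne'
    have := (hD hl).ne'
    rw [e1, kapF]
    field_simp
  · have h2 : HasDerivAt (kapFDen al e) (al * (1 - 2 * e) + e * (1 - e) * (2 * l)) l :=
      (((hasDerivAt_id' l).const_mul (al * (1 - 2 * e))).const_add (al * (1 - al))).add
        (((hasDerivAt_id' l).pow 2).const_mul (e * (1 - e))) |>.congr_deriv (by simp)
    exact ((((hasDerivAt_id' l).pow 2).div h2 (hD hl).ne')).congr_deriv (by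
      simp only [dkapF, kapFDen, Pi.pow_apply, id_eq]; ring)
  · have hc : 0 < al * (1 - 2 * e) := mul_pos ha (by linarith)
    refine ⟨2 / (al * (1 - 2 * e)), fun l hl => ?_⟩
    have hD' := hD hl
    have h0 : 0 ≤ al * (1 - al) := mul_nonneg ha.le (by linarith)
    have h2 : 0 ≤ e * (1 - e) := mul_nonneg he (by linarith)
    have hlow : al * (1 - 2 * e) * l ≤ kapFDen al e l := by
      unfold kapFDen
      nlinarith [mul_nonneg h2 (sq_nonneg l)]
    constructor
    · rw [kapF, div_mul_eq_mul_div, div_le_div_iff₀ hD' hc]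
      nlinarith [mul_le_mul_of_nonneg_left hlow hl.le, mul_pos hl hD']
    · have hn : 0 ≤ 2 * (al * (1 - al)) * l + al * (1 - 2 * e) * l ^ 2 := by positivity
      rw [dkapF, abs_of_nonneg (div_nonneg hn (sq_nonneg _)), div_le_div_iff₀ (pow_pos hD' 2) hc]
      have h3 : al * (1 - al) + al * (1 - 2 * e) * l ≤ kapFDen al e l := by
        unfold kapFDen
        nlinarith [mul_nonneg h2 (sq_nonneg l)]
      have h4 := mul_le_mul h3 hlow (mul_pos hc hl).le hD'.le
      nlinarith [mul_nonneg hc.le (mul_nonneg hc.le (sq_nonneg l))]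

/-- The loss for bodies of dimension at most `N` with the weight `kapF`. -/
theorem bodyLoss_kapF {al e : ℝ} (ha : 0 < al) (ha1 : al ≤ 1) (he : 0 ≤ e) (he1 : e < 1 / 2)
    {N : ℕ} (hN : 2 ≤ N) : BodyLoss N (tailLossK (2 - 2 / (N : ℝ)) (kapF al e) (dkapF al e)) :=
  (lossWeight_kapF ha ha1 he he1).bodyLoss hN

/-- The same for a group of dimensions `n ≤ N`. -/
theorem bodyLoss_kapF_group {al e : ℝ} (ha : 0 < al) (ha1 : al ≤ 1) (he : 0 ≤ e) (he1 : e < 1 / 2)
    {n N : ℕ} (hn : 2 ≤ n) (hN : n ≤ N) :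
    BodyLoss n (tailLossK (2 - 2 / (N : ℝ)) (kapF al e) (dkapF al e)) := fun m hm =>
  bodyLoss_kapF ha ha1 he he1 (hn.trans hN) m (hm.trans_le hN)

/-- The loss with `r = 2`, for every dimension. -/
theorem bodyLoss_kapF_two {al e : ℝ} (ha : 0 < al) (ha1 : al ≤ 1) (he : 0 ≤ e) (he1 : e < 1 / 2)
    (N : ℕ) : BodyLoss N (tailLossK 2 (kapF al e) (dkapF al e)) := by
  intro m _ K h i
  have hg : GainQuad (margin K i) (top K i) (slMean K i) 0 := by
    intro s hs t ht u hu
    simpa using gainPath h i s hs t ht u hu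
  simpa using (lossWeight_kapF ha ha1 he he1).var_le (marg_margin h i) hg.loc le_rfl zero_le_one
    (integrableOn_margin_mul_slMean h i) (integrableOn_margin_mul_slMean_sq h i)

end Vale.P254.E
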