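import Vale.Agent.P254.E.Defs
import Vale.Agent.P254.E.Cross

/-! Reduction of `OneDimA` to the one-parameter family flat, then exponential. -/

namespace Vale.P254.E

open MeasureTheory Set Real Filter Topology

/-- `exp (1 - x)` times a bound for `1`, `log`, `log ^ 2` and `x ^ 2`. -/
noncomputable def dom (x : ℝ) : ℝ :=
  exp (1 - x) * (1 + x ^ 2 + 16 * x ^ (1 / 2 : ℝ) + 16 * x ^ (-(1 / 2) : ℝ))

/-- The weights used. -/
def Wt (f : ℝ → ℝ) : Prop :=
  Measurable f ∧ ∀ x, 0 < x → |f x| ≤ 1 + x ^ 2 + 16 * x ^ (1 / 2 : ℝ) + 16 * x ^ (-(1 / 2) : ℝ)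

theorem log_sq_le {x : ℝ} (hx : 0 < x) :
    log x ^ 2 ≤ 16 * x ^ (1 / 2 : ℝ) + 16 * x ^ (-(1 / 2) : ℝ) := by
  have a := log_le_rpow_div hx.le (ε := 1 / 4) (by norm_num)
  have b := log_le_rpow_div (inv_pos.2 hx).le (ε := 1 / 4) (by norm_num)
  rw [log_inv, inv_rpow hx.le, ← rpow_neg hx.le] at b
  have p := rpow_pos_of_pos hx (1 / 4 : ℝ)
  have q := rpow_pos_of_pos hx (-(1 / 4) : ℝ)
  have e₁ : x ^ (1 / 2 : ℝ) = x ^ (1 / 4 : ℝ) * x ^ (1 / 4 : ℝ) := by
    rw [← rpow_add hx]; norm_num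
  have e₂ : x ^ (-(1 / 2) : ℝ) = x ^ (-(1 / 4) : ℝ) * x ^ (-(1 / 4) : ℝ) := by
    rw [← rpow_add hx]; norm_num
  rw [e₁, e₂]
  rcases le_total 0 (log x) with h | h <;> nlinarith

theorem wt_one : Wt fun _ => 1 := ⟨measurable_const, fun x hx => by
  have := rpow_nonneg hx.le (1 / 2 : ℝ); have := rpow_nonneg hx.le (-(1 / 2) : ℝ)
  rw [abs_one]; nlinarith⟩

theorem wt_sq : Wt fun x => x ^ 2 := ⟨measurable_id.pow_const 2, fun x hx => by
  have := rpow_nonneg hx.le (1 / 2 : ℝ); have := rpow_nonneg hx.le (-(1 / 2) : ℝ)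
  rw [abs_of_nonneg (sq_nonneg x)]; linarith⟩

theorem wt_log_sq : Wt fun x => log x ^ 2 := ⟨measurable_log.pow_const 2, fun x hx => by
  have := log_sq_le hx
  rw [abs_of_nonneg (sq_nonneg _)]; nlinarith⟩

theorem wt_log : Wt log := ⟨measurable_log, fun x hx => by
  have := log_sq_le hx
  have := sq_nonneg (|log x| - 1 / 2)
  have := sq_abs (log x)
  nlinarith [sq_nonneg x]⟩

theorem integrableOn_dom : IntegrableOn dom (Ioi 0) := by
  have a := GammaIntegral_convergent (show (0 : ℝ) < 1 by norm_num)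
  have b := GammaIntegral_convergent (show (0 : ℝ) < 3 by norm_num)
  have c := GammaIntegral_convergent (show (0 : ℝ) < 3 / 2 by norm_num)
  have d := GammaIntegral_convergent (show (0 : ℝ) < 1 / 2 by norm_num)
  have := (((a.add b).add (c.const_mul 16)).add (d.const_mul 16)).const_mul (exp 1)
  refine IntegrableOn.congr_fun this (fun x hx => ?_) measurableSet_Ioi
  have hx : 0 < x := hx
  simp only [Pi.add_apply, dom]
  norm_num
  rw [← rpow_natCast x 2, sub_eq_add_neg, exp_add]
  norm_num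
  ring

theorem integrableOn_of_le {p f : ℝ → ℝ} {C : ℝ} (hp : Measurable p) (hf : Wt f)
    (h : ∀ x, 0 < x → |p x| ≤ C * exp (1 - x)) :
    IntegrableOn (fun x => p x * f x) (Ioi 0) := by
  refine (integrableOn_dom.const_mul C).mono' ((hp.mul hf.1).aestronglyMeasurable) ?_
  refine (ae_restrict_iff' measurableSet_Ioi).2 (Eventually.of_forall fun x hx => ?_)
  have hC : 0 ≤ C * exp (1 - x) := (abs_nonneg _).trans (h x hx)
  calc ‖p x * f x‖ = |p x| * |f x| := abs_mul _ _
    _ ≤ C * exp (1 - x) * (1 + x ^ 2 + 16 * x ^ (1 / 2 : ℝ) + 16 * x ^ (-(1 / 2) : ℝ)) :=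
        mul_le_mul (h x hx) (hf.2 x hx) (abs_nonneg _) hC
    _ = C * dom x := by rw [dom]; ring

/-- Flat on `[0, θ]`, then exponential with mean `1 - θ`; for `θ = 1` the uniform law on `[0, 1]`. -/
noncomputable def model (θ x : ℝ) : ℝ :=
  if θ < 1 then exp (-(max (x - θ) 0 / (1 - θ))) else if x ≤ 1 then 1 else 0

theorem model_nonneg (θ x : ℝ) : 0 ≤ model θ x := by
  unfold model; split_ifs <;> positivity

theorem model_eq_one {θ x : ℝ} (hθ : θ ≤ 1) (hx : x ≤ θ) : model θ x = 1 := by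
  unfold model
  split_ifs with h h'
  · rw [max_eq_right (by linarith), zero_div, neg_zero, exp_zero]
  · rfl
  · exact absurd (hx.trans hθ) h'

theorem measurable_model (θ : ℝ) : Measurable (model θ) := by
  unfold model
  split_ifs
  · fun_prop
  · exact Measurable.ite measurableSet_Iic measurable_const measurable_const

theorem model_le {θ : ℝ} (hθ : θ ∈ Icc (0 : ℝ) 1) {x : ℝ} (_hx : 0 < x) :
    |model θ x| ≤ 1 * exp (1 - x) := by
  rw [abs_of_nonneg (model_nonneg θ x), one_mul]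
  unfold model
  split_ifs with h h'
  · refine exp_le_exp.2 ?_
    rcases le_or_gt x θ with g | g
    · rw [max_eq_right (by linarith), zero_div]; linarith [hθ.2]
    · rw [max_eq_left (by linarith)]
      have : x - θ ≤ (x - θ) / (1 - θ) := by
        rw [le_div_iff₀ (by linarith)]; nlinarith [hθ.1]
      linarith
  · exact one_le_exp (by linarith)
  · positivity

theorem integrableOn_model {θ : ℝ} (hθ : θ ∈ Icc (0 : ℝ) 1) {f : ℝ → ℝ} (hf : Wt f) :
    IntegrableOn (fun x => model θ x * f x) (Ioi 0) :=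
  integrableOn_of_le (measurable_model θ) hf fun _ hx => model_le hθ hx

/-- Moments of the model. -/
noncomputable def mom (f : ℝ → ℝ) (θ : ℝ) : ℝ := ∫ x in Ioi 0, model θ x * f x

theorem continuousOn_mom {f : ℝ → ℝ} (hf : Wt f) : ContinuousOn (mom f) (Icc 0 1) := by
  intro θ₀ hθ₀
  refine continuousWithinAt_of_dominated (bound := fun x => dom x) ?_ ?_ ?_ ?_
  · exact Eventually.of_forall fun θ => ((measurable_model θ).mul hf.1).aestronglyMeasurable
  · filter_upwards [self_mem_nhdsWithin] with θ hθ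
    refine (ae_restrict_iff' measurableSet_Ioi).2 (Eventually.of_forall fun x hx => ?_)
    calc ‖model θ x * f x‖ = |model θ x| * |f x| := abs_mul _ _
      _ ≤ 1 * exp (1 - x) * (1 + x ^ 2 + 16 * x ^ (1 / 2 : ℝ) + 16 * x ^ (-(1 / 2) : ℝ)) :=
          mul_le_mul (model_le hθ hx) (hf.2 x hx) (abs_nonneg _) (by positivity)
      _ = dom x := by rw [dom, one_mul]
  · exact integrableOn_dom
  · refine (ae_restrict_iff' measurableSet_Ioi).2 ?_
    filter_upwards [Measure.ae_ne volume (1 : ℝ)] with x hx1 _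
    refine ContinuousWithinAt.mul ?_ continuousWithinAt_const
    rcases lt_or_ge θ₀ 1 with h | h
    · have hc : ContinuousAt (fun θ => exp (-(max (x - θ) 0 / (1 - θ)))) θ₀ := by
        have : (1 : ℝ) - θ₀ ≠ 0 := by linarith
        fun_prop (disch := assumption)
      refine (hc.congr_of_eventuallyEq ?_).continuousWithinAt
      filter_upwards [eventually_lt_nhds h] with θ hθ using by rw [model, if_pos hθ]
    have e : θ₀ = 1 := le_antisymm hθ₀.2 h
    subst e
    rcases lt_or_gt_of_ne hx1 with g | g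
    · refine ContinuousWithinAt.congr_of_eventuallyEq (f := fun _ => (1 : ℝ))
        continuousWithinAt_const ?_ (model_eq_one le_rfl g.le)
      filter_upwards [nhdsWithin_le_nhds (eventually_gt_nhds g), self_mem_nhdsWithin] with θ hθ hI
      exact model_eq_one hI.2 hθ.le
    · have v : model 1 x = 0 := by simp [model, not_le.2 g]
      rw [ContinuousWithinAt, v, Metric.tendsto_nhdsWithin_nhds]
      intro ε hε
      refine ⟨min ε (x - 1) * (x - 1), mul_pos (lt_min hε (by linarith)) (by linarith),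
        fun θ hI hd => ?_⟩
      rw [Real.dist_0_eq_abs, abs_of_nonneg (model_nonneg θ x)]
      rcases eq_or_lt_of_le hI.2 with e | hlt
      · rw [e]; simpa [model, not_le.2 g] using hε
      rw [model, if_pos hlt, max_eq_left (by linarith), Real.dist_eq, abs_sub_comm,
        abs_of_pos (by linarith : (0 : ℝ) < 1 - θ)] at *
      have hu : 0 < (x - θ) / (1 - θ) := div_pos (by linarith) (by linarith)
      have : (x - θ) / (1 - θ) * exp (-((x - θ) / (1 - θ))) ≤ 1 := by
        have h1 := add_one_le_exp ((x - θ) / (1 - θ))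
        rw [exp_neg, ← div_eq_mul_inv, div_le_one (exp_pos _)]; linarith
      have hq : exp (-((x - θ) / (1 - θ))) ≤ (1 - θ) / (x - θ) := by
        rw [mul_comm, ← le_div_iff₀ hu, one_div, inv_div] at this
        exact this
      refine hq.trans_lt ((div_lt_iff₀ (by linarith)).2 ?_)
      nlinarith [min_le_left ε (x - 1)]

theorem mom_one_pos {θ : ℝ} (hθ : θ ∈ Icc (0 : ℝ) 1) : 0 < mom (fun _ => 1) θ := by
  refine (setIntegral_pos_iff_support_of_nonneg_ae ?_ (integrableOn_model hθ wt_one)).2 ?_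
  · exact Eventually.of_forall fun x => by simpa using model_nonneg θ x
  refine lt_of_lt_of_le ?_ (measure_mono (s := Ioo (0 : ℝ) 1) ?_)
  · simp
  rintro x ⟨hx0, hx1⟩
  refine ⟨?_, hx0⟩
  simp only [Function.mem_support, mul_one, model]
  split_ifs with h h'
  · exact (exp_pos _).ne'
  · norm_num
  · exact absurd hx1.le h'

/-- `E log` of the model. -/
noncomputable def mdE (θ : ℝ) : ℝ := mom log θ / mom (fun _ => 1) θ

/-- `Var log - 1` of the model. -/
noncomputable def mdS (θ : ℝ) : ℝ :=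
  mom (fun x => log x ^ 2) θ / mom (fun _ => 1) θ - mdE θ ^ 2 - 1

/-- Second moment of the model. -/
noncomputable def mdQ (θ : ℝ) : ℝ := mom (fun x => x ^ 2) θ / mom (fun _ => 1) θ

theorem continuousOn_mdS : ContinuousOn mdS (Icc 0 1) := by
  have h0 : ∀ θ ∈ Icc (0 : ℝ) 1, mom (fun _ => 1) θ ≠ 0 := fun θ h => (mom_one_pos h).ne'
  exact (((continuousOn_mom wt_log_sq).div (continuousOn_mom wt_one) h0).sub
    (((continuousOn_mom wt_log).div (continuousOn_mom wt_one) h0).pow 2)).sub continuousOn_const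

variable {g : ℝ → ℝ} {T : ℝ}

theorem Marg.le_exp (hg : Marg g T) {x : ℝ} (hx : 0 < x) :
    |g x| ≤ g 0 * exp T * exp (1 - x) := by
  rw [abs_of_nonneg (hg.nonneg x)]
  by_cases h : x ∈ Icc 0 T
  · calc g x ≤ g 0 := hg.anti self_mem_Ici hx.le hx.le
      _ ≤ g 0 * exp (T + (1 - x)) :=
          le_mul_of_one_le_right (hg.nonneg 0) (one_le_exp (by linarith [h.2]))
      _ = _ := by rw [exp_add]; ring
  · rw [hg.zero x h]
    have := hg.nonneg 0
    positivity

theorem Marg.integrableOn_wt (hg : Marg g T) {f : ℝ → ℝ} (hf : Wt f) :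
    IntegrableOn (fun x => g x * f x) (Ioi 0) :=
  integrableOn_of_le hg.meas hf fun _ hx => hg.le_exp hx

theorem Marg.integral_Ioi (hg : Marg g T) (f : ℝ → ℝ) :
    ∫ x in Ioi 0, g x * f x = ∫ x in Ioc 0 T, g x * f x := by
  refine setIntegral_eq_of_subset_of_forall_sdiff_eq_zero measurableSet_Ioi Ioc_subset_Ioi_self
    fun x hx => ?_
  rw [hg.zero x fun h => hx.2 ⟨hx.1, h.2⟩, zero_mul]

theorem Marg.mS_eq (hg : Marg g T) :
    mS g T = (∫ x in Ioi 0, g x * log x ^ 2) - mLog g T ^ 2 - 1 := by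
  have e1 : ∫ x in Ioi 0, g x * log x = mLog g T := hg.integral_Ioi _
  have e0 : ∫ x in Ioi 0, g x * 1 = 1 := by
    rw [hg.integral_Ioi]; simpa using hg.mass
  unfold mS
  rw [← hg.integral_Ioi]
  set m := mLog g T
  have : (fun x => g x * (log x - m) ^ 2) =
      fun x => g x * log x ^ 2 + (-2 * m) * (g x * log x) + m ^ 2 * (g x * 1) := by
    funext x; ring
  have a := (hg.integrableOn_wt wt_log).const_mul (-2 * m)
  have b := (hg.integrableOn_wt wt_one).const_mul (m ^ 2)
  rw [this, integral_add (by exact (hg.integrableOn_wt wt_log_sq).add a) b,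
    integral_add (hg.integrableOn_wt wt_log_sq) a, integral_const_mul, integral_const_mul, e1, e0]
  ring

/-- The model matched to mass one and a given `E log`. -/
noncomputable def scaled (θ e : ℝ) (x : ℝ) : ℝ :=
  model θ (x * exp (mdE θ - e)) * exp (mdE θ - e) / mom (fun _ => 1) θ

theorem integral_scaled (θ e : ℝ) (f : ℝ → ℝ) :
    ∫ x in Ioi 0, scaled θ e x * f (x * exp (mdE θ - e)) = mom f θ / mom (fun _ => 1) θ := by
  set r := exp (mdE θ - e) with hr
  have h := integral_comp_mul_right_Ioi (fun y => model θ y * f y) 0 (exp_pos (mdE θ - e))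
  rw [zero_mul, smul_eq_mul, ← hr] at h
  have e1 : (fun x => scaled θ e x * f (x * r))
      = fun x => model θ (x * r) * f (x * r) * (r / mom (fun _ => 1) θ) := by
    funext x; simp only [scaled, ← hr]; ring
  have hr0 : r ≠ 0 := (exp_pos _).ne'
  rw [e1, integral_mul_const, h]
  simp only [mom]
  field_simp

theorem integrableOn_scaled {θ : ℝ} (hθ : θ ∈ Icc (0 : ℝ) 1) (e : ℝ) {f : ℝ → ℝ} (hf : Wt f) :
    IntegrableOn (fun x => scaled θ e x * f (x * exp (mdE θ - e))) (Ioi 0) := by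
  have h := (integrableOn_Ioi_comp_mul_right_iff (fun y => model θ y * f y) 0
    (exp_pos (mdE θ - e))).2 (by simpa using integrableOn_model hθ hf)
  refine IntegrableOn.congr_fun (h.const_mul (exp (mdE θ - e) / mom (fun _ => 1) θ)) (fun x _ => ?_)
    measurableSet_Ioi
  simp only [scaled]; ring

theorem scaled_moments {θ : ℝ} (hθ : θ ∈ Icc (0 : ℝ) 1) (e : ℝ) :
    (IntegrableOn (scaled θ e) (Ioi 0) ∧ ∫ x in Ioi 0, scaled θ e x = 1) ∧
    (IntegrableOn (fun x => scaled θ e x * log x) (Ioi 0) ∧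
      ∫ x in Ioi 0, scaled θ e x * log x = e) ∧
    (IntegrableOn (fun x => scaled θ e x * log x ^ 2) (Ioi 0) ∧
      ∫ x in Ioi 0, scaled θ e x * log x ^ 2 = mdS θ + 1 + e ^ 2) ∧
    (IntegrableOn (fun x => scaled θ e x * x ^ 2) (Ioi 0) ∧
      ∫ x in Ioi 0, scaled θ e x * x ^ 2 = exp (2 * (e - mdE θ)) * mdQ θ) := by
  set d := mdE θ - e with hd
  have Z : mom (fun _ => 1) θ / mom (fun _ => 1) θ = 1 := div_self (mom_one_pos hθ).ne'
  have i0 := integrableOn_scaled hθ e wt_one
  have v0 := integral_scaled θ e fun _ => 1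
  simp only [mul_one] at i0 v0
  rw [Z] at v0
  have i1 := integrableOn_scaled hθ e wt_log
  have v1 := integral_scaled θ e log
  have i2 := integrableOn_scaled hθ e wt_log_sq
  have v2 := integral_scaled θ e fun x => log x ^ 2
  have i3 := integrableOn_scaled hθ e wt_sq
  have v3 := integral_scaled θ e fun x => x ^ 2
  rw [← hd] at i1 v1 i2 v2 i3 v3
  change _ = mdE θ at v1
  have l : ∀ x ∈ Ioi (0 : ℝ), log (x * exp d) = log x + d := fun x hx => by
    rw [log_mul (ne_of_gt hx) (exp_pos d).ne', log_exp]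
  have h1 : EqOn (fun x => scaled θ e x * log (x * exp d) + -d * scaled θ e x)
      (fun x => scaled θ e x * log x) (Ioi 0) := fun x hx => by simp only [l x hx]; ring
  have h2 : EqOn (fun x => scaled θ e x * log (x * exp d) ^ 2
        + (-2 * d) * (scaled θ e x * log (x * exp d)) + d ^ 2 * scaled θ e x)
      (fun x => scaled θ e x * log x ^ 2) (Ioi 0) := fun x hx => by simp only [l x hx]; ring
  have h3 : EqOn (fun x => exp (-(2 * d)) * (scaled θ e x * (x * exp d) ^ 2))
      (fun x => scaled θ e x * x ^ 2) (Ioi 0) := fun x _ => by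
    have : exp (-(2 * d)) * exp d ^ 2 = 1 := by
      rw [sq, ← exp_add, ← exp_add, show -(2 * d) + (d + d) = 0 by ring, exp_zero]
    calc exp (-(2 * d)) * (scaled θ e x * (x * exp d) ^ 2)
        = scaled θ e x * x ^ 2 * (exp (-(2 * d)) * exp d ^ 2) := by ring
      _ = _ := by rw [this, mul_one]
  refine ⟨⟨i0, v0⟩, ⟨?_, ?_⟩, ⟨?_, ?_⟩, ?_, ?_⟩
  · exact (i1.add (i0.const_mul (-d))).congr_fun h1 measurableSet_Ioi
  · rw [← setIntegral_congr_fun measurableSet_Ioi h1, integral_add i1 (i0.const_mul (-d)),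
      integral_const_mul, v0, v1, hd]
    ring
  · exact ((i2.add (i1.const_mul (-2 * d))).add (i0.const_mul (d ^ 2))).congr_fun h2
      measurableSet_Ioi
  · rw [← setIntegral_congr_fun measurableSet_Ioi h2,
      integral_add (by exact i2.add (i1.const_mul (-2 * d))) (i0.const_mul (d ^ 2)),
      integral_add i2 (i1.const_mul (-2 * d)), integral_const_mul, integral_const_mul, v0, v1, v2,
      mdS, hd]
    ring
  · exact IntegrableOn.congr_fun (i3.const_mul (exp (-(2 * d)))) h3 measurableSet_Ioi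
  · rw [← setIntegral_congr_fun measurableSet_Ioi h3, integral_const_mul, v3, hd, mdQ]
    ring_nf

/-- The first place where the scaled model leaves its flat part. -/
noncomputable def knee (θ e : ℝ) : ℝ := θ / exp (mdE θ - e)

theorem scaled_down (hg : Marg g T) {θ : ℝ} (hθ : θ ∈ Icc (0 : ℝ) 1) (e : ℝ) :
    ∀ x ∈ Ioc 0 (knee θ e), 0 < g x - scaled θ e x →
      ∀ y ∈ Ioo 0 x, 0 < g y - scaled θ e y := by
  intro x hx h y hy
  have r := exp_pos (mdE θ - e)
  have hxθ : x * exp (mdE θ - e) ≤ θ := (le_div_iff₀ r).1 hx.2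
  have hyθ : y * exp (mdE θ - e) ≤ θ := by nlinarith [hy.2]
  have hga : g x ≤ g y := hg.anti (le_of_lt hy.1) (le_of_lt hx.1) hy.2.le
  rw [scaled, model_eq_one hθ.2 hxθ] at h
  rw [scaled, model_eq_one hθ.2 hyθ]
  linarith

theorem scaled_conn (hg : Marg g T) {θ : ℝ} (hθ : θ ∈ Icc (0 : ℝ) 1) (e : ℝ) :
    ∀ x z, knee θ e < x → 0 < g x - scaled θ e x → 0 < g z - scaled θ e z →
      ∀ y ∈ Icc x z, 0 < g y - scaled θ e y := by
  intro x z hx hDx hDz y hy
  set r := exp (mdE θ - e) with hr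
  have hr0 : 0 < r := exp_pos _
  have hZ := mom_one_pos hθ
  have hs : ∀ w, 0 ≤ scaled θ e w := fun w => by
    unfold scaled; have := model_nonneg θ (w * exp (mdE θ - e)); positivity
  have hx0 : 0 < x := lt_of_le_of_lt (div_nonneg hθ.1 hr0.le) hx
  have hgz : 0 < g z := by linarith [hs z]
  have hzT : z ≤ T := by
    by_contra h
    rw [hg.zero z fun h' => h h'.2] at hgz
    exact hgz.false
  rcases eq_or_lt_of_le hy.2 with rfl | hyz
  · exact hDz
  rcases eq_or_lt_of_le hy.1 with rfl | hxy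
  · exact hDx
  have hyθ : ∀ w, x ≤ w → θ < w * r := fun w hw => by
    have := (div_lt_iff₀ hr0).1 hx
    nlinarith
  rcases eq_or_lt_of_le hθ.2 with e1 | hlt
  · have hgy : 0 < g y := hg.pos y ⟨by linarith, by linarith⟩
    have : scaled θ e y = 0 := by
      have h1 : ¬ y * r ≤ 1 := not_le.2 (e1 ▸ hyθ y hxy.le)
      rw [scaled, model, ← hr, if_neg (by linarith), if_neg h1, zero_mul, zero_div]
    rw [this]; linarith
  -- `log (scaled θ e)` is affine to the right of the knee
  have aff : ∀ w, x ≤ w → scaled θ e w =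
      r / mom (fun _ => 1) θ * exp (-((w * r - θ) / (1 - θ))) := fun w hw => by
    rw [scaled, model, if_pos hlt, ← hr, max_eq_left (by linarith [hyθ w hw])]
    ring
  have hspos : ∀ w, x ≤ w → 0 < scaled θ e w := fun w hw => by rw [aff w hw]; positivity
  -- move `z` slightly to the left if it sits at `T`
  obtain ⟨z', hyz', hz'T, hDz'⟩ : ∃ z', y < z' ∧ z' < T ∧ 0 < g z' - scaled θ e z' := by
    rcases eq_or_lt_of_le hzT with rfl | h
    · have hc : ContinuousAt (fun w => r / mom (fun _ => 1) θ * exp (-((w * r - θ) / (1 - θ)))) z :=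
        by fun_prop
      have hlt' : r / mom (fun _ => 1) θ * exp (-((z * r - θ) / (1 - θ))) < g z := by
        rw [← aff z (by linarith)]; linarith
      obtain ⟨δ, hδ, hball⟩ := Metric.eventually_nhds_iff.1
        (hc.eventually_lt_const hlt')
      refine ⟨max ((y + z) / 2) (z - δ / 2), lt_max_of_lt_left (by linarith),
        max_lt (by linarith) (by linarith), ?_⟩
      set w := max ((y + z) / 2) (z - δ / 2)
      have hwz : w < z := max_lt (by linarith) (by linarith)
      have hxw : x ≤ w := le_max_of_le_left (by linarith)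
      have hb := hball (y := w) (by
        rw [Real.dist_eq, abs_sub_comm, abs_of_pos (by linarith)]
        linarith [le_max_right ((y + z) / 2) (z - δ / 2)])
      have := hg.anti (show w ∈ Ici 0 from by simp only [mem_Ici]; linarith)
        (show z ∈ Ici 0 from by simp only [mem_Ici]; linarith) hwz.le
      rw [aff w hxw]; linarith
    · exact ⟨z, hyz, h, hDz⟩
  obtain ⟨a, b, ha, hb, hab, hye⟩ : ∃ a b : ℝ, 0 < a ∧ 0 < b ∧ a + b = 1 ∧ a * x + b * z' = y := by
    refine ⟨(z' - y) / (z' - x), (y - x) / (z' - x), div_pos (by linarith) (by linarith),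
      div_pos (by linarith) (by linarith), ?_, ?_⟩ <;>
      (field_simp [show z' - x ≠ 0 by linarith]; ring)
  have hxI : x ∈ Ico 0 T := ⟨hx0.le, by linarith⟩
  have hzI : z' ∈ Ico 0 T := ⟨by linarith, hz'T⟩
  have hc := hg.logConcave.2 hxI hzI ha.le hb.le hab
  simp only [smul_eq_mul, hye] at hc
  have l : ∀ w, x ≤ w → log (scaled θ e w) =
      log (r / mom (fun _ => 1) θ) + -((w * r - θ) / (1 - θ)) := fun w hw => by
    rw [aff w hw, log_mul (by positivity) (exp_pos _).ne', log_exp]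
  have lx := log_lt_log (hspos x le_rfl) (by linarith : scaled θ e x < g x)
  have lz := log_lt_log (hspos z' (by linarith)) (by linarith : scaled θ e z' < g z')
  rw [l x le_rfl] at lx
  rw [l z' (by linarith)] at lz
  have ly : log (scaled θ e y) < log (g y) := by
    rw [l y hxy.le]
    have e2 : log (r / mom (fun _ => 1) θ) + -((y * r - θ) / (1 - θ))
        = a * (log (r / mom (fun _ => 1) θ) + -((x * r - θ) / (1 - θ)))
          + b * (log (r / mom (fun _ => 1) θ) + -((z' * r - θ) / (1 - θ))) := by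
      rw [← hye]
      linear_combination (-(log (r / mom (fun _ => 1) θ) + θ / (1 - θ))) * hab
    rw [e2]
    nlinarith
  have hgy : 0 < g y := hg.pos y ⟨by linarith, by linarith⟩
  linarith [(log_lt_log_iff (hspos y hxy.le) hgy).1 ly]

theorem uniform_conn (hg : Marg g T) (e : ℝ) :
    ∀ x z, 0 < x → 0 < scaled 1 e x - g x → 0 < scaled 1 e z - g z →
      ∀ y ∈ Icc x z, 0 < scaled 1 e y - g y := by
  intro x z hx hDx hDz y hy
  set r := exp (mdE 1 - e) with hr
  have hz : z * r ≤ 1 := by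
    by_contra h
    have : scaled 1 e z = 0 := by simp [scaled, model, ← hr, h]
    linarith [hg.nonneg z]
  have hr0 : 0 < r := exp_pos _
  have hy1 : y * r ≤ 1 := le_trans (by nlinarith [hy.2]) hz
  have hx1 : x * r ≤ 1 := le_trans (by nlinarith [hy.1, hy.2]) hz
  have := hg.anti (show x ∈ Ici 0 from hx.le) (show y ∈ Ici 0 from (by
    simp only [mem_Ici]; linarith [hy.1])) hy.1
  rw [scaled, model_eq_one le_rfl (by simpa [hr] using hx1)] at hDx
  rw [scaled, model_eq_one le_rfl (by simpa [hr] using hy1)]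
  linarith

/-- The moments of `g - scaled θ (E log)`. -/
theorem diff_moments (hg : Marg g T) {θ : ℝ} (hθ : θ ∈ Icc (0 : ℝ) 1) :
    let D := fun x => g x - scaled θ (mLog g T) x
    (IntegrableOn D (Ioi 0) ∧ IntegrableOn (fun x => D x * log x) (Ioi 0) ∧
      IntegrableOn (fun x => D x * log x ^ 2) (Ioi 0) ∧
      IntegrableOn (fun x => D x * x ^ 2) (Ioi 0)) ∧
    (∫ x in Ioi 0, D x = 0) ∧ (∫ x in Ioi 0, D x * log x = 0) ∧
    (∫ x in Ioi 0, D x * log x ^ 2 = mS g T - mdS θ) ∧
    (∫ x in Ioi 0, D x * x ^ 2 =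
      mSq g T - exp (2 * (mLog g T - mdE θ)) * mdQ θ) := by
  obtain ⟨⟨a0, w0⟩, ⟨a1, w1⟩, ⟨a2, w2⟩, ⟨a3, w3⟩⟩ := scaled_moments hθ (mLog g T)
  have g0 : IntegrableOn g (Ioi 0) := by simpa using hg.integrableOn_wt wt_one
  have u0 : ∫ x in Ioi 0, g x = 1 := by
    have := hg.integral_Ioi fun _ => 1
    simp only [mul_one] at this
    rw [this, hg.mass]
  intro D
  simp only [D, sub_mul]
  refine ⟨⟨g0.sub a0, (hg.integrableOn_wt wt_log).sub a1, (hg.integrableOn_wt wt_log_sq).sub a2,
    (hg.integrableOn_wt wt_sq).sub a3⟩, ?_, ?_, ?_, ?_⟩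
  · rw [integral_sub g0 a0, u0, w0, sub_self]
  · rw [integral_sub (hg.integrableOn_wt wt_log) a1, hg.integral_Ioi, w1]; exact sub_self _
  · rw [integral_sub (hg.integrableOn_wt wt_log_sq) a2, w2, hg.mS_eq]; ring
  · rw [integral_sub (hg.integrableOn_wt wt_sq) a3, w3, hg.integral_Ioi]; rfl

theorem mdS_range (hg : Marg g T) : mdS 1 ≤ mS g T ∧ mS g T ≤ mdS 0 := by
  constructor
  · obtain ⟨⟨i0, i1, i2, -⟩, m0, m1, m2, -⟩ := diff_moments hg (θ := 1) (by simp)
    have h := log_sq_moment_le (D := fun x => -(g x - scaled 1 (mLog g T) x))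
      (fun x z hx hDx hDz y hy => by
        simp only [neg_sub] at hDx hDz ⊢
        exact uniform_conn hg _ x z hx hDx hDz y hy)
      i0.neg (i1.neg.congr_fun (fun x _ => by simp; ring) measurableSet_Ioi)
      (i2.neg.congr_fun (fun x _ => by simp; ring) measurableSet_Ioi)
      (by rw [integral_neg, m0, neg_zero])
      (by simp only [neg_mul]; rw [integral_neg, m1, neg_zero])
    simp only [neg_mul, integral_neg, m2] at h
    linarith
  · obtain ⟨⟨i0, i1, i2, -⟩, m0, m1, m2, -⟩ := diff_moments hg (θ := 0) (by simp)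
    have h := log_sq_moment_le (D := fun x => g x - scaled 0 (mLog g T) x)
      (fun x z hx hDx hDz y hy => scaled_conn hg (by simp) _ x z
        (by simpa [knee] using hx) hDx hDz y hy) i0 i1 i2 m0 m1
    rw [m2] at h
    linarith

/-- `OneDimA` follows from its values on the family `model θ`, `θ ∈ [0, 1]`. -/
theorem gap_of_model {c : ℝ} {ψ : ℝ → ℝ}
    (h : ∀ θ ∈ Icc (0 : ℝ) 1, 1 / 2 * log (mdQ θ) + c < 1 + mdE θ + ψ (mdS θ)) {g : ℝ → ℝ}
    {T : ℝ} (hg : Marg g T) : 1 / 2 * log (mSq g T) + c < 1 + mLog g T + ψ (mS g T) := by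
  obtain ⟨θ, hθ, hθS⟩ := intermediate_value_Icc' zero_le_one continuousOn_mdS
    (show mS g T ∈ Icc (mdS 1) (mdS 0) from mdS_range hg)
  obtain ⟨⟨i0, i1, i2, i3⟩, m0, m1, m2, m3⟩ := diff_moments hg hθ
  have key := sq_moment_le (D := fun x => g x - scaled θ (mLog g T) x) (a := knee θ (mLog g T))
    (div_nonneg hθ.1 (exp_pos _).le) (scaled_down hg hθ _) (scaled_conn hg hθ _)
    i0 i1 i2 i3 m0 m1 (by rw [m2, hθS, sub_self])
  rw [m3] at key
  have hpos : 0 < mSq g T := by
    unfold mSq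
    refine (setIntegral_pos_iff_support_of_nonneg_ae
      (Eventually.of_forall fun x => mul_nonneg (hg.nonneg x) (sq_nonneg x))
      ((hg.integrableOn_wt wt_sq).mono_set Ioc_subset_Ioi_self)).2 ?_
    refine lt_of_lt_of_le ?_ (measure_mono (s := Ioo 0 T) fun x hx =>
      ⟨mul_ne_zero (hg.pos x ⟨hx.1.le, hx.2⟩).ne' (pow_ne_zero 2 hx.1.ne'), hx.1, hx.2.le⟩)
    simp [hg.top_pos]
  have hQ : 0 < exp (2 * (mLog g T - mdE θ)) * mdQ θ := by linarith
  have := log_le_log hpos (show mSq g T ≤ exp (2 * (mLog g T - mdE θ)) * mdQ θ by linarith)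
  rw [log_mul (exp_pos _).ne' (pos_of_mul_pos_right hQ (exp_pos _).le).ne', log_exp] at this
  have := h θ hθ
  rw [hθS] at this
  linarith

theorem oneDimA_of_model {n : ℕ} {ψ : ℝ → ℝ}
    (h : ∀ θ ∈ Icc (0 : ℝ) 1,
      1 / 2 * log (mdQ θ) + cConst n < 1 + mdE θ + ψ (mdS θ)) : OneDimA n ψ :=
  fun _ _ hg _ => gap_of_model h hg

end Vale.P254.E
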